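import Crest.Agent.N067.E.Basic
import Crest.Agent.N067.E.Col

-- ▼ part N067/E/HA
section

/-! # E/HA (leaf E-HA): harmonic approximation in `L¹`, no kernels

Fix a smooth `η~ ≥ 0` on `ℝ` vanishing on `[1/2, ∞)`, `η y = η~(‖y‖²)` with `∫ η = 1`, and
`Φ y = -(1/2) ∫_{‖y‖²}^1 η~` (so `∇Φ y = η y • y`, `Φ = 0` for `‖y‖² ≥ 1/2`).  `A_s x = ∫ W (x - s y) η y dy`.
`d/ds A_s x = -∫ ⟪∇W(x - s y), ∇Φ y⟫ dy = s^(1-k) ∫ gin W ζ` for `ζ w = Φ((x - w)/s)`, so the weak
inequality gives `|d/ds A_s x| ≤ ∫ (F(x - s y) ‖y‖ η y + s f0 |Φ y|) dy`; integrate over `s ∈ (0,ρ)` and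
`x ∈ ball 0 (θρ)`: `∫ |W - A_ρ| ≤ C ρ ∫_{ball 0 2ρ} F + C ρ² f0 ρ^k`.  `A_ρ x = ∫ W w ρ^(-k) η((x-w)/ρ) dw`; Taylor
for `η`: `|η(q + b) - η q - Dη q b| ≤ M ‖b‖²`, so `a = A_ρ 0`, `p = ∫ W w ρ^(-k-1) ∇η(-w/ρ) dw`. -/

set_option autoImplicit false

open MeasureTheory Laplacian InnerProductSpace Topology Filter Set Metric
open scoped RealInnerProductSpace ContDiff Gradient

namespace Crest.Agent.N067.E

open Crest.Agent.R077

noncomputable section

variable {n k : ℕ}

namespace HA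

/-- a radial mollifier `η` and its potential `Φ`, `∇Φ y = η y • y` -/
structure Ker (η Φ : EE k → ℝ) : Prop where
  sm : ContDiff ℝ ∞ η
  c1 : ContDiff ℝ 1 Φ
  nn : ∀ y, 0 ≤ η y
  one : ∫ y, η y = 1
  z : ∀ y, 1 ≤ ‖y‖ → η y = 0 ∧ Φ y = 0
  d : ∀ y, HasFDerivAt Φ (η y • innerSL ℝ y) y

theorem cs_of {V : Type} [Zero V] {f : EE k → V} {r : ℝ} (h : ∀ y, r < ‖y‖ → f y = 0) :
    HasCompactSupport f :=
  HasCompactSupport.intro (isCompact_closedBall 0 r) fun y hy =>
    h y (by rwa [mem_closedBall_zero_iff, not_le] at hy)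

theorem exists_ker (k : ℕ) : ∃ η Φ : EE k → ℝ, Ker η Φ := by
  obtain ⟨R, hR, hR0⟩ : ∃ R : ℝ → ℝ, (∀ x, HasDerivAt R (Real.smoothTransition x) x) ∧
      ∀ x ≤ 0, R x = 0 := by
    refine ⟨fun x => ∫ s in (0 : ℝ)..x, Real.smoothTransition s, fun x =>
      (Real.smoothTransition.continuous.integral_hasStrictDerivAt 0 x).hasDerivAt, fun x hx => ?_⟩
    beta_reduce
    rw [intervalIntegral.integral_congr (g := fun _ => (0 : ℝ)), intervalIntegral.integral_zero]
    intro s hs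
    rw [uIcc_of_ge hx] at hs
    exact Real.smoothTransition.zero_of_nonpos hs.2
  have hR1 : ContDiff ℝ 1 R := contDiff_one_iff_deriv.2 ⟨fun x => (hR x).differentiableAt, by
    rw [show deriv R = Real.smoothTransition from funext fun x => (hR x).deriv]
    exact Real.smoothTransition.continuous⟩
  have hs : ContDiff ℝ ∞ fun y : EE k => Real.smoothTransition (1 - ‖y‖ ^ 2) :=
    Real.smoothTransition.contDiff.comp (contDiff_const.sub (contDiff_norm_sq ℝ))
  have hz : ∀ y : EE k, 1 ≤ ‖y‖ → 1 - ‖y‖ ^ 2 ≤ 0 := fun y hy => by nlinarith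
  have hc : 0 < ∫ y : EE k, Real.smoothTransition (1 - ‖y‖ ^ 2) :=
    hs.continuous.integral_pos_of_hasCompactSupport_nonneg_nonzero (x := 0)
      (cs_of (r := 1) fun y hy => Real.smoothTransition.zero_of_nonpos (hz y hy.le))
      (fun y => Real.smoothTransition.nonneg _) (by simp)
  obtain ⟨c, hcd⟩ : ∃ c, c = ∫ y : EE k, Real.smoothTransition (1 - ‖y‖ ^ 2) := ⟨_, rfl⟩
  rw [← hcd] at hc
  refine ⟨fun y => c⁻¹ * Real.smoothTransition (1 - ‖y‖ ^ 2),
    fun y => -(2 * c)⁻¹ * R (1 - ‖y‖ ^ 2), contDiff_const.mul hs,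
    contDiff_const.mul (hR1.comp (contDiff_const.sub (contDiff_norm_sq ℝ))),
    fun y => mul_nonneg (inv_pos.2 hc).le (Real.smoothTransition.nonneg _), ?_, fun y hy => ?_,
    fun y => ?_⟩
  · rw [integral_const_mul, ← hcd, inv_mul_cancel₀ hc.ne']
  · simp only [Real.smoothTransition.zero_of_nonpos (hz y hy), hR0 _ (hz y hy), mul_zero,
      and_self]
  · have h1 := ((hR (1 - ‖y‖ ^ 2)).comp_hasFDerivAt y
      ((hasStrictFDerivAt_norm_sq y).hasFDerivAt.const_sub 1)).const_mul (-(2 * c)⁻¹)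
    refine h1.congr_fderiv ?_
    ext v
    simp
    field_simp

variable {η Φ W F : EE k → ℝ} {f0 ρ : ℝ}

theorem scale (g : EE k → ℝ) (x : EE k) {s : ℝ} (hs : 0 < s) :
    ∫ w, g (s⁻¹ • (x - w)) = s ^ k * ∫ y, g y := by
  rw [integral_sub_left_eq_self (fun w => g (s⁻¹ • w)) volume x,
    Measure.integral_comp_inv_smul_of_nonneg _ _ hs.le, finrank_euclideanSpace_fin, smul_eq_mul]

/-- the weak inequality tested with `Φ ((x - ·) / s)` -/
theorem Ker.slope (h : Ker η Φ)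
    (hw : ∀ ζ : EE k → ℝ, ContDiff ℝ 1 ζ → HasCompactSupport ζ → tsupport ζ ⊆ ball 0 (2 * ρ) →
      |∫ y, gin W ζ y| ≤ ∫ y, (F y * ‖∇ ζ y‖ + f0 * |ζ y|))
    {x : EE k} (hx : ‖x‖ < ρ) {s : ℝ} (hs : 0 < s) (hsρ : s ≤ ρ) :
    |∫ y, η y * fderiv ℝ W (x - s • y) y| ≤
      ∫ y, (F (x - s • y) * (η y * ‖y‖) + s * f0 * |Φ y|) := by
  have hsup : tsupport (fun w => Φ (s⁻¹ • (x - w))) ⊆ closedBall x s := by
    refine closure_minimal (fun w hw => ?_) isClosed_closedBall
    by_contra hc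
    rw [mem_closedBall', dist_eq_norm, not_le] at hc
    refine hw (h.z _ ?_).2
    rw [norm_smul, Real.norm_of_nonneg (inv_pos.2 hs).le, le_inv_mul_iff₀ hs, mul_one]
    exact hc.le
  have hg : ∀ w, ∇ (fun w => Φ (s⁻¹ • (x - w))) w =
      (-s⁻¹ * η (s⁻¹ • (x - w))) • s⁻¹ • (x - w) := fun w => by
    refine ext_inner_right ℝ fun v => ?_
    have h1 := (h.d (s⁻¹ • (x - w))).comp w (((hasFDerivAt_id w).const_sub x).const_smul s⁻¹)
    rw [inner_grad, show fderiv ℝ (fun w => Φ (s⁻¹ • (x - w))) w = _ from h1.fderiv]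
    simp [inner_smul_left, inner_sub_left]
    ring
  have h1 := hw (fun w => Φ (s⁻¹ • (x - w)))
    (h.c1.comp ((contDiff_const.sub contDiff_id).const_smul s⁻¹))
    ((isCompact_closedBall x s).of_isClosed_subset (isClosed_tsupport _) hsup)
    (hsup.trans (closedBall_subset_ball' (by rw [dist_zero_right]; linarith)))
  have e0 : ∀ w, x - s • s⁻¹ • (x - w) = w := fun w => by
    rw [smul_inv_smul₀ hs.ne', sub_sub_cancel]
  have e1 := scale (fun y => -s⁻¹ * (η y * fderiv ℝ W (x - s • y) y)) x hs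
  have e2 := scale (fun y => s⁻¹ * (F (x - s • y) * (η y * ‖y‖) + s * f0 * |Φ y|)) x hs
  simp only [e0] at e1 e2
  have e3 : ∀ w, gin W (fun w => Φ (s⁻¹ • (x - w))) w =
      -s⁻¹ * (η (s⁻¹ • (x - w)) * fderiv ℝ W w (s⁻¹ • (x - w))) := fun w => by
    rw [gin_eq, hg, inner_smul_right, inner_grad, mul_assoc]
  have e4 : ∀ w, F w * ‖∇ (fun w => Φ (s⁻¹ • (x - w))) w‖ + f0 * |Φ (s⁻¹ • (x - w))| =
      s⁻¹ * (F w * (η (s⁻¹ • (x - w)) * ‖s⁻¹ • (x - w)‖) + s * f0 * |Φ (s⁻¹ • (x - w))|) :=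
    fun w => by
      rw [hg, norm_smul (-s⁻¹ * _), Real.norm_eq_abs, abs_mul, abs_neg, abs_of_pos (inv_pos.2 hs),
        abs_of_nonneg (h.nn _)]
      field_simp
  simp only [e3, e4] at h1
  rw [e1, e2, integral_const_mul, integral_const_mul, abs_mul, abs_mul, abs_neg,
    abs_of_pos (inv_pos.2 hs), abs_of_pos (pow_pos hs k)] at h1
  exact le_of_mul_le_mul_left (le_of_mul_le_mul_left h1 (pow_pos hs k)) (inv_pos.2 hs)

theorem Ker.cs (h : Ker η Φ) : HasCompactSupport η := cs_of (r := 1) fun y hy => (h.z y hy.le).1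

theorem Ker.int (h : Ker η Φ) {g : EE k → ℝ} (hg : Continuous g) : Integrable fun y => η y * g y :=
  (h.sm.continuous.mul hg).integrable_of_hasCompactSupport h.cs.mul_right

/-- the fundamental theorem of calculus along rays, and Fubini -/
theorem Ker.ftc (h : Ker η Φ) (hW : ContDiff ℝ 1 W) (hρ : 0 < ρ) (x : EE k) :
    W x - ∫ y, η y * W (x - ρ • y) = ∫ s in Ioc 0 ρ, ∫ y, η y * fderiv ℝ W (x - s • y) y := by
  have hc : Continuous fun q : ℝ × EE k => η q.2 * fderiv ℝ W (x - q.1 • q.2) q.2 :=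
    (h.sm.continuous.comp continuous_snd).mul
      (((hW.continuous_fderiv one_ne_zero).comp (by fun_prop)).clm_apply continuous_snd)
  have hi : Integrable (Function.uncurry fun (s : ℝ) (y : EE k) => η y * fderiv ℝ W (x - s • y) y)
      ((volume.restrict (uIoc 0 ρ)).prod volume) := by
    rw [← Measure.restrict_univ (μ := (volume : Measure (EE k))), Measure.prod_restrict]
    refine IntegrableOn.of_forall_sdiff_eq_zero (s := Icc 0 ρ ×ˢ closedBall 0 1)
      (hc.continuousOn.integrableOn_compact (isCompact_Icc.prod (isCompact_closedBall 0 1)))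
      (measurableSet_uIoc.prod MeasurableSet.univ) fun q hq => ?_
    have h1 : q.1 ∈ Icc 0 ρ := Ioc_subset_Icc_self (uIoc_of_le hρ.le ▸ hq.1.1)
    have h2 : 1 < ‖q.2‖ := by
      by_contra h2
      exact hq.2 ⟨h1, mem_closedBall_zero_iff.2 (not_lt.1 h2)⟩
    change η q.2 * _ = 0
    rw [(h.z _ h2.le).1, zero_mul]
  have e : ∀ y : EE k, ∫ s in (0 : ℝ)..ρ, η y * fderiv ℝ W (x - s • y) y =
      η y * W x - η y * W (x - ρ • y) := fun y => by
    have h1 := intervalIntegral.integral_eq_sub_of_hasDerivAt (a := 0) (b := ρ)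
      (f := fun s : ℝ => -(η y * W (x - s • y))) (f' := fun s => η y * fderiv ℝ W (x - s • y) y)
      (fun s _ => ?_) ((hc.comp (continuous_id.prodMk continuous_const)).intervalIntegrable _ _)
    · rw [h1, zero_smul, sub_zero]
      ring
    · have h2 := ((hW.differentiable one_ne_zero (x - s • y)).hasFDerivAt.comp_hasDerivAt s
        (((hasDerivAt_id s).smul_const y).const_sub x)).const_mul (η y) |>.neg
      exact h2.congr_deriv (by simp)
  rw [← intervalIntegral.integral_of_le hρ.le, intervalIntegral_integral_swap hi]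
  simp only [e]
  have hc' : Continuous fun y : EE k => W (x - ρ • y) := hW.continuous.comp (by fun_prop)
  rw [integral_sub (h.int continuous_const) (h.int hc'), integral_mul_const, h.one, one_mul]

theorem Ker.enorm_le (h : Ker η Φ) (hW : ContDiff ℝ 1 W) (hF : ∀ y, 0 ≤ F y) (hf : 0 ≤ f0)
    (hρ : 0 < ρ)
    (hw : ∀ ζ : EE k → ℝ, ContDiff ℝ 1 ζ → HasCompactSupport ζ → tsupport ζ ⊆ ball 0 (2 * ρ) →
      |∫ y, gin W ζ y| ≤ ∫ y, (F y * ‖∇ ζ y‖ + f0 * |ζ y|))
    {M : ℝ} (hM : ∀ y, η y * ‖y‖ ≤ M ∧ |Φ y| ≤ M) {x : EE k} (hx : ‖x‖ < ρ) :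
    ‖W x - ∫ y, η y * W (x - ρ • y)‖ₑ ≤ ∫⁻ s in Ioc 0 ρ, ∫⁻ y in ball (0 : EE k) 1,
      ENNReal.ofReal (M * (F (x - s • y) + ρ * f0)) := by
  rw [h.ftc hW hρ]
  refine (enorm_integral_le_lintegral_enorm _).trans
    (setLIntegral_mono' measurableSet_Ioc fun s hs => ?_)
  have h1 := (h.slope hw hx hs.1 hs.2).trans (le_abs_self _)
  rw [Real.enorm_eq_ofReal_abs]
  refine (ENNReal.ofReal_le_ofReal h1).trans ?_
  rw [← Real.enorm_eq_ofReal_abs, ← lintegral_indicator measurableSet_ball]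
  refine (enorm_integral_le_lintegral_enorm _).trans (lintegral_mono fun y => ?_)
  by_cases hy : y ∈ ball (0 : EE k) 1
  · have h2 := hF (x - s • y)
    have h3 := h.nn y
    have h4 := hs.1
    rw [indicator_of_mem hy, Real.enorm_eq_ofReal_abs, abs_of_nonneg (by positivity)]
    refine ENNReal.ofReal_le_ofReal ?_
    have h5 := mul_le_mul_of_nonneg_left (hM y).1 h2
    have h6 : s * f0 * |Φ y| ≤ ρ * f0 * M :=
      mul_le_mul (mul_le_mul_of_nonneg_right hs.2 hf) (hM y).2 (abs_nonneg _) (by positivity)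
    linarith
  · rw [mem_ball_zero_iff, not_lt] at hy
    simp [(h.z y hy).1, (h.z y hy).2]

theorem vol_ball (x : EE k) {r : ℝ} (hr : 0 < r) :
    volume.real (ball x r) = r ^ k * volume.real (ball (0 : EE k) 1) := by
  rw [measureReal_def, Measure.addHaar_ball_of_pos _ _ hr, ENNReal.toReal_mul,
    ENNReal.toReal_ofReal (by positivity), finrank_euclideanSpace_fin, measureReal_def]

theorem vol_eq (x : EE k) (r : ℝ) : volume (ball x r) = ENNReal.ofReal (volume.real (ball x r)) :=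
  (ENNReal.ofReal_toReal measure_ball_lt_top.ne).symm

/-- Tonelli -/
theorem swap {H : EE k → ENNReal} (hH : Measurable H) {r : ℝ} (hr : r ≤ ρ) :
    ∫⁻ x in ball (0 : EE k) r, ∫⁻ s in Ioc 0 ρ, ∫⁻ y in ball (0 : EE k) 1, H (x - s • y) ≤
      (∫⁻ w in ball (0 : EE k) (2 * ρ), H w) * volume (ball (0 : EE k) 1) * ENNReal.ofReal ρ := by
  rw [lintegral_lintegral_swap (Measurable.lintegral_prod_right'
    (f := fun q : (EE k × ℝ) × EE k => H (q.1.1 - q.1.2 • q.2)) (by fun_prop)).aemeasurable]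
  refine (setLIntegral_mono' (g := fun _ => (∫⁻ w in ball (0 : EE k) (2 * ρ), H w) *
    volume (ball (0 : EE k) 1)) measurableSet_Ioc fun s hs => ?_).trans (by simp)
  rw [lintegral_lintegral_swap (Measurable.aemeasurable
    (f := fun q : EE k × EE k => H (q.1 - s • q.2)) (by fun_prop)), ← setLIntegral_const]
  refine setLIntegral_mono' measurableSet_ball fun y hy => ?_
  rw [← lintegral_indicator measurableSet_ball, ← lintegral_indicator measurableSet_ball,
    ← lintegral_sub_right_eq_self ((ball (0 : EE k) (2 * ρ)).indicator H) (s • y)]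
  refine lintegral_mono fun x => ?_
  by_cases hx : x ∈ ball (0 : EE k) r
  · rw [indicator_of_mem hx, indicator_of_mem]
    rw [mem_ball_zero_iff] at hx hy ⊢
    have h1 := norm_sub_le x (s • y)
    rw [norm_smul, Real.norm_of_nonneg hs.1.le] at h1
    nlinarith [hs.1, hs.2]
  · rw [indicator_of_notMem hx]
    exact zero_le

theorem norm_int_le {V : Type} [NormedAddCommGroup V] [NormedSpace ℝ V] {g : EE k → V} {c : ℝ}
    (h0 : ∀ y, 2 ≤ ‖y‖ → g y = 0) (h : ∀ y, ‖y‖ < 2 → ‖g y‖ ≤ c) :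
    ‖∫ y, g y‖ ≤ c * (2 ^ k * volume.real (ball (0 : EE k) 1)) := by
  rw [← setIntegral_eq_integral_of_forall_compl_eq_zero (s := ball 0 2)
    fun y hy => h0 y (by rwa [mem_ball_zero_iff, not_lt] at hy), ← vol_ball 0 two_pos]
  exact norm_setIntegral_le_of_norm_le_const measure_ball_lt_top
    fun y hy => h y (mem_ball_zero_iff.1 hy)

theorem Ker.fd_zero (h : Ker η Φ) {y : EE k} (hy : 1 < ‖y‖) : fderiv ℝ η y = 0 := by
  have : η =ᶠ[𝓝 y] fun _ => 0 := by
    filter_upwards [(isOpen_lt continuous_const continuous_norm).mem_nhds hy] with z hz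
    exact (h.z z (le_of_lt hz)).1
  rw [this.fderiv_eq, fderiv_fun_const, Pi.zero_apply]

theorem Ker.bound (h : Ker η Φ) : ∃ M : ℝ, 0 ≤ M ∧ (∀ y, η y * ‖y‖ ≤ M ∧ |Φ y| ≤ M) ∧
    (∀ y, ‖∇ η y‖ ≤ M) ∧ ∀ y b, |η (y + b) - η y - fderiv ℝ η y b| ≤ M * ‖b‖ ^ 2 := by
  obtain ⟨M1, h1⟩ := (h.cs.mul_right (f' := fun y => ‖y‖)).exists_bound_of_continuous
    (h.sm.continuous.mul continuous_norm)
  obtain ⟨M2, h2⟩ := (cs_of (r := 1) fun y hy => (h.z y hy.le).2).exists_bound_of_continuous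
    h.c1.continuous
  obtain ⟨M3, h3⟩ := (h.cs.fderiv ℝ).exists_bound_of_continuous (h.sm.continuous_fderiv (by simp))
  obtain ⟨M4, h4⟩ := ContDiff.lipschitzWith_of_hasCompactSupport (h.cs.fderiv ℝ)
    (h.sm.fderiv_right (m := 1) (by norm_cast)) one_ne_zero
  have a1 := (norm_nonneg _).trans (h1 0)
  have a2 := (norm_nonneg _).trans (h2 0)
  have a3 := (norm_nonneg _).trans (h3 0)
  have a4 := M4.2
  refine ⟨M1 + M2 + M3 + M4, by positivity, fun y => ⟨?_, ?_⟩, fun y => ?_, fun y b => ?_⟩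
  · have := (le_abs_self _).trans (h1 y)
    simp only [Pi.mul_apply] at this
    linarith [M4.coe_nonneg]
  · linarith [h2 y, Real.norm_eq_abs (Φ y), M4.coe_nonneg]
  · rw [St.norm_grad]
    linarith [h3 y, M4.coe_nonneg]
  · have h5 := (convex_closedBall y ‖b‖).norm_image_sub_le_of_norm_fderiv_le' (f := η)
      (φ := fderiv ℝ η y) (C := M4 * ‖b‖) (fun z _ => h.sm.differentiable (by simp) z)
      (fun z hz => (h4.norm_sub_le z y).trans (mul_le_mul_of_nonneg_left
        (mem_closedBall_iff_norm.1 hz) M4.coe_nonneg)) (mem_closedBall_self (norm_nonneg b))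
      (y := y + b) (by simp)
    rw [add_sub_cancel_left, Real.norm_eq_abs] at h5
    nlinarith [mul_nonneg (add_nonneg (add_nonneg a1 a2) a3) (sq_nonneg ‖b‖)]

/-- the mollified function is almost affine -/
theorem Ker.taylor (h : Ker η Φ) (hW : Continuous W) (hρ : 0 < ρ) {A M : ℝ} (hM : 0 ≤ M)
    (hA : ∀ y, ‖y‖ < 2 * ρ → |W y| ≤ A) (h1 : ∀ y, ‖∇ η y‖ ≤ M)
    (h2 : ∀ y b, |η (y + b) - η y - fderiv ℝ η y b| ≤ M * ‖b‖ ^ 2) :
    ∃ (a : ℝ) (p : EE k), |a| ≤ A ∧
      ρ * ‖p‖ ≤ A * M * (2 ^ k * volume.real (ball (0 : EE k) 1)) ∧ ∀ (θ : ℝ) (x : EE k), θ ≤ 1 →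
        ‖x‖ < θ * ρ → |(∫ y, η y * W (x - ρ • y)) - a - ⟪p, x⟫| ≤
          M * θ ^ 2 * A * (2 ^ k * volume.real (ball (0 : EE k) 1)) := by
  have hA0 : 0 ≤ A := (abs_nonneg _).trans (hA 0 (by simpa using hρ))
  have hc : Continuous fun y : EE k => W (-(ρ • y)) := hW.comp (by fun_prop)
  have hb : ∀ y : EE k, ‖y‖ < 2 → |W (-(ρ • y))| ≤ A := fun y hy => hA _ (by
    rw [norm_neg, norm_smul, Real.norm_of_nonneg hρ.le]
    nlinarith)
  have hg : ∀ y : EE k, 1 < ‖y‖ → ∇ η y = 0 := fun y hy => by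
    rw [← norm_eq_zero, St.norm_grad, h.fd_zero hy, norm_zero]
  have hi : Integrable fun y : EE k => W (-(ρ • y)) • ∇ η y :=
    (hc.smul (St.continuous_grad (contDiff_infty.1 h.sm 1))).integrable_of_hasCompactSupport
      (cs_of (r := 1) fun y hy => by
        change W (-(ρ • y)) • ∇ η y = 0
        rw [hg y hy, smul_zero])
  refine ⟨∫ y, η y * W (-(ρ • y)), ρ⁻¹ • ∫ y, W (-(ρ • y)) • ∇ η y, ?_, ?_, fun θ x hθ hx => ?_⟩
  · rw [← Real.norm_eq_abs]
    refine (norm_integral_le_of_norm_le (h.int (continuous_const (y := A)))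
      (Eventually.of_forall fun y => ?_)).trans (by rw [integral_mul_const, h.one, one_mul])
    rcases lt_or_ge ‖y‖ 2 with hy | hy
    · rw [norm_mul, Real.norm_of_nonneg (h.nn y)]
      exact mul_le_mul_of_nonneg_left (hb y hy) (h.nn y)
    · simp [(h.z y (by linarith)).1]
  · rw [norm_smul, Real.norm_of_nonneg (inv_pos.2 hρ).le, mul_inv_cancel_left₀ hρ.ne']
    refine norm_int_le (fun y hy => by rw [hg y (by linarith), smul_zero]) fun y hy => ?_
    rw [norm_smul]
    exact mul_le_mul (hb y hy) (h1 y) (norm_nonneg _) hA0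
  · have hn : ‖ρ⁻¹ • x‖ < θ := by
      rwa [norm_smul, Real.norm_of_nonneg (inv_pos.2 hρ).le, inv_mul_lt_iff₀' hρ]
    have e1 : ∫ y, η y * W (x - ρ • y) = ∫ y, η (y + ρ⁻¹ • x) * W (-(ρ • y)) := by
      rw [← integral_add_right_eq_self (fun y => η y * W (x - ρ • y)) (ρ⁻¹ • x)]
      simp only [smul_add, smul_inv_smul₀ hρ.ne', sub_add_cancel_right]
    have e2 : ⟪ρ⁻¹ • ∫ y, W (-(ρ • y)) • ∇ η y, x⟫ =
        ∫ y, fderiv ℝ η y (ρ⁻¹ • x) * W (-(ρ • y)) := by
      rw [real_inner_smul_left, ← real_inner_smul_right, real_inner_comm, ← integral_inner hi]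
      refine integral_congr_ae (Eventually.of_forall fun y => ?_)
      beta_reduce
      rw [real_inner_smul_right, real_inner_comm, inner_grad, mul_comm]
    generalize ρ⁻¹ • x = b at hn e1 e2
    have hz : ∀ y : EE k, 2 ≤ ‖y‖ → η (y + b) = 0 := fun y hy => (h.z _ (by
      have := norm_sub_le (y + b) b
      rw [add_sub_cancel_right] at this
      linarith)).1
    have i1 : Integrable fun y => η (y + b) * W (-(ρ • y)) :=
      ((h.sm.continuous.comp (continuous_id.add continuous_const)).mul hc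
        ).integrable_of_hasCompactSupport (cs_of (r := 2) fun y hy => by
          change η (y + b) * _ = 0
          rw [hz y hy.le, zero_mul])
    have i2 := h.int hc
    have i3 : Integrable fun y => fderiv ℝ η y b * W (-(ρ • y)) :=
      (((h.sm.continuous_fderiv (by simp)).clm_apply continuous_const).mul hc
        ).integrable_of_hasCompactSupport (cs_of (r := 1) fun y hy => by
          change fderiv ℝ η y b * _ = 0
          rw [h.fd_zero hy, zero_apply, zero_mul])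
    have i4 : Integrable fun y => η (y + b) * W (-(ρ • y)) - η y * W (-(ρ • y)) := i1.sub i2
    rw [e1, e2, ← integral_sub i1 i2, ← integral_sub i4 i3, ← Real.norm_eq_abs]
    refine norm_int_le (fun y hy => ?_) fun y hy => ?_
    · rw [hz y hy, (h.z y (by linarith)).1, h.fd_zero (by linarith)]
      simp
    · rw [← sub_mul, ← sub_mul, norm_mul]
      refine mul_le_mul ((h2 y b).trans ?_) (hb y hy) (norm_nonneg _) (by positivity)
      gcongr

end HA

open HA in
theorem ha (k : ℕ) : ∃ C : ℝ, 0 ≤ C ∧ ∀ (W F : EE k → ℝ) (f0 ρ A θ : ℝ), ContDiff ℝ 1 W →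
    Continuous F → (∀ y, 0 ≤ F y) → 0 ≤ f0 → 0 < ρ → 0 < θ → θ ≤ 1 →
    (∀ y, ‖y‖ < 2 * ρ → |W y| ≤ A) →
    (∀ ζ : EE k → ℝ, ContDiff ℝ 1 ζ → HasCompactSupport ζ → tsupport ζ ⊆ ball 0 (2 * ρ) →
      |∫ y, gin W ζ y| ≤ ∫ y, (F y * ‖∇ ζ y‖ + f0 * |ζ y|)) →
    ∃ (a : ℝ) (p : EE k), |a| ≤ A ∧ ρ * ‖p‖ ≤ C * A ∧
      ∫ y in ball (0 : EE k) (θ * ρ), |W y - a - ⟪p, y⟫| ≤
        C * (θ ^ 2 * A * (θ * ρ) ^ k + ρ * (∫ y in ball (0 : EE k) (2 * ρ), F y)
          + ρ ^ 2 * f0 * ρ ^ k) := by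
  obtain ⟨η, Φ, h⟩ := exists_ker k
  obtain ⟨M, hM, hM1, hM2, hM3⟩ := h.bound
  obtain ⟨V, hV⟩ : ∃ V, V = volume.real (ball (0 : EE k) 1) := ⟨_, rfl⟩
  have hV0 : 0 ≤ V := hV ▸ measureReal_nonneg
  have h2k : (1 : ℝ) ≤ 2 ^ k := one_le_pow₀ one_le_two
  refine ⟨M * (2 ^ k * (V + 1) ^ 2), by positivity, ?_⟩
  intro W F f0 ρ A θ hW hFc hF hf hρ hθ hθ1 hA hw
  have hA0 : 0 ≤ A := (abs_nonneg _).trans (hA 0 (by simpa using hρ))
  obtain ⟨a, p, ha, hp, ht⟩ := h.taylor hW.continuous hρ hM hA hM2 hM3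
  rw [← hV] at hp ht
  have hV1 : V ≤ (V + 1) ^ 2 := by nlinarith
  have hV2 : V * V ≤ (V + 1) ^ 2 := by nlinarith
  refine ⟨a, p, ha, hp.trans ?_, ?_⟩
  · calc A * M * (2 ^ k * V) ≤ A * M * (2 ^ k * (V + 1) ^ 2) := by gcongr
      _ = _ := by ring
  obtain ⟨I, hI⟩ : ∃ I, I = ∫ y in ball (0 : EE k) (2 * ρ), F y := ⟨_, rfl⟩
  have hI0 : 0 ≤ I := hI ▸ integral_nonneg hF
  have hFi : IntegrableOn F (ball (0 : EE k) (2 * ρ)) :=
    (hFc.continuousOn.integrableOn_compact (isCompact_closedBall 0 (2 * ρ))).mono_set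
      ball_subset_closedBall
  have hci : IntegrableOn (fun _ : EE k => ρ * f0) (ball (0 : EE k) (2 * ρ)) :=
    integrableOn_const measure_ball_lt_top.ne
  have e1 : ∫⁻ w in ball (0 : EE k) (2 * ρ), ENNReal.ofReal (M * (F w + ρ * f0)) =
      ENNReal.ofReal (M * (I + (2 * ρ) ^ k * V * (ρ * f0))) := by
    have hi : Integrable (fun w => M * (F w + ρ * f0)) (volume.restrict (ball 0 (2 * ρ))) :=
      (hFi.add hci).const_mul M
    rw [← ofReal_integral_eq_lintegral_ofReal hi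
      (Eventually.of_forall fun w => mul_nonneg hM (add_nonneg (hF w) (by positivity))),
      integral_const_mul, integral_add hFi hci, setIntegral_const, vol_ball 0 (by positivity),
      ← hI, ← hV, smul_eq_mul]
  have hθρ : θ * ρ ≤ ρ := mul_le_of_le_one_left hρ.le hθ1
  have h1 := swap (H := fun w => ENNReal.ofReal (M * (F w + ρ * f0))) (by fun_prop) hθρ
  have hc : Continuous fun y => W y - a - ⟪p, y⟫ :=
    (hW.continuous.sub continuous_const).sub (continuous_const.inner continuous_id)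
  have h2 : ∫⁻ x in ball (0 : EE k) (θ * ρ), ‖W x - a - ⟪p, x⟫‖ₑ ≤
      ∫⁻ x in ball (0 : EE k) (θ * ρ), ((∫⁻ s in Ioc 0 ρ, ∫⁻ y in ball (0 : EE k) 1,
        ENNReal.ofReal (M * (F (x - s • y) + ρ * f0))) +
          ENNReal.ofReal (M * θ ^ 2 * A * (2 ^ k * V))) := by
    refine setLIntegral_mono' measurableSet_ball fun x hx => ?_
    rw [mem_ball_zero_iff] at hx
    rw [show W x - a - ⟪p, x⟫ = (W x - ∫ y, η y * W (x - ρ • y)) +
      ((∫ y, η y * W (x - ρ • y)) - a - ⟪p, x⟫) by ring]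
    refine (enorm_add_le _ _).trans (add_le_add (h.enorm_le hW hF hf hρ hw hM1 (by linarith)) ?_)
    rw [Real.enorm_eq_ofReal_abs]
    exact ENNReal.ofReal_le_ofReal (ht θ x hθ1 hx)
  rw [lintegral_add_right _ measurable_const, setLIntegral_const] at h2
  have h3 := h2.trans (add_le_add_left h1 _)
  rw [e1, vol_eq 0 1, vol_eq 0 (θ * ρ), vol_ball 0 (mul_pos hθ hρ), ← hV,
    ← ENNReal.ofReal_mul (by positivity), ← ENNReal.ofReal_mul (by positivity),
    ← ENNReal.ofReal_mul (by positivity),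
    ← ENNReal.ofReal_add (by positivity) (by positivity)] at h3
  have h4 := integral_norm_eq_lintegral_enorm (μ := volume.restrict (ball (0 : EE k) (θ * ρ)))
    hc.aestronglyMeasurable
  simp only [Real.norm_eq_abs] at h4
  rw [h4, ← hI]
  refine (ENNReal.toReal_le_of_le_ofReal (by positivity) h3).trans ?_
  have b1 : M * (2 ^ k * (V * V)) * (θ ^ 2 * A * (θ * ρ) ^ k) ≤
      M * (2 ^ k * (V + 1) ^ 2) * (θ ^ 2 * A * (θ * ρ) ^ k) := by gcongr
  have b2 : M * (1 * V) * (ρ * I) ≤ M * (2 ^ k * (V + 1) ^ 2) * (ρ * I) := by gcongr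
  have b3 : M * (2 ^ k * (V * V)) * (ρ ^ 2 * f0 * ρ ^ k) ≤
      M * (2 ^ k * (V + 1) ^ 2) * (ρ ^ 2 * f0 * ρ ^ k) := by gcongr
  rw [mul_pow 2 ρ]
  linarith

end

end Crest.Agent.N067.E
end

-- ▼ part N067/E/Cyl

/-! # E/Cyl (leaf E-Cyl): tails, Caccioppoli and tilt bound in a flat cylinder

`tail`: `decay` (a = 1) in the ball of radius `s - H` round `snoc y s` (inside `ball 0 r` and `{last > H}`);
lower half: apply it to `-v`.
`cac` (a): `fv` with `j = last`, `φ = Z² · x_last`, `Z x = cut 0 (r/4) (init x) * xi (r/8) (x last)`: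
`∫ Z² Tn = -2 ∫ Z x_last T(e,∇Z)`, `T(a,b) = en ⟪a,b⟫ - ⟪a,∇v⟫⟪b,∇v⟫` is PSD (`gsq_le_en`), so
`|2 Z s T(e,∇Z)| ≤ Z² Tn/2 + 2 s² en ‖∇Z‖²`; `∫_{supp Z} s² en ≤ 4H² C r^k + ∫_{|s|>2H} s² C e^{-2(|s|-H)}`
(`exists_EN`, `tail`, `en ≤ h² ≤ 2(1-|v|)²`, Fubini; crude: `s² e^{-2(|s|-H)} ≤ C H² e^{-(|s|-H)}`).
(b): `SLp` with `χ = ζ(init x) xi (2H) (x last)`, `ζ = cut 0 (r/4)`:  `∫ χ bt = ∫ χ en - ∫ ζ ξ' Gp(v)`
(`h v_n = -∂_n Gp(v)`, `ibp`) `≤ ∫ ζ (|ξ'| - ξ') Gp + ∫ ‖∇ζ‖ ξ Gp`; `|ξ'| - ξ' = 0` for `s ≤ 0`, and on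
`2H ≤ s ≤ 4H`, `Gp ≤ (1-v)² ≤ C e^{-2H}`; the last term is `≤ C (H/r) r^k`.  On `|s| ≥ 2H`:
`bt ≤ 2h² ≤ C e^{-2(|s|-H)}`. -/

set_option autoImplicit false

open MeasureTheory Laplacian InnerProductSpace Topology Filter Set Metric
open scoped RealInnerProductSpace ContDiff Gradient

namespace Crest.Agent.N067.E

open Crest.Agent.R077

noncomputable section

variable {n k : ℕ}

theorem tail (k : ℕ) : ∃ C : ℝ, 0 ≤ C ∧ ∀ (v : EE (k + 1) → ℝ) (r H : ℝ), Sol v → 0 ≤ H →
    Flat v r (ev (Fin.last k)) H → ∀ (y : EE k) (s : ℝ), ‖y‖ ≤ r / 2 → |s| ≤ r / 4 →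
      (H ≤ s → 1 - v (snoc y s) ≤ C * Real.exp (-(s - H))) ∧
      (s ≤ -H → 1 + v (snoc y s) ≤ C * Real.exp (s + H)) := by
  obtain ⟨C, hC⟩ := decay (k + 1) 1 zero_le_one Real.one_lt_sqrt_two
  refine ⟨|C|, abs_nonneg _, fun v r H hv hH hF y s hy hs => ?_⟩
  have key : ∀ z ∈ ball (snoc y s) (|s| - H), ‖z‖ < r ∧ |z (Fin.last k) - s| < |s| - H := by
    intro z hz
    rw [mem_ball_iff_norm] at hz
    have h1 := norm_le_split (snoc y s)
    have h2 := abs_last_le (z - snoc y s)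
    have h3 := norm_le_insert' z (snoc y s)
    simp only [init_snoc, snoc_last, PiLp.sub_apply] at h1 h2
    constructor <;> linarith
  constructor
  · intro h
    have h0 : |s| = s := abs_of_nonneg (hH.trans h)
    have h1 := hC v hv.isSol (snoc y s) (|s| - H) fun z hz => hF.1 z (key z hz).1 (by
      have := abs_lt.1 (key z hz).2
      rw [inner_last]; linarith)
    rw [h0, neg_mul, one_mul] at h1
    exact h1.trans (mul_le_mul_of_nonneg_right (le_abs_self C) (Real.exp_pos _).le)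
  · intro h
    have h0 : |s| = -s := abs_of_nonpos (by linarith)
    have h1 := hC _ hv.isSol.neg (snoc y s) (|s| - H) fun z hz => neg_pos.2 (hF.2 z (key z hz).1 (by
      have := abs_lt.1 (key z hz).2
      rw [inner_last]; linarith))
    rw [h0, sub_neg_eq_add, show -1 * (-s - H) = s + H by ring] at h1
    exact h1.trans (mul_le_mul_of_nonneg_right (le_abs_self C) (Real.exp_pos _).le)

namespace Cy

theorem exp_key {t H : ℝ} (hH : 0 ≤ H) (ht : 2 * H ≤ t) :
    Real.exp (-(t - H)) ^ 2 * (1 + t ^ 2) ^ 2 ≤ 1024 * Real.exp (-H) := by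
  have h1 : Real.exp (-(t / 4)) * (1 + t ^ 2) ≤ 32 := by
    have h2 := Real.quadratic_le_exp_of_nonneg (x := t / 4) (by linarith)
    rw [Real.exp_neg, inv_mul_le_iff₀ (Real.exp_pos _)]
    nlinarith
  have h2 : Real.exp (-(t - H)) ^ 2 ≤ Real.exp (-H) * Real.exp (-(t / 4)) ^ 2 := by
    rw [sq, sq, ← Real.exp_add, ← Real.exp_add, ← Real.exp_add]
    exact Real.exp_le_exp.2 (by linarith)
  have h3 := pow_le_pow_left₀ (by positivity) h1 2
  calc _ ≤ Real.exp (-H) * Real.exp (-(t / 4)) ^ 2 * (1 + t ^ 2) ^ 2 := by gcongr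
    _ = Real.exp (-H) * (Real.exp (-(t / 4)) * (1 + t ^ 2)) ^ 2 := by ring
    _ ≤ Real.exp (-H) * 32 ^ 2 := by gcongr
    _ = _ := by ring

/-- far from the slab -/
theorem far (k : ℕ) : ∃ C : ℝ, 0 ≤ C ∧ ∀ (v : EE (k + 1) → ℝ) (r H : ℝ), Sol v → 0 ≤ H →
    Flat v r (ev (Fin.last k)) H → ∀ x : EE (k + 1), ‖init x‖ ≤ r / 2 →
      |x (Fin.last k)| ≤ r / 4 → 2 * H ≤ |x (Fin.last k)| →
      hh (v x) ^ 2 * (1 + x (Fin.last k) ^ 2) ≤ C * Real.exp (-H) * (1 + x (Fin.last k) ^ 2)⁻¹ ∧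
      (0 ≤ x (Fin.last k) → Gp (v x) ≤ C * Real.exp (-H)) := by
  obtain ⟨C, hC, h⟩ := tail k
  refine ⟨2048 * C ^ 2, by positivity, fun v r H hv hH hF x h1 h2 h3 => ?_⟩
  have h4 := h v r H hv hH hF _ _ h1 h2
  rw [snoc_init] at h4
  set s := x (Fin.last k) with hs
  have h5 := exp_key hH h3
  rw [sq_abs] at h5
  set a := Real.exp (-(|s| - H)) with ha
  have hb := abs_lt.1 (hv.lt x)
  have hp : 0 ≤ s → (1 - v x) ^ 2 ≤ (C * a) ^ 2 := fun h0 => by
    rw [abs_of_nonneg h0] at ha h3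
    exact pow_le_pow_left₀ (by linarith) (ha ▸ h4.1 (by linarith)) 2
  have hm : s ≤ 0 → (1 + v x) ^ 2 ≤ (C * a) ^ 2 := fun h0 => by
    rw [abs_of_nonpos h0] at ha h3
    rw [show -(-s - H) = s + H by ring] at ha
    exact pow_le_pow_left₀ (by linarith) (ha ▸ h4.2 (by linarith)) 2
  have h6 : (C * a) ^ 2 * (1 + s ^ 2) ^ 2 ≤ 1024 * C ^ 2 * Real.exp (-H) := by
    have := mul_le_mul_of_nonneg_left h5 (sq_nonneg C)
    linarith
  have h7 : hh (v x) ^ 2 ≤ 2 * (C * a) ^ 2 := by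
    have e : hh (v x) ^ 2 = (1 - v x) ^ 2 * (1 + v x) ^ 2 / 2 := by rw [hh_sq]; ring
    rcases le_total 0 s with h0 | h0
    · have := mul_le_mul (hp h0) (show (1 + v x) ^ 2 ≤ 4 by nlinarith) (sq_nonneg _) (sq_nonneg _)
      linarith
    · have := mul_le_mul (show (1 - v x) ^ 2 ≤ 4 by nlinarith) (hm h0) (sq_nonneg _) (by norm_num)
      linarith
  refine ⟨?_, fun h0 => ?_⟩
  · rw [← div_eq_mul_inv, le_div_iff₀ (by positivity)]
    have := mul_le_mul_of_nonneg_right h7 (sq_nonneg (1 + s ^ 2))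
    linarith
  · have h8 : (C * a) ^ 2 ≤ (C * a) ^ 2 * (1 + s ^ 2) ^ 2 :=
      le_mul_of_one_le_right (sq_nonneg _) (one_le_pow₀ (by nlinarith [sq_nonneg s]))
    have h9 : 0 ≤ C ^ 2 * Real.exp (-H) := by positivity
    linarith [Gp_le_sq (hv.lt x).le, hp h0]

/-! ### integrals over cylinders -/

/-- volume of the unit ball -/
def om (k : ℕ) : ℝ := (volume : Measure (EE k)).real (ball 0 1)

theorem om_nonneg (k : ℕ) : 0 ≤ om k := measureReal_nonneg

theorem cont_last : Continuous fun x : EE (k + 1) => x (Fin.last k) :=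
  (contDiff_last (m := 0)).continuous

theorem int_vert {g : ℝ → ℝ} (hg : Continuous g) {ρ b : ℝ} (hρ : 0 < ρ) (hb : 0 ≤ b) :
    ∫ x in cyl k ρ b, g (x (Fin.last k)) = om k * ρ ^ k * ∫ s in (-b)..b, g s := by
  rw [setint_cyl (f := fun x => g (x (Fin.last k))) (hg.comp cont_last) ρ hb]
  simp only [snoc_last, setIntegral_const, smul_eq_mul]
  congr 1
  rw [measureReal_def, Measure.addHaar_ball_of_pos _ _ hρ, ENNReal.toReal_mul,
    ENNReal.toReal_ofReal (by positivity), finrank_euclideanSpace_fin, mul_comm]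
  rfl

theorem cont_lor : Continuous fun s : ℝ => (1 + s ^ 2)⁻¹ :=
  Continuous.inv₀ (f := fun s : ℝ => 1 + s ^ 2) (by fun_prop) fun s => by positivity

theorem int_lor {ρ r b : ℝ} (hρ : 0 < ρ) (hr : ρ ≤ r) (hb : 0 ≤ b) :
    ∫ x in cyl k ρ b, (1 + x (Fin.last k) ^ 2)⁻¹ ≤ om k * Real.pi * r ^ k := by
  rw [int_vert cont_lor hρ hb, intervalIntegral.integral_of_le (by linarith)]
  have h1 : ∫ s in Ioc (-b) b, (1 + s ^ 2)⁻¹ ≤ Real.pi := by
    rw [← integral_univ_inv_one_add_sq]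
    exact setIntegral_le_integral integrable_inv_one_add_sq (ae_of_all _ fun s => by positivity)
  have h2 := om_nonneg k
  have h3 : 0 ≤ ∫ s in Ioc (-b) b, (1 + s ^ 2)⁻¹ := integral_nonneg fun s => by positivity
  have h4 := hρ.trans_le hr
  calc _ ≤ om k * r ^ k * Real.pi := by gcongr
    _ = _ := by ring

theorem int_le_cyl {f g : EE (k + 1) → ℝ} (hf : Continuous f) (hg : Continuous g) {ρ b : ℝ}
    (h0 : ∀ x ∉ cyl k ρ b, f x = 0) (h : ∀ x ∈ cyl k ρ b, f x ≤ g x) :
    ∫ x, f x ≤ ∫ x in cyl k ρ b, g x := by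
  rw [← setIntegral_eq_integral_of_forall_compl_eq_zero h0]
  exact setIntegral_mono_on (integrableOn_cyl hf _ _) (integrableOn_cyl hg _ _)
    (isOpen_cyl _ _).measurableSet h

theorem not_cyl {ρ b : ℝ} {x : EE (k + 1)} (h : x ∉ cyl k ρ b) :
    ρ ≤ ‖init x‖ ∨ b ≤ |x (Fin.last k)| := by
  by_contra h'
  rw [not_or, not_le, not_le] at h'
  exact h h'

/-! ### the product cut-off -/

/-- horizontal times vertical cut-off -/
def P (k : ℕ) (ρ L : ℝ) (x : EE (k + 1)) : ℝ := cut 0 ρ (init x) * xi L (x (Fin.last k))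

variable {ρ L : ℝ} {x : EE (k + 1)}

theorem P_smooth : ContDiff ℝ 1 (P k ρ L) :=
  ((contDiff_cut 0 ρ (m := 1)).comp contDiff_init).mul ((contDiff_xi L (m := 1)).comp contDiff_last)

theorem P_cs (hρ : 0 < ρ) (hL : 0 < L) : HasCompactSupport (P k ρ L) :=
  cs_prod (cs_cut 0 hρ) (b := 2 * L) fun _ hx => xi_eq_zero hL hx

theorem P_nonneg (x : EE (k + 1)) : 0 ≤ P k ρ L x := mul_nonneg (cut_nonneg _ _ _) (xi_nonneg _ _)

theorem P_one (hρ : 0 < ρ) (hL : 0 < L) (h1 : ‖init x‖ ≤ ρ) (h2 : |x (Fin.last k)| ≤ L) :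
    P k ρ L x = 1 := by
  rw [P, cut_eq_one hρ (by rwa [sub_zero]), xi_eq_one hL h2, mul_one]

theorem P_zero (hρ : 0 < ρ) (hL : 0 < L) (h : 2 * ρ ≤ ‖init x‖ ∨ 2 * L ≤ |x (Fin.last k)|) :
    P k ρ L x = 0 := by
  rcases h with h | h
  · rw [P, cut_eq_zero hρ (by rwa [sub_zero]), zero_mul]
  · rw [P, xi_eq_zero hL h, mul_zero]

theorem pdv_P (i : Fin (k + 1)) : pdv i (P k ρ L) x =
    pdv i (fun x => cut 0 ρ (init x)) x * xi L (x (Fin.last k)) +
      cut 0 ρ (init x) * pdv i (fun x => xi L (x (Fin.last k))) x :=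
  pdv_mul (((contDiff_cut 0 ρ (m := 1)).comp contDiff_init).differentiable (by simp) x)
    (((contDiff_xi L (m := 1)).comp contDiff_last).differentiable (by simp) x) i

theorem pdv_P_last : pdv (Fin.last k) (P k ρ L) x =
    cut 0 ρ (init x) * deriv (xi L) (x (Fin.last k)) := by
  rw [pdv_P, pdv_init_last ((contDiff_cut 0 ρ (m := 1)).differentiable (by simp) _),
    pdv_vert_last ((contDiff_xi L (m := 1)).differentiable (by simp) _), zero_mul, zero_add]

theorem gsq_P : gsq (P k ρ L) x = (‖∇ (cut 0 ρ) (init x)‖ * xi L (x (Fin.last k))) ^ 2 +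
    (cut 0 ρ (init x) * |deriv (xi L) (x (Fin.last k))|) ^ 2 := by
  rw [gsq, Fin.sum_univ_castSucc, pdv_P_last, mul_pow, mul_pow, mul_pow, sq_abs, ← gsq_eq, gsq,
    Finset.sum_mul]
  refine congrArg (· + _) (Finset.sum_congr rfl fun l _ => ?_)
  rw [pdv_P, pdv_init_cs ((contDiff_cut 0 ρ (m := 1)).differentiable (by simp) _),
    pdv_vert_cs ((contDiff_xi L (m := 1)).differentiable (by simp) _), mul_zero, add_zero, mul_pow]

theorem norm_grad_P : ‖∇ (P k ρ L) x‖ ≤ ‖∇ (cut 0 ρ) (init x)‖ * xi L (x (Fin.last k)) +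
    cut 0 ρ (init x) * |deriv (xi L) (x (Fin.last k))| := by
  have h1 := mul_nonneg (norm_nonneg (∇ (cut 0 ρ) (init x))) (xi_nonneg L (x (Fin.last k)))
  have h2 := mul_nonneg (cut_nonneg 0 ρ (init x)) (abs_nonneg (deriv (xi L) (x (Fin.last k))))
  refine (pow_le_pow_iff_left₀ (norm_nonneg _) (add_nonneg h1 h2) two_ne_zero).1 ?_
  rw [← gsq_eq, gsq_P]
  nlinarith [mul_nonneg h1 h2]

/-- the stress tensor is nonnegative -/
theorem psd {v : EE n → ℝ} (hv : Sol v) (Z : EE n → ℝ) (j : Fin n) (x : EE n) (z s : ℝ) :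
    -(2 * z * s * (en v x * pdv j Z x - pdv j v x * gin v Z x)) ≤
      z ^ 2 * Tn v j x / 2 + 2 * (s ^ 2 * en v x) * gsq Z x := by
  have h1 := Finset.sum_mul_sq_le_sq_mul_sq Finset.univ (fun i => pdv i v x)
    fun i => (if i = j then z else 0) + 2 * s * pdv i Z x
  have e1 : ∑ i, pdv i v x * ((if i = j then z else 0) + 2 * s * pdv i Z x) =
      pdv j v x * z + 2 * s * gin v Z x := by
    simp only [mul_add, Finset.sum_add_distrib, mul_ite, mul_zero, Finset.sum_ite_eq',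
      Finset.mem_univ, if_true, gin, Finset.mul_sum]
    exact congrArg (_ + ·) (Finset.sum_congr rfl fun i _ => by ring)
  have e2 : ∑ i, ((if i = j then z else 0) + 2 * s * pdv i Z x) ^ 2 =
      (z ^ 2 + 4 * z * s * pdv j Z x) + 4 * s ^ 2 * gsq Z x := by
    rw [Finset.sum_congr rfl (g := fun i => (if i = j then z ^ 2 + 4 * z * s * pdv i Z x else 0) +
      4 * s ^ 2 * pdv i Z x ^ 2) fun i _ => by split_ifs <;> ring]
    simp only [Finset.sum_add_distrib, Finset.sum_ite_eq', Finset.mem_univ, if_true, gsq,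
      Finset.mul_sum]
  have h2 : 0 ≤ ∑ i, ((if i = j then z else 0) + 2 * s * pdv i Z x) ^ 2 :=
    Finset.sum_nonneg fun _ _ => sq_nonneg _
  have h3 := h1.trans (mul_le_mul_of_nonneg_right (gsq_le_en hv x) h2)
  rw [e1, e2] at h3
  unfold Tn
  nlinarith [sq_nonneg (s * gin v Z x)]

theorem cont_gin {f g : EE n → ℝ} (hf : ContDiff ℝ 1 f) (hg : ContDiff ℝ 1 g) :
    Continuous (gin f g) :=
  continuous_finsetSum _ fun i _ => (St.continuous_pdv hf i).mul (St.continuous_pdv hg i)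

/-- first variation along `Z² x_j e_j` -/
theorem fv_sq {v Z : EE n → ℝ} (hv : Sol v) (hZ : ContDiff ℝ 1 Z) (hc : HasCompactSupport Z)
    (j : Fin n) : ∫ x, (Z x * Tn v j x +
      2 * x j * (en v x * pdv j Z x - pdv j v x * gin v Z x)) * Z x = 0 := by
  have hj : ContDiff ℝ 1 fun x : EE n => x j := (EuclideanSpace.proj j : EE n →L[ℝ] ℝ).contDiff
  rw [← fv hv.isSol ((hZ.pow 2).mul hj) (St.cs_sq hc).mul_right j]
  refine integral_congr_ae (ae_of_all _ fun x => ?_)
  have hp : ∀ i, pdv i (fun x => Z x ^ 2 * x j) x =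
      2 * Z x * x j * pdv i Z x + Z x ^ 2 * if j = i then 1 else 0 := fun i => by
    rw [pdv_mul ((hZ.pow 2).differentiable (by simp) x) (hj.differentiable (by simp) x),
      pdv_sq (hZ.differentiable (by simp) x), pdv_coord]
    ring
  have hg : gin v (fun x => Z x ^ 2 * x j) x =
      2 * Z x * x j * gin v Z x + pdv j v x * Z x ^ 2 := by
    simp only [gin, hp, mul_add, Finset.sum_add_distrib, mul_ite, mul_one, mul_zero,
      Finset.sum_ite_eq, Finset.mem_univ, if_true, Finset.mul_sum]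
    exact congrArg (· + _) (Finset.sum_congr rfl fun i _ => by ring)
  simp only [hg, hp, if_true, Tn]
  ring

end Cy

open Cy in
theorem cac (k : ℕ) : ∃ C : ℝ, 0 ≤ C ∧ ∀ (v : EE (k + 1) → ℝ) (r H : ℝ), Sol v → SLp v → 1 ≤ H →
    32 * H ≤ r → Flat v r (ev (Fin.last k)) H →
      ∫ x in cyl k (r / 4) (r / 8), Tn v (Fin.last k) x ≤ C * (H / r) ^ 2 * r ^ k := by
  obtain ⟨Cf, hCf, hf⟩ := far k
  obtain ⟨Ce, hCe, he⟩ := exists_EN k
  obtain ⟨M, hM, hM1, hM2⟩ := exists_cutM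
  have hom := om_nonneg k
  have hpi := Real.pi_pos
  refine ⟨320 * M ^ 2 * (4 * Ce + Cf * (om k * Real.pi)), by positivity,
    fun v r H hv hS hH hr hF => ?_⟩
  have hr0 : 0 < r := by linarith
  have hρ : 0 < r / 4 := by positivity
  have hL : 0 < r / 8 := by positivity
  set j := Fin.last k with hj
  set Z := P k (r / 4) (r / 8) with hZ
  have hZs : ContDiff ℝ 1 Z := P_smooth
  have hZc : HasCompactSupport Z := P_cs hρ hL
  have hv1 : ContDiff ℝ 1 v := contDiff_infty.1 hv.sm 1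
  have cT := cont_Tn hv j
  have cE := cont_en hv
  have cZ := hZs.continuous
  have cl : Continuous fun x : EE (k + 1) => x j := cont_last
  have cL : Continuous fun x : EE (k + 1) => (1 + x j ^ 2)⁻¹ := cont_lor.comp cl
  have cI : Continuous fun x => Z x * Tn v j x +
      2 * x j * (en v x * pdv j Z x - pdv j v x * gin v Z x) :=
    (cZ.mul cT).add ((continuous_const.mul cl).mul ((cE.mul (St.continuous_pdv hZs j)).sub
      ((St.continuous_pdv hv1 j).mul (cont_gin hv1 hZs))))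
  have iA : Integrable fun x => Z x * Tn v j x * Z x := St.int_cs (cZ.mul cT) cZ hZc
  have h1 : ∫ x in cyl k (r / 4) (r / 8), Tn v j x ≤ ∫ x, Z x * Tn v j x * Z x := by
    rw [← setIntegral_congr_fun (isOpen_cyl _ _).measurableSet (f := fun x => Z x * Tn v j x * Z x)
      fun x hx => by simp only [hZ, P_one hρ hL hx.1.le hx.2.le, one_mul, mul_one]]
    exact setIntegral_le_integral iA (ae_of_all _ fun x =>
      mul_nonneg (mul_nonneg (P_nonneg x) (Tn_nonneg hv j x)) (P_nonneg x))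
  have h2 : ∫ x, (2⁻¹ * (Z x * Tn v j x * Z x) - (Z x * Tn v j x +
      2 * x j * (en v x * pdv j Z x - pdv j v x * gin v Z x)) * Z x) ≤
      ∫ x in cyl k (r / 2) (r / 4),
        160 * M ^ 2 / r ^ 2 * (4 * H ^ 2 * en v x + Cf * (1 + x j ^ 2)⁻¹) := by
    refine int_le_cyl (by exact (continuous_const.mul ((cZ.mul cT).mul cZ)).sub (cI.mul cZ))
      (by exact continuous_const.mul ((continuous_const.mul cE).add (continuous_const.mul cL)))
      (fun x hx => ?_) fun x hx => ?_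
    · rw [show Z x = 0 from P_zero hρ hL ((not_cyl hx).imp (fun h => by linarith) fun h => by
        linarith)]
      ring
    · have h3 := psd hv Z j x (Z x) (x j)
      have h4 : gsq Z x ≤ 80 * M ^ 2 / r ^ 2 := by
        have a1 := (hM1 k 0 (init x) _ hρ).1
        have a2 := (hM2 _ (x j) hL).1
        have a3 : ‖∇ (cut 0 (r / 4)) (init x)‖ * xi (r / 8) (x j) ≤ M / (r / 4) :=
          (mul_le_of_le_one_right (norm_nonneg _) (xi_le_one _ _)).trans a1
        have a4 : cut 0 (r / 4) (init x) * |deriv (xi (r / 8)) (x j)| ≤ M / (r / 8) :=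
          (mul_le_of_le_one_left (abs_nonneg _) (cut_le_one _ _ _)).trans a2
        rw [hZ, gsq_P]
        refine (add_le_add (pow_le_pow_left₀ (mul_nonneg (norm_nonneg _) (xi_nonneg _ _)) a3 2)
          (pow_le_pow_left₀ (mul_nonneg (cut_nonneg _ _ _) (abs_nonneg _)) a4 2)).trans
          (le_of_eq ?_)
        field_simp
        ring
      have hE := Aac.en_nonneg v x
      have h5 : x j ^ 2 * en v x ≤ 4 * H ^ 2 * en v x + Cf * (1 + x j ^ 2)⁻¹ := by
        rcases le_total (|x j|) (2 * H) with h | h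
        · have a1 : x j ^ 2 ≤ 4 * H ^ 2 := by
            have := pow_le_pow_left₀ (abs_nonneg _) h 2
            rw [sq_abs] at this
            linarith
          exact (mul_le_mul_of_nonneg_right a1 hE).trans (le_add_of_nonneg_right (by positivity))
        · have a1 := (hf v r H hv (by linarith) hF x hx.1.le hx.2.le h).1
          have a2 : Cf * Real.exp (-H) * (1 + x j ^ 2)⁻¹ ≤ Cf * (1 + x j ^ 2)⁻¹ :=
            mul_le_mul_of_nonneg_right (mul_le_of_le_one_right hCf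
              (Real.exp_le_one_iff.2 (by linarith))) (by positivity)
          have a3 : x j ^ 2 * en v x ≤ (1 + x j ^ 2) * hh (v x) ^ 2 :=
            mul_le_mul (by linarith) (en_le hv x) hE (by positivity)
          have a4 : 0 ≤ 4 * H ^ 2 * en v x := by positivity
          linarith
      have h6 := mul_le_mul h5 h4 (gsq_nonneg _ _) (by positivity)
      calc _ = -(2 * Z x * x j * (en v x * pdv j Z x - pdv j v x * gin v Z x)) -
            Z x ^ 2 * Tn v j x / 2 := by ring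
        _ ≤ 2 * (x j ^ 2 * en v x * gsq Z x) := by linarith
        _ ≤ 2 * ((4 * H ^ 2 * en v x + Cf * (1 + x j ^ 2)⁻¹) * (80 * M ^ 2 / r ^ 2)) := by linarith
        _ = _ := by ring
  rw [integral_sub (iA.const_mul _) (St.int_cs cI cZ hZc), fv_sq hv hZs hZc, integral_const_mul,
    integral_const_mul, integral_add ((integrableOn_cyl cE _ _).const_mul _)
      ((integrableOn_cyl cL _ _).const_mul _), integral_const_mul,
    integral_const_mul] at h2
  have h3 : ∫ x in cyl k (r / 2) (r / 4), en v x ≤ Ce * r ^ k :=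
    (setIntegral_mono_set ((cE.continuousOn.integrableOn_compact (isCompact_closedBall 0 r)).mono_set
      ball_subset_closedBall) (ae_of_all _ (Aac.en_nonneg v))
      ((cyl_subset _ _).trans (ball_subset_ball (by linarith))).eventuallyLE).trans
      (he v hv hS 0 r hr0)
  have h4 := int_lor (k := k) (ρ := r / 2) (r := r) (b := r / 4) (by positivity) (by linarith) hρ.le
  have h5 : om k * Real.pi * r ^ k ≤ H ^ 2 * (om k * Real.pi * r ^ k) :=
    le_mul_of_one_le_left (by positivity) (one_le_pow₀ hH)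
  have h6 := mul_le_mul_of_nonneg_left (add_le_add
    (mul_le_mul_of_nonneg_left h3 (by positivity : 0 ≤ 4 * H ^ 2))
    (mul_le_mul_of_nonneg_left (h4.trans h5) hCf)) (by positivity : 0 ≤ 160 * M ^ 2 / r ^ 2)
  calc _ ≤ 2 * (160 * M ^ 2 / r ^ 2 * (4 * H ^ 2 * (Ce * r ^ k) +
        Cf * (H ^ 2 * (om k * Real.pi * r ^ k)))) := by linarith
    _ = _ := by ring

open Cy in
theorem tilt (k : ℕ) : ∃ C : ℝ, 0 ≤ C ∧ ∀ (v : EE (k + 1) → ℝ) (r H : ℝ), Sol v → SLp v → 1 ≤ H →
    32 * H ≤ r → Flat v r (ev (Fin.last k)) H →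
      ∫ x in cyl k (r / 4) (r / 8), bt v (Fin.last k) x ≤ C * (H / r + Real.exp (-H)) * r ^ k := by
  obtain ⟨Cf, hCf, hf⟩ := far k
  obtain ⟨M, hM, hM1, hM2⟩ := exists_cutM
  have hom := om_nonneg k
  have hpi := Real.pi_pos
  refine ⟨om k * (32 * M + 8 * M * Cf + 2 * Cf * Real.pi), by positivity,
    fun v r H hv hS hH hr hF => ?_⟩
  have hr0 : 0 < r := by linarith
  have hH0 : 0 < H := by linarith
  have hρ : 0 < r / 4 := by positivity
  have hL : 0 < 2 * H := by positivity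
  have hx0 := Real.exp_pos (-H)
  set j := Fin.last k with hj
  set Z := P k (r / 4) (2 * H) with hZ
  have hZs : ContDiff ℝ 1 Z := P_smooth
  have hZc : HasCompactSupport Z := P_cs hρ hL
  have hv1 : ContDiff ℝ 1 v := contDiff_infty.1 hv.sm 1
  have hG : ContDiff ℝ 1 fun x => Gp (v x) := contDiff_Gp.comp hv1
  have cB := cont_bt hv j
  have cE := cont_en hv
  have cZ := hZs.continuous
  have cl : Continuous fun x : EE (k + 1) => x j := cont_last
  have cL : Continuous fun x : EE (k + 1) => (1 + x j ^ 2)⁻¹ := cont_lor.comp cl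
  have cN := (St.continuous_grad hZs).norm
  have cP := St.continuous_pdv hZs j
  have iA : Integrable fun x => bt v j x * Z x := St.int_cs cB cZ hZc
  -- near and far parts
  have h1 : ∫ x in cyl k (r / 4) (r / 8), bt v j x ≤ (∫ x, bt v j x * Z x) +
      2 * Cf * Real.exp (-H) * (om k * Real.pi * r ^ k) := by
    have a1 : ∫ x in cyl k (r / 4) (r / 8), bt v j x ≤ ∫ x in cyl k (r / 4) (r / 8),
        (bt v j x * Z x + 2 * Cf * Real.exp (-H) * (1 + x j ^ 2)⁻¹) := by
      refine setIntegral_mono_on (integrableOn_cyl cB _ _) (integrableOn_cyl ((cB.mul cZ).add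
        (continuous_const.mul cL)) _ _) (isOpen_cyl _ _).measurableSet
        fun x hx => ?_
      rcases le_total (|x j|) (2 * H) with h | h
      · rw [show Z x = 1 from P_one hρ hL hx.1.le h, mul_one]
        exact le_add_of_nonneg_right (by positivity)
      · have b1 := (hf v r H hv hH0.le hF x (by linarith [hx.1]) (by linarith [hx.2]) h).1
        have b2 : hh (v x) ^ 2 ≤ hh (v x) ^ 2 * (1 + x j ^ 2) :=
          le_mul_of_one_le_right (sq_nonneg _) (by nlinarith [sq_nonneg (x j)])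
        have b3 := mul_nonneg (bt_nonneg v j x) (P_nonneg (ρ := r / 4) (L := 2 * H) x)
        linarith [bt_le hv j x]
    rw [integral_add iA.integrableOn ((integrableOn_cyl cL _ _).const_mul _),
      integral_const_mul] at a1
    refine a1.trans (add_le_add (setIntegral_le_integral iA (ae_of_all _ fun x =>
      mul_nonneg (bt_nonneg v j x) (P_nonneg x))) (mul_le_mul_of_nonneg_left
        (int_lor hρ (by linarith) (by positivity)) (by positivity)))
  -- the sliding inequality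
  have h2 : ∫ x, bt v j x * Z x ≤ ∫ x, (‖∇ Z x‖ * Gp (v x) - Gp (v x) * pdv j Z x) := by
    have iN : Integrable fun x => ‖∇ Z x‖ * Gp (v x) :=
      (cN.mul hG.continuous).integrable_of_hasCompactSupport (HasCompactSupport.mul_right
        (HasCompactSupport.intro (St.cs_grad_sq hZc).isCompact fun x hx =>
          pow_eq_zero_iff two_ne_zero |>.1
            (image_eq_zero_of_notMem_tsupport (f := fun x => ‖∇ Z x‖ ^ 2) hx)))
    have iE : Integrable fun x => Z x * en v x :=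
      (cZ.mul cE).integrable_of_hasCompactSupport hZc.mul_right
    have e : ∀ x, bt v j x * Z x = Z x * en v x + pdv j (fun x => Gp (v x)) x * Z x := fun x => by
      rw [pdv_comp (hasDerivAt_Gp (v x)) (hv1.differentiable (by simp) x), bt]
      ring
    simp only [e]
    rw [integral_add iE (St.int_cs (St.continuous_pdv hG j) cZ hZc), ibp_right hG hZs hZc,
      integral_sub iN (St.int_cs hG.continuous cP (hasCompactSupport_pdv hZc j))]
    linarith [hS Z hZs hZc P_nonneg]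
  have h3 : ∫ x, (‖∇ Z x‖ * Gp (v x) - Gp (v x) * pdv j Z x) ≤
      ∫ _x in cyl k (r / 2) (4 * H), (4 * M / r + M / H * (Cf * Real.exp (-H))) := by
    refine int_le_cyl (by exact (cN.mul hG.continuous).sub (hG.continuous.mul cP)) continuous_const
      (fun x hx => ?_) fun x hx => ?_
    · have a1 := norm_grad_P (ρ := r / 4) (L := 2 * H) (x := x)
      rw [hZ, hj, pdv_P_last]
      rcases not_cyl hx with h | h
      · have b1 : 2 * (r / 4) ≤ ‖init x - 0‖ := by rw [sub_zero]; linarith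
        rw [(hM1 k 0 (init x) _ hρ).2 (Or.inr b1), cut_eq_zero hρ b1] at a1
        rw [cut_eq_zero hρ b1, norm_le_zero_iff.1 (a1.trans (by simp))]
        simp
      · have b1 : 2 * (2 * H) ≤ |x (Fin.last k)| := by linarith
        rw [(hM2 _ _ hL).2.1 (Or.inr b1), xi_eq_zero hL b1] at a1
        rw [(hM2 _ _ hL).2.1 (Or.inr b1), norm_le_zero_iff.1 (a1.trans (by simp))]
        simp
    · have a1 := norm_grad_P (ρ := r / 4) (L := 2 * H) (x := x)
      have a2 : ‖∇ (cut 0 (r / 4)) (init x)‖ * xi (2 * H) (x j) ≤ 4 * M / r :=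
        (mul_le_of_le_one_right (norm_nonneg _) (xi_le_one _ _)).trans
          ((hM1 k 0 (init x) _ hρ).1.trans (le_of_eq (by field_simp)))
      have g0 := Gp_nonneg (hv.lt x).le
      have g1 := (Gp_le (hv.lt x).le).trans s0_le_one
      obtain ⟨d1, d2, d3⟩ := hM2 _ (x j) hL
      have a3 : (|deriv (xi (2 * H)) (x j)| - deriv (xi (2 * H)) (x j)) * Gp (v x) ≤
          M / H * (Cf * Real.exp (-H)) := by
        rcases le_total (x j) 0 with h | h
        · rw [abs_of_nonneg (d3 h), sub_self, zero_mul]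
          positivity
        rcases le_total (|x j|) (2 * H) with h' | h'
        · rw [d2 (Or.inl h'), abs_zero, sub_self, zero_mul]
          positivity
        · refine mul_le_mul ?_ ((hf v r H hv hH0.le hF x hx.1.le (by linarith [hx.2]) h').2 h) g0
            (by positivity)
          have b1 : M / H = 2 * (M / (2 * H)) := by field_simp
          linarith [neg_abs_le (deriv (xi (2 * H)) (x j))]
      have a4 := mul_le_of_le_one_left (mul_nonneg (sub_nonneg.2
        (le_abs_self (deriv (xi (2 * H)) (x j)))) g0) (cut_le_one 0 (r / 4) (init x))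
      have a5 := mul_le_mul_of_nonneg_right a1 g0
      have a6 := mul_le_mul a2 g1 g0 (by positivity)
      rw [hZ, hj, pdv_P_last]
      linarith
  have h4 := int_vert (k := k) (g := fun _ => 4 * M / r + M / H * (Cf * Real.exp (-H)))
    continuous_const (ρ := r / 2) (b := 4 * H) (by positivity) (by positivity)
  rw [intervalIntegral.integral_const, smul_eq_mul] at h4
  have h5 : om k * (r / 2) ^ k * ((4 * H - -(4 * H)) * (4 * M / r + M / H * (Cf * Real.exp (-H))))
      ≤ om k * r ^ k * (32 * M * (H / r) + 8 * M * Cf * Real.exp (-H)) := by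
    refine mul_le_mul (mul_le_mul_of_nonneg_left (pow_le_pow_left₀ (by positivity) (by linarith) k)
      hom) (le_of_eq ?_) (mul_nonneg (by linarith) (by positivity)) (by positivity)
    field_simp
    ring
  have h6 : 0 ≤ om k * r ^ k * (32 * M * Real.exp (-H) + (8 * M * Cf + 2 * Cf * Real.pi) * (H / r)) :=
    by positivity
  linarith

end

end Crest.Agent.N067.E
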