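import Crest.Agent.N067.E.Basic
import Crest.Agent.N067.A.Harn
import Crest.Agent.N067.E.Col
import Crest.Agent.N067.E.Cyl_Mg
import Crest.Agent.N067.E.MV
import Crest.Agent.N067.A.Grad
import Crest.Agent.R236.Poinc

-- ▼ part N067/E/Line
section

/-! # E/Line (leaf E-Line): two lemmas on one column

`lineA`.  `β = E - h(g) g' ≥ 0`, `b = ∫_{-L}^L β`.  `∫|s-l| E = ∫|s-l| (Gm g)' + ∫|s-l| β`; by parts
`∫_{-L}^L |s-l| (Gm g)' ≤ A₋ + A₊`, `A₋ = ∫_{-L}^l Gm g`, `A₊ = ∫_l^L Gp g`.  `xi` even gives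
`s0 l + ∫ ξ G0 g = ∫_{s<l} ξ Gm g - ∫_{s>l} ξ Gp g = A₋ - A₊ + O(C0²)` (tails, `Gp_le_sq`).
`A₋ + A₊ = |A₋ - A₊| + 2 min`.  For `s₁ ≤ l ≤ s₂` in `[-L,L]`: `Gm g s₁ ≤ Gm g s₂ + b`.  If `b < s0/4`: either
`Gm g ≥ s0/4` on `[l,L]` (then `1 + g ≥ c`, `Gp g ≤ C (1-g²)² ≤ 4C E`) or `Gm g ≤ s0/2` on `[-L,l]` (then
`g ≤ 0`, `Gm g ≤ (1-g²)² ≤ 4E`), and `∫_{-L}^L E ≤ s0 + b`.  If `b ≥ s0/4`: `A₋ ≤ (M+1) H + C0² ≤ C H b`.
`∫|s-l| β ≤ (M+2) H b + ∫_{|s|>2H} (|s| + M H) 2 (1-g²)²`, the last `≤ C`.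

`lineB`.  `s₀` = a zero of `g` in `[-b,b]` (or `-b` if `g > 0`, `b` if `g < 0` there); `g ≥ 0` on `[s₀,b]`, `≤ 0` on
`[-b,s₀]`, `Gp g ≤ (1-g²)²` where `g ≥ 0`, `Gm g ≤ (1-g²)²` where `g ≤ 0`.  So the left integral is
`≤ P + s0 |s₀ - s*|`, `P = ∫_{-b}^b (1-g²)²`; `|s₀ - s*| ∫λ ≤ |∫(s-s*)λ| + ∫|s-s₀| λ`,
`∫|s-s₀| λ ≤ 2∫_{-b}^b |s-s₀| (Gm g)' ≤ 2P` (parts), `∫λ ≤ 2 s0`. -/

set_option autoImplicit false

open MeasureTheory Laplacian InnerProductSpace Topology Filter Set Metric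
open scoped RealInnerProductSpace ContDiff Gradient

namespace Crest.Agent.N067.E

open Crest.Agent.R077

noncomputable section

variable {n k : ℕ}

namespace Ln

theorem exp_tail {f : ℝ → ℝ} (hf : Continuous f) {a c H K : ℝ} (hK : 0 ≤ K) (hac : a ≤ c)
    (hH : H ≤ a) (h : ∀ s, a ≤ s → s ≤ c → f s ≤ K * Real.exp (-(s - H))) :
    ∫ s in a..c, f s ≤ K := by
  have hd : ∀ s, HasDerivAt (fun s => -(K * Real.exp (-(s - H)))) (K * Real.exp (-(s - H))) s := by
    intro s
    have := ((((hasDerivAt_id s).sub_const H).neg.exp).const_mul K).neg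
    refine this.congr_deriv ?_
    simp
  have hc : Continuous fun s => K * Real.exp (-(s - H)) := by fun_prop
  refine (intervalIntegral.integral_mono_on hac (hf.intervalIntegrable _ _)
    (hc.intervalIntegrable _ _) fun s hs => h s hs.1 hs.2).trans ?_
  rw [intervalIntegral.integral_eq_sub_of_hasDerivAt (fun s _ => hd s) (hc.intervalIntegrable _ _)]
  have h1 : Real.exp (-(a - H)) ≤ 1 := Real.exp_le_one_iff.2 (by linarith)
  have h2 := mul_nonneg hK (Real.exp_pos (-(c - H))).le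
  nlinarith

theorem exp_tail' {f : ℝ → ℝ} (hf : Continuous f) {a c H K : ℝ} (hK : 0 ≤ K) (hac : a ≤ c)
    (hH : c ≤ -H) (h : ∀ s, a ≤ s → s ≤ c → f s ≤ K * Real.exp (s + H)) :
    ∫ s in a..c, f s ≤ K := by
  have := exp_tail (f := fun s => f (-s)) (hf.comp continuous_neg) (a := -c) (c := -a) (H := H) hK
    (by linarith) (by linarith) fun s h1 h2 => by
      rw [show -(s - H) = -s + H by ring]; exact h (-s) (by linarith) (by linarith)
  rwa [intervalIntegral.integral_comp_neg, neg_neg, neg_neg] at this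

theorem int_le_len {f : ℝ → ℝ} (hf : Continuous f) {a c : ℝ} (hac : a ≤ c) (h : ∀ s, f s ≤ 1) :
    ∫ s in a..c, f s ≤ c - a := by
  simpa using intervalIntegral.integral_mono_on (μ := volume) hac (hf.intervalIntegrable _ _)
    (continuous_const.intervalIntegrable _ _) fun s _ => h s

theorem int_mono {f g : ℝ → ℝ} (hf : Continuous f) (hg : Continuous g) {a c : ℝ} (hac : a ≤ c)
    (h : ∀ s, a ≤ s → s ≤ c → f s ≤ g s) : ∫ s in a..c, f s ≤ ∫ s in a..c, g s :=
  intervalIntegral.integral_mono_on hac (hf.intervalIntegrable _ _) (hg.intervalIntegrable _ _)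
    fun s hs => h s hs.1 hs.2

theorem int_nonneg {f : ℝ → ℝ} {a c : ℝ} (hac : a ≤ c) (h : ∀ s, 0 ≤ f s) :
    0 ≤ ∫ s in a..c, f s := intervalIntegral.integral_nonneg hac fun s _ => h s

theorem int_split {f : ℝ → ℝ} (hf : Continuous f) (a b c : ℝ) :
    ∫ s in a..c, f s = (∫ s in a..b, f s) + ∫ s in b..c, f s :=
  (intervalIntegral.integral_add_adjacent_intervals (hf.intervalIntegrable _ _)
    (hf.intervalIntegrable _ _)).symm

theorem int_sub {f : ℝ → ℝ} (hf : Continuous f) (h : ∀ s, 0 ≤ f s) {a b c d : ℝ} (hab : a ≤ b)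
    (_hbc : b ≤ c) (hcd : c ≤ d) : ∫ s in b..c, f s ≤ ∫ s in a..d, f s := by
  rw [int_split hf a b d, int_split hf b c d]
  linarith [int_nonneg hab h, int_nonneg hcd h]

variable {g g' : ℝ → ℝ}

theorem cont_g (hg : ∀ s, HasDerivAt g (g' s) s) : Continuous g :=
  continuous_iff_continuousAt.2 fun s => (hg s).continuousAt

theorem cGm (hg : ∀ s, HasDerivAt g (g' s) s) : Continuous fun s => Gm (g s) :=
  (contDiff_Gm (m := 0)).continuous.comp (cont_g hg)

theorem cGp (hg : ∀ s, HasDerivAt g (g' s) s) : Continuous fun s => Gp (g s) :=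
  (contDiff_Gp (m := 0)).continuous.comp (cont_g hg)

theorem cD (hg : ∀ s, HasDerivAt g (g' s) s) (hg' : Continuous g') :
    Continuous fun s => hh (g s) * g' s :=
  ((contDiff_hh (m := 0)).continuous.comp (cont_g hg)).mul hg'

theorem int_D (hg : ∀ s, HasDerivAt g (g' s) s) (hg' : Continuous g') (a c : ℝ) :
    ∫ s in a..c, hh (g s) * g' s = Gm (g c) - Gm (g a) :=
  intervalIntegral.integral_eq_sub_of_hasDerivAt (f := fun s => Gm (g s))
    (fun s _ => (hasDerivAt_Gm (g s)).comp s (hg s)) ((cD hg hg').intervalIntegrable _ _)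

theorem int_D_le (hg : ∀ s, HasDerivAt g (g' s) s) (hg' : Continuous g') (h1 : ∀ s, |g s| ≤ 1)
    (a c : ℝ) : ∫ s in a..c, hh (g s) * g' s ≤ 1 := by
  rw [int_D hg hg']
  linarith [Gm_le (h1 c), Gm_nonneg (h1 a), s0_le_one]

/-- integration by parts on both sides of `l` -/
theorem parts (hg : ∀ s, HasDerivAt g (g' s) s) (hg' : Continuous g') (h1 : ∀ s, |g s| ≤ 1)
    {a l c : ℝ} (hal : a ≤ l) (hlc : l ≤ c) :
    ∫ s in a..c, |s - l| * (hh (g s) * g' s) ≤ (∫ s in a..l, Gm (g s)) + ∫ s in l..c, Gp (g s) := by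
  have cd := cD hg hg'
  have c1 : Continuous fun s => |s - l| * (hh (g s) * g' s) := by fun_prop
  rw [int_split c1 a l c]
  refine add_le_add ?_ ?_
  · have e : ∫ s in a..l, |s - l| * (hh (g s) * g' s) - Gm (g s)
        = (l - l) * Gm (g l) - (l - a) * Gm (g a) := by
      refine intervalIntegral.integral_eq_sub_of_hasDerivAt (f := fun s => (l - s) * Gm (g s))
        (fun s hs => ?_) ((c1.sub (cGm hg)).intervalIntegrable _ _)
      rw [uIcc_of_le hal] at hs
      refine (((hasDerivAt_id s).const_sub l).mul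
        ((hasDerivAt_Gm (g s)).comp s (hg s))).congr_deriv ?_
      rw [abs_of_nonpos (by linarith [hs.2])]
      simp only [id, Function.comp_apply]
      ring
    rw [intervalIntegral.integral_sub (c1.intervalIntegrable _ _)
      ((cGm hg).intervalIntegrable _ _)] at e
    nlinarith [mul_nonneg (sub_nonneg.2 hal) (Gm_nonneg (h1 a))]
  · have e : ∫ s in l..c, |s - l| * (hh (g s) * g' s) - Gp (g s)
        = (l - c) * Gp (g c) - (l - l) * Gp (g l) := by
      refine intervalIntegral.integral_eq_sub_of_hasDerivAt (f := fun s => (l - s) * Gp (g s))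
        (fun s hs => ?_) ((c1.sub (cGp hg)).intervalIntegrable _ _)
      rw [uIcc_of_le hlc] at hs
      refine (((hasDerivAt_id s).const_sub l).mul
        ((hasDerivAt_Gp (g s)).comp s (hg s))).congr_deriv ?_
      rw [abs_of_nonneg (by linarith [hs.1])]
      simp only [id, Function.comp_apply]
      ring
    rw [intervalIntegral.integral_sub (c1.intervalIntegrable _ _)
      ((cGp hg).intervalIntegrable _ _)] at e
    nlinarith [mul_nonneg (sub_nonneg.2 hlc) (Gp_nonneg (h1 c))]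

theorem Gp_le_psi {s : ℝ} (h : |s| ≤ 1) (h0 : 0 ≤ s) : Gp s ≤ (1 - s ^ 2) ^ 2 := by
  refine (Gp_le_sq h).trans ?_
  have e : (1 - s ^ 2) ^ 2 = (1 - s) ^ 2 * (1 + s) ^ 2 := by ring
  rw [e]
  exact le_mul_of_one_le_right (sq_nonneg _) (by nlinarith)

theorem Gm_le_psi {s : ℝ} (h : |s| ≤ 1) (h0 : s ≤ 0) : Gm s ≤ (1 - s ^ 2) ^ 2 := by
  have := Gp_le_psi (s := -s) (by rwa [abs_neg]) (by linarith)
  rwa [Gp_neg, neg_sq] at this

theorem Gp_le_psi3 {s : ℝ} (h : |s| ≤ 1) (h0 : s0 / 4 ≤ Gm s) : Gp s ≤ 3 * (1 - s ^ 2) ^ 2 := by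
  refine (Gp_le_sq h).trans ?_
  have h2 : 0 < 3 * Real.sqrt 2 := by positivity
  rw [Gm_eq, s0, show 4 / (3 * Real.sqrt 2) / 4 = 1 / (3 * Real.sqrt 2) by ring,
    div_le_div_iff_of_pos_right h2] at h0
  have h3 : 1 ≤ 3 * (1 + s) ^ 2 := by nlinarith [(abs_le.1 h).1, sq_nonneg (1 + s)]
  have e : 3 * (1 - s ^ 2) ^ 2 = (1 - s) ^ 2 * (3 * (1 + s) ^ 2) := by ring
  rw [e]
  exact le_mul_of_one_le_right (sq_nonneg _) h3

theorem xi_ident (hg : ∀ s, HasDerivAt g (g' s) s) {L l : ℝ} (hL : 0 < L) (hl : |l| ≤ L) :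
    s0 * l + ∫ s, xi L s * G0 (g s)
      = (∫ s in (-(2 * L))..l, xi L s * Gm (g s)) - ∫ s in l..(2 * L), xi L s * Gp (g s) := by
  have cx : Continuous (xi L) := (contDiff_xi L (m := 0)).continuous
  have c0 : Continuous fun s => xi L s * G0 (g s) :=
    cx.mul ((contDiff_G0 (m := 0)).continuous.comp (cont_g hg))
  have e0 : ∫ s in (-(2 * L))..(2 * L), xi L s * G0 (g s) = ∫ s, xi L s * G0 (g s) := by
    refine intervalIntegral.integral_eq_integral_of_support_subset fun s hs => ?_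
    by_contra h
    refine hs ?_
    change xi L s * G0 (g s) = 0
    rw [xi_eq_zero hL, zero_mul]
    rw [mem_Ioc, not_and_or, not_lt, not_le] at h
    rcases h with h | h
    · exact le_abs.2 (Or.inr (by linarith))
    · exact le_abs.2 (Or.inl h.le)
  have e1 : ∫ s in (-(2 * L))..0, xi L s = ∫ s in (0 : ℝ)..(2 * L), xi L s := by
    have := intervalIntegral.integral_comp_neg (a := 0) (b := 2 * L) (xi L)
    simp only [xi_neg, neg_zero] at this
    exact this.symm
  have e2 : ∫ s in (0 : ℝ)..l, xi L s = l := by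
    rw [intervalIntegral.integral_congr (g := fun _ => 1) fun s hs => xi_eq_one hL ?_]
    · simp
    · exact (by simpa using Real.dist_le_of_mem_uIcc left_mem_uIcc hs |>.trans_eq' (by
        simp [Real.dist_eq]) : |s| ≤ |l|).trans hl
  have e3 : ∫ s in (-(2 * L))..l, xi L s * Gm (g s)
      = s0 / 2 * (∫ s in (-(2 * L))..l, xi L s) + ∫ s in (-(2 * L))..l, xi L s * G0 (g s) := by
    rw [← intervalIntegral.integral_const_mul, ← intervalIntegral.integral_add
      ((cx.const_mul _).intervalIntegrable _ _) (c0.intervalIntegrable _ _)]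
    exact intervalIntegral.integral_congr fun s _ => by simp only [Gm]; ring
  have e4 : ∫ s in l..(2 * L), xi L s * Gp (g s)
      = s0 / 2 * (∫ s in l..(2 * L), xi L s) - ∫ s in l..(2 * L), xi L s * G0 (g s) := by
    rw [← intervalIntegral.integral_const_mul, ← intervalIntegral.integral_sub
      ((cx.const_mul _).intervalIntegrable _ _) (c0.intervalIntegrable _ _)]
    exact intervalIntegral.integral_congr fun s _ => by simp only [Gp]; ring
  have e5 := int_split cx (-(2 * L)) 0 l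
  have e6 := int_split cx 0 l (2 * L)
  rw [e3, e4, ← e0, int_split c0 _ l, e5, e1, e6, e2]
  ring

end Ln

open Ln

theorem lineA (C0 M : ℝ) (hC0 : 0 ≤ C0) (hM : 0 ≤ M) : ∃ C : ℝ, 0 ≤ C ∧
    ∀ (g g' E : ℝ → ℝ) (L H l : ℝ), (∀ s, HasDerivAt g (g' s) s) → Continuous g' → Continuous E →
    (∀ s, |g s| ≤ 1) → (∀ s, (1 - g s ^ 2) ^ 2 ≤ 4 * E s) → (∀ s, 2 * E s ≤ (1 - g s ^ 2) ^ 2) →
    (∀ s, hh (g s) * g' s ≤ E s) →
    (∀ s, E s - hh (g s) * g' s ≤ (1 - g s ^ 2) ^ 2) →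
    1 ≤ H → 2 * H ≤ L → |l| ≤ M * H → |l| ≤ L →
    (∀ s, H ≤ s → s ≤ 2 * L → 1 - g s ≤ C0 * Real.exp (-(s - H))) →
    (∀ s, s ≤ -H → -(2 * L) ≤ s → 1 + g s ≤ C0 * Real.exp (s + H)) →
    |∫ s, xi L s * G0 (g s)| ≤ C * H ∧
    ∫ s in (-L)..L, |s - l| * E s ≤ |s0 * l + ∫ s, xi L s * G0 (g s)| + C
      + C * H * ∫ s in (-L)..L, (E s - hh (g s) * g' s) := by
  have hs0 := s0_pos
  refine ⟨6 * C0 + 48 + 8 * (M + 2) * C0 ^ 2 + (M + 2) + 8 * (M + 1) / s0, by positivity,
    fun g g' E L H l hg hg' hE h1 hE1 _ hb0 hb1 hH hL hlM hlL tp tm => ?_⟩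
  have hL0 : 0 < L := by linarith
  have cx : Continuous (xi L) := (contDiff_xi L (m := 0)).continuous
  have cm := cGm hg
  have cp := cGp hg
  have cd := cD hg hg'
  have np : ∀ s, 0 ≤ Gp (g s) := fun s => Gp_nonneg (h1 s)
  have nm : ∀ s, 0 ≤ Gm (g s) := fun s => Gm_nonneg (h1 s)
  have op : ∀ s, Gp (g s) ≤ 1 := fun s => (Gp_le (h1 s)).trans s0_le_one
  have om : ∀ s, Gm (g s) ≤ 1 := fun s => (Gm_le (h1 s)).trans s0_le_one
  have nxp : ∀ s, 0 ≤ xi L s * Gp (g s) := fun s => mul_nonneg (xi_nonneg L s) (np s)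
  have nxm : ∀ s, 0 ≤ xi L s * Gm (g s) := fun s => mul_nonneg (xi_nonneg L s) (nm s)
  have xp : ∀ s, xi L s * Gp (g s) ≤ Gp (g s) := fun s =>
    mul_le_of_le_one_left (np s) (xi_le_one L s)
  have xm : ∀ s, xi L s * Gm (g s) ≤ Gm (g s) := fun s =>
    mul_le_of_le_one_left (nm s) (xi_le_one L s)
  have tp' : ∀ s, H ≤ s → s ≤ 2 * L → Gp (g s) ≤ 2 * C0 * Real.exp (-(s - H)) := fun s a b => by
    have := tp s a b
    have := abs_le.1 (h1 s)
    nlinarith [Gp_le_sq (h1 s)]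
  have tm' : ∀ s, s ≤ -H → -(2 * L) ≤ s → Gm (g s) ≤ 2 * C0 * Real.exp (s + H) := fun s a b => by
    have := tm s a b
    have := abs_le.1 (h1 s)
    nlinarith [Gm_le_sq (h1 s)]
  have hK : 0 ≤ 2 * C0 := by positivity
  have Tp : ∀ a, H ≤ a → a ≤ 2 * L → ∫ s in a..(2 * L), xi L s * Gp (g s) ≤ 2 * C0 :=
    fun a h2 h3 => exp_tail (cx.mul cp) hK h3 h2 fun s h4 h5 => (xp s).trans (tp' s (h2.trans h4) h5)
  have Tm : ∀ a, a ≤ -H → -(2 * L) ≤ a → ∫ s in (-(2 * L))..a, xi L s * Gm (g s) ≤ 2 * C0 :=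
    fun a h2 h3 => exp_tail' (cx.mul cm) hK h3 h2 fun s h4 h5 => (xm s).trans (tm' s (h5.trans h2) h4)
  have r1 : 0 ≤ 8 * (M + 2) * C0 ^ 2 := by positivity
  have r2 : 0 ≤ 8 * (M + 1) / s0 := by positivity
  constructor
  · have e := xi_ident hg hL0 (l := 0) (by simpa using hL0.le)
    rw [mul_zero, zero_add] at e
    have a1 := int_split (cx.mul cm) (-(2 * L)) (-H) 0
    have a2 := int_split (cx.mul cp) 0 H (2 * L)
    have a3 := int_le_len (cx.mul cm) (a := -H) (c := 0) (by linarith) fun s => (xm s).trans (om s)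
    have a4 := int_le_len (cx.mul cp) (a := 0) (c := H) (by linarith) fun s => (xp s).trans (op s)
    have a5 := Tp H le_rfl (by linarith)
    have a6 := Tm (-H) le_rfl (by linarith)
    have a7 := int_nonneg (a := -(2 * L)) (c := 0) (by linarith) nxm
    have a8 := int_nonneg (a := 0) (c := 2 * L) (by linarith) nxp
    simp only [Pi.mul_apply] at a1 a2 a3 a4
    have a9 : |∫ s, xi L s * G0 (g s)| ≤ 2 * C0 + H := by
      rw [e, abs_le]; constructor <;> linarith
    refine a9.trans ?_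
    nlinarith [mul_nonneg (show 0 ≤ 4 * C0 + 47 + 8 * (M + 2) * C0 ^ 2 + (M + 2) + 8 * (M + 1) / s0
      by positivity) (show 0 ≤ H by linarith), mul_nonneg hC0 (show 0 ≤ H - 1 by linarith)]
  obtain ⟨l1, l2⟩ := abs_le.1 hlL
  set β : ℝ → ℝ := fun s => E s - hh (g s) * g' s with hβ
  have cβ : Continuous β := hE.sub cd
  have nβ : ∀ s, 0 ≤ β s := fun s => sub_nonneg.2 (hb0 s)
  have nE : ∀ s, 0 ≤ E s := fun s => by nlinarith [hE1 s, sq_nonneg (1 - g s ^ 2)]
  set b := ∫ s in (-L)..L, β s with hb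
  have nb : 0 ≤ b := int_nonneg (by linarith) nβ
  set Am := ∫ s in (-L)..l, Gm (g s) with hAm
  set Ap := ∫ s in l..L, Gp (g s) with hAp
  have iE : ∀ a c, ∫ s in a..c, E s = (∫ s in a..c, hh (g s) * g' s) + ∫ s in a..c, β s := by
    intro a c
    rw [← intervalIntegral.integral_add (cd.intervalIntegrable _ _) (cβ.intervalIntegrable _ _)]
    exact intervalIntegral.integral_congr fun s _ => by simp only [hβ]; ring
  have bE : ∫ s in (-L)..L, E s ≤ 1 + b := by
    rw [iE]; linarith [int_D_le hg hg' h1 (-L) L]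
  -- (1) splitting
  have s1 : ∫ s in (-L)..L, |s - l| * E s ≤ Am + Ap + ∫ s in (-L)..L, |s - l| * β s := by
    have c1 : Continuous fun s => |s - l| * (hh (g s) * g' s) := by fun_prop
    have c2 : Continuous fun s => |s - l| * β s := by fun_prop
    have e : ∫ s in (-L)..L, |s - l| * E s = (∫ s in (-L)..L, |s - l| * (hh (g s) * g' s))
        + ∫ s in (-L)..L, |s - l| * β s := by
      rw [← intervalIntegral.integral_add (c1.intervalIntegrable _ _) (c2.intervalIntegrable _ _)]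
      exact intervalIntegral.integral_congr fun s _ => by simp only [hβ]; ring
    rw [e]
    linarith [parts hg hg' h1 l1 l2]
  -- (2) the `β` term
  have s2 : ∫ s in (-L)..L, |s - l| * β s ≤ 8 * (M + 2) * C0 ^ 2 + (M + 2) * H * b := by
    have c2 : Continuous fun s => |s - l| * β s := by fun_prop
    have hK2 : 0 ≤ 4 * (M + 2) * C0 ^ 2 := by positivity
    have key : ∀ s u w : ℝ, H ≤ u → |s| = u + H → 0 ≤ w → w ≤ C0 * Real.exp (-u) →
        β s ≤ 4 * w ^ 2 → |s - l| * β s ≤ 4 * (M + 2) * C0 ^ 2 * Real.exp (-u) := by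
      intro s u w hu hs hw0 hw hβw
      have k1 : |s - l| ≤ (M + 2) * u := by
        have := abs_sub s l
        nlinarith [mul_le_mul_of_nonneg_left hu hM]
      have k2 : u * Real.exp (-u) ≤ 1 := by
        rw [Real.exp_neg, ← div_eq_mul_inv, div_le_one (Real.exp_pos u)]
        linarith [Real.add_one_le_exp u]
      have k3 : β s ≤ 4 * (C0 * Real.exp (-u)) ^ 2 :=
        hβw.trans (by nlinarith [pow_le_pow_left₀ hw0 hw 2])
      calc |s - l| * β s ≤ ((M + 2) * u) * (4 * (C0 * Real.exp (-u)) ^ 2) :=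
            mul_le_mul k1 k3 (nβ s) (mul_nonneg (by linarith) (by linarith))
        _ = 4 * (M + 2) * C0 ^ 2 * Real.exp (-u) * (u * Real.exp (-u)) := by ring
        _ ≤ _ := mul_le_of_le_one_right (by positivity) k2
    have a1 : ∫ s in (2 * H)..L, |s - l| * β s ≤ 4 * (M + 2) * C0 ^ 2 :=
      exp_tail c2 hK2 hL (H := H) (by linarith) fun s h2 h3 => by
        obtain ⟨g1, g2⟩ := abs_le.1 (h1 s)
        refine key s (s - H) (1 - g s) (by linarith) (by rw [abs_of_nonneg (by linarith)]; ring)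
          (by linarith) (tp s (by linarith) (by linarith)) ((hb1 s).trans ?_)
        have : (1 + g s) ^ 2 ≤ 4 := by nlinarith
        nlinarith [mul_le_mul_of_nonneg_left this (sq_nonneg (1 - g s))]
    have a2 : ∫ s in (-L)..(-(2 * H)), |s - l| * β s ≤ 4 * (M + 2) * C0 ^ 2 :=
      exp_tail' c2 hK2 (by linarith) (H := H) (by linarith) fun s h2 h3 => by
        obtain ⟨g1, g2⟩ := abs_le.1 (h1 s)
        rw [show s + H = -(-s - H) by ring]
        refine key s (-s - H) (1 + g s) (by linarith) (by rw [abs_of_nonpos (by linarith)]; ring)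
          (by linarith) (by rw [show -(-s - H) = s + H by ring]; exact tm s (by linarith) (by linarith))
          ((hb1 s).trans ?_)
        have : (1 - g s) ^ 2 ≤ 4 := by nlinarith
        nlinarith [mul_le_mul_of_nonneg_left this (sq_nonneg (1 + g s))]
    have a3 : ∫ s in (-(2 * H))..(2 * H), |s - l| * β s ≤ (M + 2) * H * b := by
      refine (int_mono c2 (cβ.const_mul ((M + 2) * H)) (by linarith) fun s h2 h3 =>
        mul_le_mul_of_nonneg_right ?_ (nβ s)).trans ?_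
      · have := abs_sub s l
        have : |s| ≤ 2 * H := abs_le.2 ⟨h2, h3⟩
        linarith
      · rw [intervalIntegral.integral_const_mul]
        exact mul_le_mul_of_nonneg_left (int_sub cβ nβ (by linarith) (by linarith) hL)
          (mul_nonneg (by linarith) (by linarith))
    rw [int_split c2 _ (-(2 * H)), int_split c2 (-(2 * H)) (2 * H)]
    linarith
  -- (3) the difference
  have s3 : |Am - Ap| ≤ |s0 * l + ∫ s, xi L s * G0 (g s)| + 2 * C0 := by
    have e1 : ∫ s in (-L)..l, xi L s * Gm (g s) = Am :=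
      intervalIntegral.integral_congr fun s hs => by
        rw [uIcc_of_le l1] at hs
        simp only [xi_eq_one hL0 (abs_le.2 ⟨hs.1, hs.2.trans l2⟩), one_mul]
    have e2 : ∫ s in l..L, xi L s * Gp (g s) = Ap :=
      intervalIntegral.integral_congr fun s hs => by
        rw [uIcc_of_le l2] at hs
        simp only [xi_eq_one hL0 (abs_le.2 ⟨l1.trans hs.1, hs.2⟩), one_mul]
    have a1 := int_split (cx.mul cm) (-(2 * L)) (-L) l
    have a2 := int_split (cx.mul cp) l L (2 * L)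
    simp only [Pi.mul_apply] at a1 a2
    have a5 := Tp L (by linarith) (by linarith)
    have a6 := Tm (-L) (by linarith) (by linarith)
    have a7 := int_nonneg (a := -(2 * L)) (c := -L) (by linarith) nxm
    have a8 := int_nonneg (a := L) (c := 2 * L) (by linarith) nxp
    have e := xi_ident hg hL0 hlL
    rw [a1, a2, e1, e2] at e
    have a9 := le_abs_self (s0 * l + ∫ s, xi L s * G0 (g s))
    have a10 := neg_abs_le (s0 * l + ∫ s, xi L s * G0 (g s))
    rw [abs_le]; constructor <;> linarith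
  -- (4) the minimum
  have s4 : min Am Ap ≤ 24 + 2 * C0 + 4 * (M + 1) / s0 * H * b := by
    have r3 : 0 ≤ 4 * (M + 1) / s0 * H * b := by have : 0 ≤ H := by linarith
                                                 positivity
    by_cases hbs : b < s0 / 4
    · have bE' : ∫ s in (-L)..L, E s ≤ 2 := by linarith [s0_le_one]
      by_cases hc : ∀ s, l ≤ s → s ≤ L → s0 / 4 ≤ Gm (g s)
      · refine (min_le_right _ _).trans ?_
        have a1 := int_mono cp (hE.const_mul 12) l2 fun s h2 h3 =>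
          (Gp_le_psi3 (h1 s) (hc s h2 h3)).trans (by linarith [hE1 s])
        rw [intervalIntegral.integral_const_mul] at a1
        linarith [int_sub hE nE l1 l2 le_rfl]
      · push Not at hc
        obtain ⟨s2, h2, h3, h4⟩ := hc
        refine (min_le_left _ _).trans ?_
        have a1 := int_mono cm (hE.const_mul 4) l1 fun s h5 h6 => by
          have b1 := iE s s2
          have b2 := int_nonneg (h6.trans h2) nE
          have b3 := int_sub cβ nβ h5 (h6.trans h2) h3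
          rw [int_D hg hg'] at b1
          have b4 : g s ≤ 0 := by
            by_contra b5
            linarith [half_le_Gm (h1 s) (not_le.1 b5).le]
          exact (Gm_le_psi (h1 s) b4).trans (hE1 s)
        rw [intervalIntegral.integral_const_mul] at a1
        linarith [int_sub hE nE le_rfl l1 l2]
    · refine (min_le_left _ _).trans ?_
      have hMH : 0 ≤ M * H := mul_nonneg hM (by linarith)
      have a1 : Am ≤ ∫ s in (-L)..(M * H), Gm (g s) :=
        int_sub cm nm le_rfl l1 (abs_le.1 hlM).2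
      have a2 : ∫ s in (-L)..(-H), Gm (g s) ≤ 2 * C0 :=
        exp_tail' cm hK (by linarith) le_rfl fun s h4 h5 => tm' s h5 (by linarith)
      have a3 := int_le_len cm (a := -H) (c := M * H) (by linarith) om
      rw [int_split cm _ (-H)] at a1
      have a4 : (M + 1) * H ≤ 4 * (M + 1) / s0 * H * b := by
        have e : 4 * (M + 1) / s0 * H * b = (M + 1) * H * (b / (s0 / 4)) := by field_simp
        rw [e]
        exact le_mul_of_one_le_right (mul_nonneg (by linarith) (by linarith))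
          ((one_le_div (by positivity)).2 (not_lt.1 hbs))
      linarith
  have s5 : Am + Ap = |Am - Ap| + 2 * min Am Ap := by
    rcases le_total Am Ap with h | h
    · rw [min_eq_left h, abs_of_nonpos (by linarith)]; ring
    · rw [min_eq_right h, abs_of_nonneg (by linarith)]; ring
  have s6 : 0 ≤ (6 * C0 + 48 + 8 * (M + 2) * C0 ^ 2) * H * b := by
    have : 0 ≤ H := by linarith
    positivity
  have s7 : (6 * C0 + 48 + 8 * (M + 2) * C0 ^ 2 + (M + 2) + 8 * (M + 1) / s0) * H * b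
      = (6 * C0 + 48 + 8 * (M + 2) * C0 ^ 2) * H * b + (M + 2) * H * b
        + 2 * (4 * (M + 1) / s0 * H * b) := by ring
  linarith

theorem lineB (g g' lam w1 w2 : ℝ → ℝ) (b t : ℝ) (hb : 0 ≤ b) (hg : ∀ s, HasDerivAt g (g' s) s)
    (hg' : Continuous g') (h1 : ∀ s, |g s| ≤ 1) (hm : ∀ s, 0 ≤ g' s) (hl : Continuous lam)
    (hl0 : ∀ s, 0 ≤ lam s) (hl1 : ∀ s, lam s ≤ 2 * (hh (g s) * g' s))
    (c1 : Continuous w1) (c2 : Continuous w2) (hw1 : ∀ s, 0 ≤ w1 s ∧ w1 s ≤ 1)
    (hw2 : ∀ s, 0 ≤ w2 s ∧ w2 s ≤ 1) (z1 : ∀ s, s ≤ t → w1 s = 0) (z2 : ∀ s, t ≤ s → w2 s = 0) :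
    (∫ s in (-b)..b, lam s) * ∫ s in (-b)..b, (w1 s * Gp (g s) + w2 s * Gm (g s)) ≤
      |∫ s in (-b)..b, (s - t) * lam s| + 4 * ∫ s in (-b)..b, (1 - g s ^ 2) ^ 2 := by
  have hbb : -b ≤ b := by linarith
  have cg := cont_g hg
  have cm := cGm hg
  have cp := cGp hg
  have cd := cD hg hg'
  have mono : Monotone g := monotone_of_deriv_nonneg (fun s => (hg s).differentiableAt)
    fun s => by rw [(hg s).deriv]; exact hm s
  obtain ⟨z, hz1, hz2, hp, hn⟩ : ∃ z, -b ≤ z ∧ z ≤ b ∧ (∀ s, z < s → s ≤ b → 0 ≤ g s) ∧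
      ∀ s, -b ≤ s → s < z → g s ≤ 0 := by
    by_cases ha : 0 ≤ g (-b)
    · exact ⟨-b, le_rfl, hbb, fun s h _ => ha.trans (mono h.le), fun s h h' => absurd h (by linarith)⟩
    by_cases hc : g b ≤ 0
    · exact ⟨b, hbb, le_rfl, fun s h h' => absurd h' (by linarith), fun s _ h => (mono h.le).trans hc⟩
    obtain ⟨z, hz, hz0⟩ := intermediate_value_Icc hbb cg.continuousOn
      (show (0 : ℝ) ∈ Icc (g (-b)) (g b) from ⟨(not_le.1 ha).le, (not_le.1 hc).le⟩)
    exact ⟨z, hz.1, hz.2, fun s h _ => hz0 ▸ mono h.le, fun s _ h => hz0 ▸ mono h.le⟩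
  have cP : Continuous fun s => (1 - g s ^ 2) ^ 2 := by fun_prop
  set P := ∫ s in (-b)..b, (1 - g s ^ 2) ^ 2 with hP
  set Λ := ∫ s in (-b)..b, lam s with hΛ
  have nP : 0 ≤ P := int_nonneg hbb fun _ => sq_nonneg _
  have nΛ : 0 ≤ Λ := int_nonneg hbb hl0
  have bΛ : Λ ≤ 2 := by
    have := int_mono hl (cd.const_mul 2) hbb fun s _ _ => hl1 s
    rw [intervalIntegral.integral_const_mul] at this
    linarith [int_D_le hg hg' h1 (-b) b]
  have a1 : ∫ s in (-b)..b, (w1 s * Gp (g s) + w2 s * Gm (g s)) ≤ P + |z - t| := by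
    have ii : IntervalIntegrable ((uIcc t z).indicator fun _ => (1 : ℝ)) volume (-b) b :=
      ⟨(integrableOn_const (by simp)).indicator measurableSet_uIcc,
        (integrableOn_const (by simp)).indicator measurableSet_uIcc⟩
    have b1 : ∫ s in (-b)..b, (uIcc t z).indicator (fun _ => (1 : ℝ)) s ≤ |z - t| := by
      rw [intervalIntegral.integral_of_le hbb, integral_indicator measurableSet_uIcc,
        setIntegral_const, smul_eq_mul, mul_one, ← Real.volume_real_interval]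
      rw [measureReal_restrict_apply measurableSet_uIcc]
      exact measureReal_mono inter_subset_left (by simp [uIcc])
    refine (intervalIntegral.integral_mono_on hbb
      (((c1.mul cp).add (c2.mul cm)).intervalIntegrable _ _)
      ((cP.intervalIntegrable _ _).add ii) fun s hs => ?_).trans ?_
    · simp only [Pi.add_apply, Pi.mul_apply]
      have n1 := Gp_nonneg (h1 s)
      have n2 := Gm_nonneg (h1 s)
      have n3 := sq_nonneg (1 - g s ^ 2)
      by_cases hs2 : s ∈ uIcc t z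
      · rw [indicator_of_mem hs2]
        have := Gm_add_Gp (g s)
        nlinarith [hw1 s, hw2 s, s0_le_one, mul_le_of_le_one_left n1 (hw1 s).2,
          mul_le_of_le_one_left n2 (hw2 s).2]
      · rw [indicator_of_notMem hs2, add_zero]
        rw [mem_uIcc, not_or, not_and_or, not_and_or, not_le, not_le, not_le, not_le] at hs2
        rcases le_total s t with h | h
        · rw [z1 s h, zero_mul, zero_add]
          have hsz : s < z := by rcases hs2.2 with h' | h' <;> linarith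
          exact (mul_le_of_le_one_left n2 (hw2 s).2).trans (Gm_le_psi (h1 s) (hn s hs.1 hsz))
        · rw [z2 s h, zero_mul, add_zero]
          have hsz : z < s := by rcases hs2.1 with h' | h' <;> linarith
          exact (mul_le_of_le_one_left n1 (hw1 s).2).trans (Gp_le_psi (h1 s) (hp s hsz hs.2))
    · rw [intervalIntegral.integral_add (cP.intervalIntegrable _ _) ii]
      linarith
  have a2 : ∫ s in (-b)..b, |s - z| * lam s ≤ 2 * P := by
    have c3 : Continuous fun s => |s - z| * (hh (g s) * g' s) := by fun_prop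
    have b1 := int_mono (f := fun s => |s - z| * lam s) (by fun_prop) (c3.const_mul 2) hbb
      fun s _ _ => by nlinarith [mul_le_mul_of_nonneg_left (hl1 s) (abs_nonneg (s - z))]
    rw [intervalIntegral.integral_const_mul] at b1
    have b2 := parts hg hg' h1 hz1 hz2
    have b3 : ∫ s in (-b)..z, Gm (g s) ≤ ∫ s in (-b)..z, (1 - g s ^ 2) ^ 2 :=
      intervalIntegral.integral_mono_on_of_le_Ioo hz1 (cm.intervalIntegrable _ _)
        (cP.intervalIntegrable _ _) fun s hs => Gm_le_psi (h1 s) (hn s hs.1.le hs.2)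
    have b4 : ∫ s in z..b, Gp (g s) ≤ ∫ s in z..b, (1 - g s ^ 2) ^ 2 :=
      intervalIntegral.integral_mono_on_of_le_Ioo hz2 (cp.intervalIntegrable _ _)
        (cP.intervalIntegrable _ _) fun s hs => Gp_le_psi (h1 s) (hp s hs.1 hs.2.le)
    have b5 := int_split cP (-b) z b
    linarith
  have a3 : Λ * |z - t| ≤ |∫ s in (-b)..b, (s - t) * lam s| + 2 * P := by
    have c3 : Continuous fun s => (s - t) * lam s := by fun_prop
    have c4 : Continuous fun s => (s - z) * lam s := by fun_prop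
    have e : (z - t) * Λ = (∫ s in (-b)..b, (s - t) * lam s) - ∫ s in (-b)..b, (s - z) * lam s := by
      rw [← intervalIntegral.integral_sub (c3.intervalIntegrable _ _) (c4.intervalIntegrable _ _),
        hΛ, ← intervalIntegral.integral_const_mul]
      exact intervalIntegral.integral_congr fun s _ => by ring
    have b1 : |∫ s in (-b)..b, (s - z) * lam s| ≤ ∫ s in (-b)..b, |s - z| * lam s := by
      refine (intervalIntegral.abs_integral_le_integral_abs hbb).trans_eq ?_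
      exact intervalIntegral.integral_congr fun s _ => by
        simp only [abs_mul, abs_of_nonneg (hl0 s)]
    rw [← abs_of_nonneg nΛ, ← abs_mul, mul_comm, e]
    linarith [abs_sub (∫ s in (-b)..b, (s - t) * lam s) (∫ s in (-b)..b, (s - z) * lam s)]
  nlinarith [mul_le_mul_of_nonneg_left a1 nΛ, mul_le_mul_of_nonneg_right bΛ nP]

end

end Crest.Agent.N067.E
end

-- ▼ part N067/E/Gib
section

/-! # E/Gib (leaf E-Gib): Gibbons in `d`-variables

`half`: if `m = sup w > 0`, maximise `w - ε(1 + ‖x‖²)` on the closed half space; interior maximum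
`x_ε`, `w x_ε ≥ m/2`, `Δ w x_ε ≤ 2nε`, contradiction for small `ε`.
`dd_near`: `ballS` gives `v ≥ 0.9` on `{⟪e,x⟫ ≥ A}`, `A = |K| + R₀`; `half` for `w = tanh((⟪e,x⟫ - A)/√2) - v`
(`s³ - s` has slope `≥ 1` on `[0.9,1]`) gives `dd v ≥ ⟪e,x⟫ - A` on `{⟪e,x⟫ ≥ A}`; same for `-v, -e`; the
bounds extend to all `x` by `abs_dd_sub_le`.
`gib`: for `⟪e',e⟫ > 0` put `ω_t x = dd v (x + t e') - dd v x`.  The set of `t > 0` with `ω_t ≥ 0` is closed,
nonempty (`dd_near`) and open: `|Δ ω_t| ≤ 3 ‖D ω_t‖ + 3 |ω_t|` (`lap_dd`), so `harnack_glob` and the telescoping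
sum `∑_{i<m} ω(x + i t e') ≥ m t ⟪e',e⟫ - 2A` give `inf ω_t > 0`.  Hence `∇ dd v x = N(x) e`, `P = ψ² tt` is
constant and `→ 0` deep in the half space (`ballS`), so `tt = 0`, `oneD`. -/

set_option autoImplicit false

open MeasureTheory Laplacian InnerProductSpace Topology Filter Set Metric
open scoped RealInnerProductSpace ContDiff Gradient

namespace Crest.Agent.N067.E

open Crest.Agent.R077

noncomputable section

variable {n k : ℕ}

theorem half {w : EE n → ℝ} {e : EE n} {A B : ℝ} (hw : ContDiff ℝ 2 w) (hB : ∀ x, w x ≤ B)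
    (h0 : ∀ x, ⟪e, x⟫ = A → w x ≤ 0) (hL : ∀ x, A < ⟪e, x⟫ → 0 < w x → w x ≤ (Δ w) x) :
    ∀ x, A ≤ ⟪e, x⟫ → w x ≤ 0 := by
  intro x0 hx0
  by_contra! hp
  obtain ⟨ε, hε, hε'⟩ : ∃ ε : ℝ, 0 < ε ∧ ε * (2 * n) < w x0 :=
    ⟨w x0 / (2 * n + 1), by positivity, by
      rw [div_mul_eq_mul_div, div_lt_iff₀ (by positivity)]; linarith⟩
  have hB0 : 0 < B := hp.trans_le (hB x0)
  have ci : Continuous fun x : EE n => ⟪e, x⟫ := by fun_prop
  have cq := (contDiff_sq x0 (k := 2)).const_smul ε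
  obtain ⟨y, ⟨hy1, hy2⟩, hmax⟩ := ((isCompact_closedBall x0 (B / ε + 1)).inter_right
    (isClosed_le continuous_const ci : IsClosed {x | A ≤ ⟪e, x⟫})).exists_isMaxOn
    ⟨x0, mem_closedBall_self (by positivity), hx0⟩ (hw.sub cq).continuous.continuousOn
  have h1 : w x0 ≤ w y - ε * ‖y - x0‖ ^ 2 := by
    simpa using hmax (a := x0) ⟨mem_closedBall_self (by positivity), hx0⟩
  have h2 : w x0 ≤ w y := h1.trans (sub_le_self _ (by positivity))
  have h3 : A < ⟪e, y⟫ := lt_of_le_of_ne hy2 fun h => by linarith [h0 y h.symm]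
  have h4 : y ∈ ball x0 (B / ε + 1) := by
    rw [mem_ball, dist_eq_norm]
    by_contra! h
    have h5 : B = ε * (B / ε) := by field_simp
    have h6 : 0 < B / ε := by positivity
    nlinarith [hB y, pow_le_pow_left₀ (by positivity) h 2]
  have h5 := lap_of_max (hw.sub cq).contDiffAt (hmax.isLocalMax (inter_mem
    (mem_of_superset (isOpen_ball.mem_nhds h4) ball_subset_closedBall)
    (mem_of_superset ((isOpen_lt continuous_const ci).mem_nhds h3) fun z (hz : A < _) => hz.le)))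
  simp only [smul_eq_mul] at h5 cq
  rw [lap_sub' hw.contDiffAt cq.contDiffAt, lap_const_mul (contDiff_sq x0).contDiffAt,
    lap_normSq] at h5
  linarith [hL y h3 (hp.trans_le h2)]

namespace Gb

theorem contDiff_tanh : ContDiff ℝ 2 Real.tanh := by
  rw [show Real.tanh = fun t => Real.sinh t / Real.cosh t from funext Real.tanh_eq_sinh_div_cosh]
  exact Real.contDiff_sinh.div Real.contDiff_cosh fun t => (Real.cosh_pos t).ne'

theorem tanh_lip (a b : ℝ) : |Real.tanh a - Real.tanh b| ≤ |a - b| := by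
  have := (lipschitzWith_of_nnnorm_deriv_le (C := 1)
    (fun s => (Aac.hasDerivAt_tanh s).differentiableAt) fun s => by
      rw [(Aac.hasDerivAt_tanh s).deriv, ← NNReal.coe_le_coe, coe_nnnorm, Real.norm_eq_abs, abs_le]
      constructor <;> push_cast <;> nlinarith [Real.tanh_sq_lt_one s, sq_nonneg (Real.tanh s)]
    ).dist_le_mul a b
  rwa [NNReal.coe_one, one_mul] at this

theorem lap_prof {e : EE n} (he : ‖e‖ = 1) (A : ℝ) :
    ContDiff ℝ 2 (fun x => Real.tanh ((√2)⁻¹ * (⟪e, x⟫ - A))) ∧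
    ∀ x, (Δ fun x => Real.tanh ((√2)⁻¹ * (⟪e, x⟫ - A))) x =
      Real.tanh ((√2)⁻¹ * (⟪e, x⟫ - A)) ^ 3 - Real.tanh ((√2)⁻¹ * (⟪e, x⟫ - A)) := by
  have hin : ContDiff ℝ 2 fun y : EE n => ⟪e, y⟫ := contDiff_const.inner ℝ contDiff_id
  have h1 := hin.sub (contDiff_const (c := A))
  have h2 := (contDiff_const (c := (√2)⁻¹)).mul h1
  refine ⟨contDiff_tanh.comp h2, fun x => ?_⟩
  have h3 : gsq (fun x => (√2)⁻¹ * (⟪e, x⟫ - A)) x = 1 / 2 := by
    simp only [gsq, pdv_const_mul (h1.differentiable (by norm_num) x), pdv_sub_const, pdv_inner,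
      mul_pow, ← Finset.mul_sum, ← EuclideanSpace.real_norm_sq_eq, he, inv_pow, sqrt2_sq]
    norm_num
  rw [lap_comp h2.contDiffAt contDiff_tanh.contDiffAt (.of_forall Aac.hasDerivAt_tanh)
    (((Aac.hasDerivAt_tanh _).fun_pow 2).const_sub 1), h3, lap_const_mul h1.contDiffAt,
    lap_sub_const hin.contDiffAt, lap_inner]
  push_cast
  ring

theorem lower {v : EE n → ℝ} (hv : Sol v) {e : EE n} {K : ℝ} (he : ‖e‖ = 1)
    (hp : ∀ x, K < ⟪e, x⟫ → 0 < v x) : ∃ A : ℝ, ∀ x, ⟪e, x⟫ - A ≤ dd v x := by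
  obtain ⟨R, hR, hb⟩ := ballS n (1 / 10) (by norm_num)
  obtain ⟨c, hl⟩ := lap_prof he (K + R)
  have h9 : ∀ x, K + R ≤ ⟪e, x⟫ → 1 - 1 / 10 ≤ v x := fun x hx =>
    hb v hv.isSol x fun y hy => hp y (by
      have := abs_real_inner_le_norm e (x - y)
      rw [he, one_mul, inner_sub_right, ← dist_eq_norm, dist_comm] at this
      linarith [mem_ball.1 hy, le_abs_self (⟪e, x⟫ - ⟪e, y⟫)])
  have key := half (e := e) (A := K + R) (B := 2) (c.sub (hv.cd 2))
    (fun x => by linarith [Real.tanh_lt_one ((√2)⁻¹ * (⟪e, x⟫ - (K + R))), (abs_lt.1 (hv.lt x)).1])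
    (fun x hx => by
      simp only [hx, sub_self, mul_zero, Real.tanh_zero]; linarith [h9 x hx.ge])
    fun x hx h0 => by
      rw [lap_sub' c.contDiffAt (hv.cd 2).contDiffAt, hl, hv.eq]
      have := h9 x hx.le
      generalize Real.tanh _ = T at h0 ⊢
      nlinarith [mul_nonneg h0.le (show 0 ≤ T ^ 2 + T * v x + v x ^ 2 - 2 by nlinarith)]
  have k2 : ∀ x, K + R ≤ ⟪e, x⟫ → ⟪e, x⟫ - (K + R) ≤ dd v x := fun x hx => by
    have := mul_le_mul_of_nonneg_left (Real.artanh_le_artanh (Real.neg_one_lt_tanh _)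
      (abs_lt.1 (hv.lt x)).2 (sub_nonpos.1 (key x hx))) sqrt2_pos.le
    rwa [Real.artanh_tanh, mul_inv_cancel_left₀ sqrt2_pos.ne'] at this
  refine ⟨K + R, fun x => (le_total _ _).elim (k2 x) fun hx => ?_⟩
  have h1 : ⟪e, x + (K + R - ⟪e, x⟫) • e⟫ = K + R := by
    rw [inner_add_right, real_inner_smul_right, real_inner_self_eq_norm_sq, he]; ring
  have h2 := k2 _ h1.ge
  have h3 := hv.abs_dd_sub_le (x + (K + R - ⟪e, x⟫) • e) x
  rw [add_sub_cancel_left, norm_smul, he, Real.norm_of_nonneg (by linarith)] at h3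
  linarith [(abs_le.1 h3).2]

theorem dd_neg {v : EE n → ℝ} (hv : Sol v) (x : EE n) : dd (fun y => -v y) x = -dd v x := by
  rw [dd, hv.eq_tanh x, ← Real.tanh_neg, Real.artanh_tanh, mul_neg, mul_div_cancel₀ _ sqrt2_pos.ne']

/-- the difference of two solutions in `d`-variables -/
theorem lap_diff {u v : EE n → ℝ} (hu : Sol u) (hv : Sol v) (x : EE n) :
    |(Δ fun y => dd u y - dd v y) x| ≤
      3 * ‖fderiv ℝ (fun y => dd u y - dd v y) x‖ + 3 * |dd u x - dd v x| := by
  have h1 : |tt u x - tt v x| ≤ 2 * ‖fderiv ℝ (fun y => dd u y - dd v y) x‖ := by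
    have e : ‖fderiv ℝ (fun y => dd u y - dd v y) x‖ = ‖∇ (dd u) x - ∇ (dd v) x‖ := by
      rw [fderiv_fun_sub (hu.dd_diff x) (hv.dd_diff x), gradient, gradient, ← map_sub,
        LinearIsometryEquiv.norm_map]
    have a := abs_norm_sub_norm_le (∇ (dd u) x) (∇ (dd v) x)
    rw [e, tt, tt, show ∀ a b : ℝ, 1 - a ^ 2 - (1 - b ^ 2) = -((a + b) * (a - b)) from
      fun a b => by ring, abs_neg, abs_mul, abs_of_nonneg (by positivity)]
    exact mul_le_mul (by linarith [hu.norm_grad_dd_le x, hv.norm_grad_dd_le x]) a (abs_nonneg _)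
      zero_le_two
  have h2 : √2 * |u x - v x| ≤ |dd u x - dd v x| := by
    have := tanh_lip (dd u x / √2) (dd v x / √2)
    rwa [← hu.eq_tanh, ← hv.eq_tanh, ← sub_div, abs_div, abs_of_pos sqrt2_pos,
      le_div_iff₀' sqrt2_pos] at this
  have h3 : √2 ≤ 3 / 2 := Real.sqrt_le_iff.2 ⟨by norm_num, by norm_num⟩
  rw [lap_sub' (hu.dd_cd 2).contDiffAt (hv.dd_cd 2).contDiffAt, hu.lap_dd, hv.lap_dd,
    show -√2 * u x * tt u x - -√2 * v x * tt v x =
      -(√2 * (u x * (tt u x - tt v x)) + √2 * ((u x - v x) * tt v x)) by ring, abs_neg]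
  refine (abs_add_le _ _).trans (add_le_add ?_ ?_)
  · rw [abs_mul, abs_mul, abs_of_pos sqrt2_pos]
    have := mul_le_mul (hu.lt x).le h1 (abs_nonneg _) zero_le_one
    exact (mul_le_mul h3 this (by positivity) (by norm_num)).trans_eq (by ring)
  · rw [abs_mul, abs_mul, abs_of_pos sqrt2_pos, abs_of_nonneg (hv.tt_nonneg x), ← mul_assoc]
    exact (mul_le_mul h2 (tt_le_one v x) (hv.tt_nonneg x) (abs_nonneg _)).trans
      (by linarith [abs_nonneg (dd u x - dd v x)])

/-- sliding in a direction `e'` with `⟪e, e'⟫ > 0` -/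
theorem slide {v : EE n → ℝ} (hv : Sol v) {e e' : EE n} {A : ℝ} (hA : ∀ x, |dd v x - ⟪e, x⟫| ≤ A)
    (he : 0 < ⟪e, e'⟫) {t : ℝ} (ht : 0 < t) (x : EE n) : dd v x ≤ dd v (x + t • e') := by
  have big : ∀ (t : ℝ) x, t * ⟪e, e'⟫ - 2 * A ≤ dd v (x + t • e') - dd v x := fun t x => by
    have h1 := (abs_le.1 (hA (x + t • e'))).1
    rw [inner_add_right, real_inner_smul_right] at h1
    linarith [(abs_le.1 (hA x)).2]
  have hA0 : 0 ≤ A := (abs_nonneg _).trans (hA 0)
  have hc := hv.dd_diff.continuous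
  refine ((isPreconnected_Ioi (a := (0 : ℝ))).subset_of_closure_inter_subset
    (u := {t | 0 < t ∧ ∀ x, dd v x ≤ dd v (x + t • e')}) ?_
    ⟨(2 * A + 1) / ⟪e, e'⟫, by simp only [mem_Ioi]; positivity, by positivity, fun x => ?_⟩
    (fun t ⟨h1, h2⟩ => ⟨h2, fun x => ?_⟩) ht).2 x
  · refine Metric.isOpen_iff.2 fun t ⟨ht, h⟩ => ?_
    obtain ⟨C, hC, H⟩ := harnack_glob n (B := 3) (by norm_num)
    have hu := Sol_shift hv (t • e')
    have H := (H (fun y => dd v (y + t • e') - dd v y) ((hu.dd_cd 2).sub (hv.dd_cd 2))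
      (fun z => sub_nonneg.2 (h z)) fun z => by
        have := lap_diff hu hv z
        rwa [abs_of_nonneg (a := dd _ z - dd v z) (sub_nonneg.2 (h z))] at this).2
    obtain ⟨m, hm⟩ := exists_nat_gt (2 * A / (t * ⟪e, e'⟫ / 2))
    rw [div_lt_iff₀ (by positivity)] at hm
    set c := t * ⟪e, e'⟫ / 2 / Real.exp (C * (m * ‖t • e'‖)) with hc'
    have low : ∀ x, c ≤ dd v (x + t • e') - dd v x := fun x => by
      obtain ⟨i, hi, h1⟩ := Finset.exists_lt_of_sum_lt (s := Finset.range m)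
        (f := fun _ => t * ⟪e, e'⟫ / 2)
        (g := fun i => dd v (x + ((i + 1 : ℕ) * t) • e') - dd v (x + (i * t) • e')) (by
          rw [Finset.sum_range_sub (fun i : ℕ => dd v (x + (i * t) • e')), Finset.sum_const,
            Finset.card_range, nsmul_eq_mul, Nat.cast_zero, zero_mul, zero_smul, add_zero]
          linarith [big (m * t) x])
      have h2 := H x (x + (i * t) • e')
      rw [add_assoc, ← add_smul, ← add_one_mul, ← Nat.cast_succ, add_sub_cancel_left,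
        show ‖((i : ℝ) * t) • e'‖ = i * ‖t • e'‖ by rw [mul_smul, norm_smul, Real.norm_natCast]] at h2
      rw [hc', div_le_iff₀' (Real.exp_pos _)]
      refine (h1.le.trans h2).trans (mul_le_mul_of_nonneg_right (Real.exp_le_exp.2 ?_)
        (sub_nonneg.2 (h x)))
      have : (i : ℝ) ≤ m := Nat.cast_le.2 (Finset.mem_range.1 hi).le
      gcongr
    have c0 : 0 < c := by positivity
    refine ⟨min t (c / (‖e'‖ + 1)), by positivity, fun s hs => ?_⟩
    rw [mem_ball, Real.dist_eq, lt_min_iff, lt_div_iff₀ (by positivity)] at hs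
    refine ⟨by linarith [(abs_lt.1 hs.1).1], fun x => ?_⟩
    have h1 := hv.abs_dd_sub_le (x + s • e') (x + t • e')
    rw [add_sub_add_left_eq_sub, ← sub_smul, norm_smul, Real.norm_eq_abs] at h1
    nlinarith [(abs_le.1 h1).1, low x, abs_nonneg (s - t)]
  · have := big ((2 * A + 1) / ⟪e, e'⟫) x
    rw [div_mul_cancel₀ _ he.ne'] at this
    linarith
  · exact closure_minimal (t := {t : ℝ | dd v x ≤ dd v (x + t • e')}) (fun s hs => hs.2 x)
      (isClosed_le continuous_const (by fun_prop)) h1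

theorem dir_nonneg {f : EE n → ℝ} {x a : EE n} (hf : DifferentiableAt ℝ f x)
    (h : ∀ t : ℝ, 0 < t → f x ≤ f (x + t • a)) : 0 ≤ fderiv ℝ f x a :=
  ge_of_tendsto (hf.hasFDerivAt.hasLineDerivAt a).tendsto_slope_zero_right
    (eventually_nhdsWithin_of_forall fun t ht =>
      smul_nonneg (inv_nonneg.2 (le_of_lt ht)) (sub_nonneg.2 (h t ht)))

/-- a vector that is nonnegative on an open half space is parallel to the normal -/
theorem parallel {g e : EE n} (he : ‖e‖ = 1) (h : ∀ a, 0 < ⟪e, a⟫ → 0 ≤ ⟪g, a⟫) :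
    g = ⟪g, e⟫ • e := by
  have ee : ⟪e, e⟫ = 1 := by rw [real_inner_self_eq_norm_sq, he, one_pow]
  set p := g - ⟪g, e⟫ • e with hp
  have h1 : ⟪e, p⟫ = 0 := by
    rw [hp, inner_sub_right, real_inner_smul_right, ee, real_inner_comm]; ring
  have h2 : ⟪g, p⟫ = ‖p‖ ^ 2 := by
    rw [← real_inner_self_eq_norm_sq, ← sub_eq_zero, ← inner_sub_left, hp, sub_sub_cancel,
      real_inner_smul_left, h1, mul_zero]
  refine sub_eq_zero.1 (by_contra fun h0 => ?_)
  have h3 : 0 < ‖p‖ ^ 2 := pow_pos (norm_pos_iff.2 h0) 2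
  have h4 := h (e - ((|⟪g, e⟫| + 1) / ‖p‖ ^ 2) • p) (by
    rw [inner_sub_right, real_inner_smul_right, h1, ee]; norm_num)
  rw [inner_sub_right, real_inner_smul_right, h2, div_mul_cancel₀ _ h3.ne'] at h4
  linarith [le_abs_self ⟪g, e⟫]

end Gb
open Gb

theorem dd_near {v : EE n → ℝ} (hv : Sol v) {e : EE n} {K : ℝ} (he : ‖e‖ = 1)
    (hp : ∀ x, K < ⟪e, x⟫ → 0 < v x) (hq : ∀ x, ⟪e, x⟫ < -K → v x < 0) :
    ∃ A : ℝ, ∀ x, |dd v x - ⟪e, x⟫| ≤ A := by
  obtain ⟨A, h⟩ := lower hv he hp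
  obtain ⟨A', h'⟩ := lower (K := K) (Sol_neg hv) ((norm_neg e).trans he) fun x hx =>
    neg_pos.2 (hq x (by rw [inner_neg_left] at hx; linarith))
  refine ⟨max A A', fun x => abs_le.2 ⟨by linarith [h x, le_max_left A A'], ?_⟩⟩
  have := h' x
  rw [dd_neg hv, inner_neg_left] at this
  linarith [le_max_right A A']

theorem gib {v : EE n → ℝ} (hv : Sol v) {e : EE n} {K : ℝ} (he : ‖e‖ = 1)
    (hp : ∀ x, K < ⟪e, x⟫ → 0 < v x) (hq : ∀ x, ⟪e, x⟫ < -K → v x < 0) : Planar v := by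
  obtain ⟨A, hA⟩ := dd_near hv he hp hq
  have h1 : ∀ j, pdv j (dd v) = fun x => fderiv ℝ (dd v) x e * e j := fun j => funext fun x => by
    rw [← grad_apply, parallel (g := ∇ (dd v) x) he fun a ha => by
      rw [inner_grad]; exact dir_nonneg (hv.dd_diff x) fun t ht => slide hv hA ha ht x, inner_grad]
    rfl
  have dN : Differentiable ℝ fun x => fderiv ℝ (dd v) x e :=
    (St.contDiff_dir (m := 1) (hv.dd_cd 2) (by norm_num) e).differentiable (by norm_num)
  have h2 : ∀ i x, gin (dd v) (pdv i (dd v)) x = pdv i (dd v) x * (Δ (dd v)) x := fun i x => by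
    rw [lap_eq (hv.dd_cd 2).contDiffAt, gin, Finset.mul_sum]
    refine Finset.sum_congr rfl fun j _ => ?_
    simp only [h1, mul_comm _ (e _), pdv_const_mul (dN x)]
    ring
  have dp := hv.psi_sm.differentiable (by simp)
  have h3 := const_of_pdv (f := fun x => psi v x ^ 2 * tt v x) ((dp.pow 2).mul hv.tt_diff)
    fun i x => by
      rw [pdv_mul ((dp.fun_pow 2) x) (hv.tt_diff x), pdv_sq (dp x), hv.pdv_psi, hv.pdv_tt, h2, hv.lap_dd]
      ring
  refine oneD n v hv 0 (le_antisymm (nonpos_of_mul_nonpos_right (le_of_forall_pos_le_add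
    fun ε hε => ?_) (pow_pos (hv.psi_pos 0) 2)) (hv.tt_nonneg 0))
  obtain ⟨R, hR, hb⟩ := ballS n (ε / 2) (by positivity)
  have h4 := hb v hv.isSol ((K + R) • e) fun y hy => hp y (by
    have := abs_real_inner_le_norm e ((K + R) • e - y)
    rw [he, one_mul, inner_sub_right, ← dist_eq_norm, dist_comm, real_inner_smul_right,
      real_inner_self_eq_norm_sq, he] at this
    linarith [mem_ball.1 hy, (abs_le.1 this).2])
  have h5 := hv.psi_pos ((K + R) • e)
  have h6 := abs_lt.1 (hv.lt ((K + R) • e))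
  have h7 : psi v ((K + R) • e) ≤ ε := by unfold psi; nlinarith
  rw [h3 0 ((K + R) • e), zero_add]
  refine (mul_le_of_le_one_right (sq_nonneg _) (tt_le_one _ _)).trans ?_
  nlinarith [psi_le_one v ((K + R) • e)]

end

end Crest.Agent.N067.E
end

-- ▼ part N067/E/Band1
section

/-! # E/Band1 (leaf E-Band1): derivatives of the column functionals of case (iii)

`pdv_colw`: `∂_l(g σ ψ²) = ∂_n(g d_l ψ²) + (σ ∂_l g - d_l ∂_n g) ψ²` (`σ ∂_l ψ = d_l ∂_n ψ` by `pdv_psi`,
`∂_l σ = ∂_n d_l` by `pdv_comm`), then `pdv_col`, `col_pdv_last`.  For `FF`: `g = ξ σ² d_i`; for `YY`: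
`g = ξ σ³ (s - ⟪p,y⟫)`.  Use `0 < σ ≤ 1`, `|d_i| ≤ 1`, `|hs| ≤ √hsq`, `2 σ √hsq ≤ μ + σ² hsq/μ`.
`A2_sum`: the sets `{L_j < |s| < 2 L_j}`, `L_j = 2^j r`, are disjoint, so `∑_j L_j |ξ_j'| ≤ M` pointwise,
and `∫_{-b}^b σ ψ² = 2 (Gm u(b) - Gm u(-b)) ≤ 2 s0` (`hh_mul_pdv`). -/

set_option autoImplicit false

open MeasureTheory Laplacian InnerProductSpace Topology Filter Set Metric
open scoped RealInnerProductSpace ContDiff Gradient

namespace Crest.Agent.N067.E

open Crest.Agent.R077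

noncomputable section

variable {n k : ℕ}

/-- `F_i(y) = ∫ ξ σ³ d_i ψ² ds` -/
def FF (u : EE (k + 1) → ℝ) (L : ℝ) (i : Fin (k + 1)) : EE k → ℝ :=
  col fun x => xi L (x (Fin.last k)) * (sg u x ^ 3 * pdv i (dd u) x * psi u x ^ 2)

/-- `Y(y) = ∫ ξ σ⁴ ψ² (s - p·y) ds` -/
def YY (u : EE (k + 1) → ℝ) (L : ℝ) (p : EE k) : EE k → ℝ :=
  col fun x => xi L (x (Fin.last k)) *
    (sg u x ^ 4 * psi u x ^ 2 * (x (Fin.last k) - ⟪p, init x⟫))

/-- curvature error -/
def A1 (u : EE (k + 1) → ℝ) (L μ : ℝ) : EE k → ℝ :=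
  col fun x => xi L (x (Fin.last k)) * ((μ + sg u x ^ 2 * hsq (dd u) x / μ) * psi u x ^ 2)

/-- cut-off error -/
def A2 (u : EE (k + 1) → ℝ) (L : ℝ) : EE k → ℝ :=
  col fun x => |deriv (xi L) (x (Fin.last k))| * (sg u x * psi u x ^ 2)

namespace B1

theorem sg_sm {u : EE (k + 1) → ℝ} (hu : Sol u) : ContDiff ℝ ∞ (sg u) := hu.pdv_dd_sm _

theorem c1 {f : EE n → ℝ} (h : ContDiff ℝ ∞ f) : ContDiff ℝ 1 f := contDiff_infty.1 h 1

theorem df {f : EE n → ℝ} (h : ContDiff ℝ 1 f) (x : EE n) : DifferentiableAt ℝ f x :=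
  h.differentiable (by norm_num) x

theorem xi_sm (L : ℝ) : ContDiff ℝ ∞ fun x : EE (k + 1) => xi L (x (Fin.last k)) :=
  (contDiff_xi L (m := ⊤)).comp contDiff_last

theorem cont_dxi (L : ℝ) : Continuous fun x : EE (k + 1) => deriv (xi L) (x (Fin.last k)) :=
  ((contDiff_xi L (m := 1)).continuous_deriv (by norm_num)).comp
    (contDiff_last (m := 0)).continuous

theorem w_sm (p : EE k) : ContDiff ℝ ∞ fun x : EE (k + 1) => x (Fin.last k) - ⟪p, init x⟫ :=
  contDiff_last.sub (contDiff_const.inner ℝ contDiff_init)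

theorem sg_le {u : EE (k + 1) → ℝ} (hu : Sol u) (x : EE (k + 1)) : sg u x ≤ 1 :=
  (le_abs_self _).trans (abs_pdv_dd_le hu _ x)


theorem VC_mul {f : EE (k + 1) → ℝ} {b : ℝ} (h : VC b f) (g : EE (k + 1) → ℝ) :
    VC b fun x => f x * g x := fun x hx => mul_eq_zero_of_left (h x hx) _

theorem pdv_pow {f : EE n → ℝ} {x : EE n} (hf : DifferentiableAt ℝ f x) (m : ℕ) (i : Fin n) :
    pdv i (fun y => f y ^ m) x = m * f x ^ (m - 1) * pdv i f x :=
  pdv_comp (φ := fun s => s ^ m) (hasDerivAt_pow m (f x)) hf i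

theorem hs_sq_le (f : EE n → ℝ) (i j : Fin n) (x : EE n) : pdv i (pdv j f) x ^ 2 ≤ hsq f x := by
  rw [hsq_eq]
  calc pdv i (pdv j f) x ^ 2 ≤ ∑ j, pdv i (pdv j f) x ^ 2 :=
        Finset.single_le_sum (f := fun j => pdv i (pdv j f) x ^ 2) (fun _ _ => sq_nonneg _)
          (Finset.mem_univ j)
    _ ≤ _ := Finset.single_le_sum (f := fun i => ∑ j, pdv i (pdv j f) x ^ 2)
          (fun _ _ => Finset.sum_nonneg fun _ _ => sq_nonneg _) (Finset.mem_univ i)

/-- `2 |c σ B| ≤ μ + σ² H / μ` -/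
theorem amgm {c σ B H μ : ℝ} (hc : |c| ≤ 1) (hB : B ^ 2 ≤ H) (hμ : 0 < μ) :
    |c * σ * B| ≤ (μ + σ ^ 2 * H / μ) / 2 := by
  have h1 : |c * σ * B| ≤ |σ * B| := by
    rw [mul_assoc, abs_mul]; exact mul_le_of_le_one_left (abs_nonneg _) hc
  have h2 : |σ * B| ^ 2 ≤ σ ^ 2 * H := by
    rw [sq_abs, mul_pow]; exact mul_le_mul_of_nonneg_left hB (sq_nonneg _)
  have h3 : 2 * |σ * B| ≤ μ + |σ * B| ^ 2 / μ := by
    rw [← sub_le_iff_le_add', le_div_iff₀ hμ]; nlinarith [sq_nonneg (|σ * B| - μ)]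
  have h4 : |σ * B| ^ 2 / μ ≤ σ ^ 2 * H / μ := by gcongr
  linarith

theorem abs_mul_le1 {a b : ℝ} (ha : |a| ≤ 1) (hb : |b| ≤ 1) : |a * b| ≤ 1 := by
  rw [abs_mul]; exact mul_le_one₀ ha (abs_nonneg _) hb

/-- the common final estimate -/
theorem fin_bd {ξ ξ' E a σ c P w W : ℝ} (hξ : 0 ≤ ξ) (hσ : 0 ≤ σ) (hP : 0 ≤ P) (hE : |E| ≤ 3 * a)
    (hc : |c| ≤ 1) (hw : |w| ≤ W) :
    |w * ((ξ * E - ξ' * (c * σ)) * P)| ≤ W * (3 * (ξ * (a * P)) + |ξ'| * (σ * P)) := by
  have h1 : |ξ * E - ξ' * (c * σ)| ≤ ξ * (3 * a) + |ξ'| * σ := by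
    refine (abs_sub _ _).trans (add_le_add ?_ ?_)
    · rw [abs_mul, abs_of_nonneg hξ]; exact mul_le_mul_of_nonneg_left hE hξ
    · rw [abs_mul, abs_mul, abs_of_nonneg hσ]
      exact mul_le_mul_of_nonneg_left (mul_le_of_le_one_left hσ hc) (abs_nonneg _)
  rw [abs_mul, abs_mul, abs_of_nonneg hP]
  calc |w| * (|ξ * E - ξ' * (c * σ)| * P) ≤ W * ((ξ * (3 * a) + |ξ'| * σ) * P) :=
        mul_le_mul hw (mul_le_mul_of_nonneg_right h1 hP) (by positivity) ((abs_nonneg _).trans hw)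
    _ = _ := by ring

end B1

open B1

theorem pdv_colw {u g : EE (k + 1) → ℝ} {b : ℝ} (hu : Sol u) (hg : ContDiff ℝ 1 g) (hb : VC b g)
    (l : Fin k) (y : EE k) : pdv l (col fun x => g x * (sg u x * psi u x ^ 2)) y =
      col (fun x => (sg u x * pdv l.castSucc g x - pdv l.castSucc (dd u) x * pdv (Fin.last k) g x)
        * psi u x ^ 2) y := by
  have hs := c1 (sg_sm hu)
  have hp := c1 hu.psi_sm
  have hl := c1 (hu.pdv_dd_sm l.castSucc)
  have hA : ContDiff ℝ 1 fun x => g x * (sg u x * psi u x ^ 2) := hg.mul (hs.mul (hp.pow 2))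
  have hB : ContDiff ℝ 1 fun x => g x * (pdv l.castSucc (dd u) x * psi u x ^ 2) :=
    hg.mul (hl.mul (hp.pow 2))
  have e : ∀ x, (sg u x * pdv l.castSucc g x - pdv l.castSucc (dd u) x * pdv (Fin.last k) g x)
        * psi u x ^ 2 = pdv l.castSucc (fun x => g x * (sg u x * psi u x ^ 2)) x
          - pdv (Fin.last k) (fun x => g x * (pdv l.castSucc (dd u) x * psi u x ^ 2)) x := by
    intro x
    rw [pdv_mul (df hg x) (df (hs.mul (hp.pow 2)) x), pdv_mul (df hs x) (df (hp.pow 2) x),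
      pdv_mul (df hg x) (df (hl.mul (hp.pow 2)) x), pdv_mul (df hl x) (df (hp.pow 2) x),
      pdv_sq (df hp x), pdv_sq (df hp x), hu.pdv_psi, hu.pdv_psi,
      pdv_comm (hu.dd_cd 2).contDiffAt (Fin.last k) l.castSucc]
    have : pdv l.castSucc (sg u) x = pdv l.castSucc (pdv (Fin.last k) (dd u)) x := rfl
    rw [this]; unfold sg; ring
  rw [pdv_col hA (VC_mul hb _)]
  have h0 := col_pdv_last hB (VC_mul hb _) y
  unfold col at h0 ⊢
  simp only [e]
  rw [integral_sub (integrable_col (St.continuous_pdv hA _) ((VC_mul hb _).pdv _) y)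
    (integrable_col (St.continuous_pdv hB _) ((VC_mul hb _).pdv _) y), h0, sub_zero]

variable {u : EE (k + 1) → ℝ} {L μ : ℝ}

namespace B1

theorem FF_sm (hu : Sol u) (L : ℝ) (i : Fin (k + 1)) : ContDiff ℝ 1 fun x : EE (k + 1) =>
    xi L (x (Fin.last k)) * (sg u x ^ 3 * pdv i (dd u) x * psi u x ^ 2) :=
  c1 ((xi_sm L).mul ((((sg_sm hu).pow 3).mul (hu.pdv_dd_sm i)).mul (hu.psi_sm.pow 2)))

theorem YY_sm (hu : Sol u) (L : ℝ) (p : EE k) : ContDiff ℝ 1 fun x : EE (k + 1) =>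
    xi L (x (Fin.last k)) * (sg u x ^ 4 * psi u x ^ 2 * (x (Fin.last k) - ⟪p, init x⟫)) :=
  c1 ((xi_sm L).mul ((((sg_sm hu).pow 4).mul (hu.psi_sm.pow 2)).mul (w_sm p)))

theorem A1_c (hu : Sol u) (L μ : ℝ) : Continuous fun x : EE (k + 1) =>
    xi L (x (Fin.last k)) * ((μ + sg u x ^ 2 * hsq (dd u) x / μ) * psi u x ^ 2) :=
  (xi_sm L).continuous.mul ((continuous_const.add
    ((((sg_sm hu).continuous.pow 2).mul hu.hsq_sm.continuous).div_const μ)).mul
      (hu.psi_sm.continuous.pow 2))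

theorem sp_c (hu : Sol u) : Continuous fun x : EE (k + 1) => sg u x * psi u x ^ 2 :=
  (sg_sm hu).continuous.mul (hu.psi_sm.continuous.pow 2)

theorem A2_c (hu : Sol u) (L : ℝ) : Continuous fun x : EE (k + 1) =>
    |deriv (xi L) (x (Fin.last k))| * (sg u x * psi u x ^ 2) :=
  (cont_dxi L).abs.mul (sp_c hu)

theorem cont_snoc (y : EE k) : Continuous fun s : ℝ => snoc y s :=
  (contDiff_snoc (m := 0)).continuous.comp (continuous_const.prodMk continuous_id)

end B1

theorem contDiff_FF (hu : Sol u) (hL : 0 < L) (i : Fin (k + 1)) : ContDiff ℝ 1 (FF u L i) :=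
  contDiff_col (FF_sm hu L i) (VC.xi hL _)

theorem contDiff_YY (hu : Sol u) (hL : 0 < L) (p : EE k) : ContDiff ℝ 1 (YY u L p) :=
  contDiff_col (YY_sm hu L p) (VC.xi hL _)

theorem cont_A1 (hu : Sol u) (hL : 0 < L) (μ : ℝ) : Continuous (A1 u L μ) :=
  cont_col (A1_c hu L μ) (VC.xi hL _)

theorem cont_A2 (hu : Sol u) (hL : 0 < L) : Continuous (A2 u L) :=
  cont_col (A2_c hu L) (VC.dxi hL _)

theorem A1_nonneg (hμ : 0 < μ) (L : ℝ) (y : EE k) : 0 ≤ A1 u L μ y :=
  integral_nonneg fun s => by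
    have := hsq_nonneg (dd u) (snoc y s)
    exact mul_nonneg (xi_nonneg _ _) (by positivity)

theorem A2_nonneg (hu : Sol u) (hm : MonoLast u) (L : ℝ) (y : EE k) : 0 ≤ A2 u L y :=
  integral_nonneg fun s => by
    have := sg_pos hu hm (snoc y s)
    positivity

theorem icol_le (hu : Sol u) (y : EE k) (a b : ℝ) :
    ∫ s in a..b, sg u (snoc y s) * psi u (snoc y s) ^ 2 ≤ 2 := by
  have hd : ∀ s ∈ uIcc a b, HasDerivAt (fun s => 2 * Gm (u (snoc y s)))
      (sg u (snoc y s) * psi u (snoc y s) ^ 2) s := by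
    intro s _
    have h1 := ((hasDerivAt_Gm (u (snoc y s))).comp s (hasDerivAt_snoc (hu.diff _))).const_mul 2
    rw [hh_mul_pdv hu] at h1
    exact h1.congr_deriv (by unfold sg; ring)
  rw [intervalIntegral.integral_eq_sub_of_hasDerivAt hd
    (((sp_c hu).comp (cont_snoc y)).intervalIntegrable a b)]
  have h1 := Gm_le (hu.lt (snoc y b)).le
  have h2 := Gm_nonneg (hu.lt (snoc y a)).le
  have h3 := s0_le_one
  linarith

namespace B1

theorem abs_col_le (hu : Sol u) {f : EE (k + 1) → ℝ} {b C : ℝ} (hb0 : 0 ≤ b) (hb : VC b f)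
    (hC : 0 ≤ C) (y : EE k)
    (h : ∀ s, |s| ≤ b → |f (snoc y s)| ≤ C * (sg u (snoc y s) * psi u (snoc y s) ^ 2)) :
    |col f y| ≤ 2 * C := by
  rw [col_eq hb0 hb]
  have h1 : ‖∫ s in (-b)..b, f (snoc y s)‖ ≤
      ∫ s in (-b)..b, C * (sg u (snoc y s) * psi u (snoc y s) ^ 2) :=
    intervalIntegral.norm_integral_le_of_norm_le (by linarith)
      (Eventually.of_forall fun s hs => h s (abs_le.2 ⟨hs.1.le, hs.2⟩))
      ((continuous_const.mul ((sp_c hu).comp (cont_snoc y))).intervalIntegrable _ _)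
  rw [intervalIntegral.integral_const_mul] at h1
  have h2 := mul_le_mul_of_nonneg_left (icol_le hu y (-b) b) hC
  rw [Real.norm_eq_abs] at h1
  linarith

theorem abs_col_A (hu : Sol u) (hL : 0 < L) {f : EE (k + 1) → ℝ} {W : ℝ} (y : EE k)
    (h : ∀ s, |f (snoc y s)| ≤ W * (3 * (xi L s * ((μ + sg u (snoc y s) ^ 2 *
      hsq (dd u) (snoc y s) / μ) * psi u (snoc y s) ^ 2)) +
        |deriv (xi L) s| * (sg u (snoc y s) * psi u (snoc y s) ^ 2))) :
    |col f y| ≤ W * (3 * A1 u L μ y + A2 u L y) := by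
  have i1 := integrable_col (A1_c hu L μ) (VC.xi hL _) y
  have i2 := integrable_col (A2_c hu L) (VC.dxi hL _) y
  unfold A1 A2 col
  rw [← integral_const_mul, ← integral_add (i1.const_mul 3) i2, ← integral_const_mul,
    ← Real.norm_eq_abs]
  refine norm_integral_le_of_norm_le (((i1.const_mul 3).add i2).const_mul W)
    (Eventually.of_forall fun s => ?_)
  simpa only [snoc_last, Real.norm_eq_abs] using h s

theorem abs_w (p y : EE k) {s b : ℝ} (hs : |s| ≤ b) : |s - ⟪p, y⟫| ≤ b + ‖p‖ * ‖y‖ :=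
  (abs_sub _ _).trans (add_le_add hs (abs_real_inner_le_norm _ _))

theorem dxi_zero (hL : 0 < L) {s : ℝ} (hs : 2 * L ≤ |s|) : deriv (xi L) s = 0 := by
  obtain ⟨M, -, -, h⟩ := exists_cutM
  exact (h L s hL).2.1 (Or.inr hs)

end B1

theorem abs_FF_le (hu : Sol u) (hm : MonoLast u) (hL : 0 < L) (i : Fin (k + 1)) (y : EE k) :
    |FF u L i y| ≤ 2 := by
  have := abs_col_le hu (C := 1) (by linarith) (VC.xi hL fun x =>
    sg u x ^ 3 * pdv i (dd u) x * psi u x ^ 2) zero_le_one y fun s _ => by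
      have h0 := sg_pos hu hm (snoc y s)
      have h1 : |xi L s * (sg u (snoc y s) * sg u (snoc y s) * pdv i (dd u) (snoc y s))| ≤ 1 :=
        abs_mul_le1 (abs_le.2 ⟨by linarith [xi_nonneg L s], xi_le_one L s⟩)
          (abs_mul_le1 (abs_mul_le1 (abs_pdv_dd_le hu _ _) (abs_pdv_dd_le hu _ _))
            (abs_pdv_dd_le hu _ _))
      have h2 : 0 ≤ sg u (snoc y s) * psi u (snoc y s) ^ 2 := by positivity
      calc _ = |xi L s * (sg u (snoc y s) * sg u (snoc y s) * pdv i (dd u) (snoc y s))| *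
            (sg u (snoc y s) * psi u (snoc y s) ^ 2) := by
            rw [← abs_of_nonneg h2, ← abs_mul, snoc_last]; congr 1; ring
        _ ≤ _ := mul_le_mul_of_nonneg_right h1 h2
  rw [mul_one] at this
  exact this

theorem abs_YY_le (hu : Sol u) (hm : MonoLast u) (hL : 0 < L) (p y : EE k) :
    |YY u L p y| ≤ 2 * (2 * L + ‖p‖ * ‖y‖) :=
  abs_col_le hu (by linarith) (VC.xi hL fun x =>
    sg u x ^ 4 * psi u x ^ 2 * (x (Fin.last k) - ⟪p, init x⟫)) (by positivity) y fun s hs => by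
      have h0 := sg_pos hu hm (snoc y s)
      have h1 : |xi L s * (sg u (snoc y s) * sg u (snoc y s) * sg u (snoc y s))| ≤ 1 :=
        abs_mul_le1 (abs_le.2 ⟨by linarith [xi_nonneg L s], xi_le_one L s⟩)
          (abs_mul_le1 (abs_mul_le1 (abs_pdv_dd_le hu _ _) (abs_pdv_dd_le hu _ _))
            (abs_pdv_dd_le hu _ _))
      have h2 : 0 ≤ sg u (snoc y s) * psi u (snoc y s) ^ 2 := by positivity
      have h3 := abs_w p y hs
      calc _ = |xi L s * (sg u (snoc y s) * sg u (snoc y s) * sg u (snoc y s))| *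
            |s - ⟪p, y⟫| * (sg u (snoc y s) * psi u (snoc y s) ^ 2) := by
            rw [← abs_of_nonneg h2, ← abs_mul, ← abs_mul, snoc_last, init_snoc]; congr 1; ring
        _ ≤ _ := mul_le_mul_of_nonneg_right
            ((mul_le_of_le_one_left (abs_nonneg _) h1).trans h3) h2

theorem abs_pdv_FF (hu : Sol u) (hm : MonoLast u) (hL : 0 < L) (hμ : 0 < μ) (i : Fin (k + 1))
    (l : Fin k) (y : EE k) : |pdv l (FF u L i) y| ≤ 3 * A1 u L μ y + A2 u L y := by
  have hs := c1 (sg_sm hu)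
  have hi := c1 (hu.pdv_dd_sm i)
  have hx := c1 (xi_sm (k := k) L)
  have hg : ContDiff ℝ 1 fun x : EE (k + 1) =>
      xi L (x (Fin.last k)) * (sg u x ^ 2 * pdv i (dd u) x) := hx.mul ((hs.pow 2).mul hi)
  have e : FF u L i = col fun x => (xi L (x (Fin.last k)) * (sg u x ^ 2 * pdv i (dd u) x)) *
      (sg u x * psi u x ^ 2) := by
    unfold FF; congr 1; funext x; ring
  rw [e, pdv_colw hu hg (VC.xi hL _), ← one_mul (3 * A1 u L μ y + A2 u L y)]
  refine abs_col_A hu hL y fun s => ?_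
  have hxd : DifferentiableAt ℝ (xi L) ((snoc y s) (Fin.last k)) :=
    (contDiff_xi L (m := 1)).differentiable (by norm_num) _
  generalize hx0 : snoc y s = x at *
  have hsx : x (Fin.last k) = s := by rw [← hx0, snoc_last]
  rw [pdv_mul (df hx x) (df ((hs.pow 2).mul hi) x), pdv_mul (df hx x) (df ((hs.pow 2).mul hi) x),
    pdv_mul (df (hs.pow 2) x) (df hi x), pdv_mul (df (hs.pow 2) x) (df hi x), pdv_sq (df hs x),
    pdv_sq (df hs x), pdv_vert_cs hxd, pdv_vert_last hxd, hsx]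
  have a0 : |sg u x| ≤ 1 := abs_pdv_dd_le hu _ x
  have a1 := abs_pdv_dd_le hu i x
  have a2 := abs_pdv_dd_le hu l.castSucc x
  have b1 := abs_le.1 (amgm (σ := sg u x) (abs_mul_le1 a0 a1)
    (hs_sq_le (dd u) l.castSucc (Fin.last k) x) hμ)
  have b2 := abs_le.1 (amgm (σ := sg u x) (abs_mul_le1 a0 a0) (hs_sq_le (dd u) l.castSucc i x) hμ)
  have b3 := abs_le.1 (amgm (σ := sg u x) (abs_mul_le1 a1 a2)
    (hs_sq_le (dd u) (Fin.last k) (Fin.last k) x) hμ)
  have b4 := abs_le.1 (amgm (σ := sg u x) (abs_mul_le1 a0 a2)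
    (hs_sq_le (dd u) (Fin.last k) i x) hμ)
  have := fin_bd (ξ := xi L s) (ξ' := deriv (xi L) s) (w := 1) (W := 1) (P := psi u x ^ 2)
    (a := μ + sg u x ^ 2 * hsq (dd u) x / μ)
    (E := 2 * (sg u x * pdv i (dd u) x * sg u x * pdv l.castSucc (pdv (Fin.last k) (dd u)) x)
      + sg u x * sg u x * sg u x * pdv l.castSucc (pdv i (dd u)) x
      - 2 * (pdv i (dd u) x * pdv l.castSucc (dd u) x * sg u x *
          pdv (Fin.last k) (pdv (Fin.last k) (dd u)) x)
      - sg u x * pdv l.castSucc (dd u) x * sg u x * pdv (Fin.last k) (pdv i (dd u)) x)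
    (xi_nonneg L s) (sg_pos hu hm x).le (sq_nonneg _)
    (abs_le.2 ⟨by linarith [b1.1, b2.1, b3.2, b4.2], by linarith [b1.2, b2.2, b3.1, b4.1]⟩)
    (abs_mul_le1 a0 (abs_mul_le1 a1 a2)) (by simp)
  refine le_of_eq_of_le ?_ this
  congr 1
  have e1 : ∀ j, pdv j (sg u) x = pdv j (pdv (Fin.last k) (dd u)) x := fun _ => rfl
  rw [e1, e1]; ring

theorem abs_pdv_YY (hu : Sol u) (hm : MonoLast u) (hL : 0 < L) (hμ : 0 < μ) (p : EE k)
    (l : Fin k) (y : EE k) :
    |pdv l (YY u L p) y + FF u L l.castSucc y + p l * FF u L (Fin.last k) y| ≤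
      (2 * L + ‖p‖ * ‖y‖) * (3 * A1 u L μ y + A2 u L y) := by
  have hs := c1 (sg_sm hu)
  have hw := c1 (w_sm p)
  have hx := c1 (xi_sm (k := k) L)
  have hg : ContDiff ℝ 1 fun x : EE (k + 1) =>
      xi L (x (Fin.last k)) * (sg u x ^ 3 * (x (Fin.last k) - ⟪p, init x⟫)) :=
    hx.mul ((hs.pow 3).mul hw)
  have hv : VC (2 * L) fun x : EE (k + 1) =>
      xi L (x (Fin.last k)) * (sg u x ^ 3 * (x (Fin.last k) - ⟪p, init x⟫)) := VC.xi hL _
  have e : YY u L p = col fun x => (xi L (x (Fin.last k)) *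
      (sg u x ^ 3 * (x (Fin.last k) - ⟪p, init x⟫))) * (sg u x * psi u x ^ 2) := by
    unfold YY; congr 1; funext x; ring
  rw [e, pdv_colw hu hg hv]
  generalize hG : (fun x : EE (k + 1) =>
      xi L (x (Fin.last k)) * (sg u x ^ 3 * (x (Fin.last k) - ⟪p, init x⟫))) = G at *
  have i0 : Integrable fun s => (sg u (snoc y s) * pdv l.castSucc G (snoc y s) -
      pdv l.castSucc (dd u) (snoc y s) * pdv (Fin.last k) G (snoc y s)) * psi u (snoc y s) ^ 2 :=
    integrable_col (b := 2 * L + 1) (f := fun x => (sg u x * pdv l.castSucc G x -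
        pdv l.castSucc (dd u) x * pdv (Fin.last k) G x) * psi u x ^ 2)
      (((hs.continuous.mul (St.continuous_pdv hg _)).sub
        ((hu.pdv_dd_sm _).continuous.mul (St.continuous_pdv hg _))).mul
          (hu.psi_sm.continuous.pow 2))
      (fun x h => by simp only [hv.pdv _ x h, mul_zero, sub_zero, zero_mul]) y
  have i1 := integrable_col (FF_sm hu L l.castSucc).continuous (VC.xi hL _) y
  have i2 := integrable_col (FF_sm hu L (Fin.last k)).continuous (VC.xi hL _) y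
  have e2 : col (fun x => (sg u x * pdv l.castSucc G x -
        pdv l.castSucc (dd u) x * pdv (Fin.last k) G x) * psi u x ^ 2) y
      + FF u L l.castSucc y + p l * FF u L (Fin.last k) y = col (fun x =>
        (sg u x * pdv l.castSucc G x - pdv l.castSucc (dd u) x * pdv (Fin.last k) G x) * psi u x ^ 2
        + xi L (x (Fin.last k)) * (sg u x ^ 3 * pdv l.castSucc (dd u) x * psi u x ^ 2)
        + p l * (xi L (x (Fin.last k)) * (sg u x ^ 3 * pdv (Fin.last k) (dd u) x * psi u x ^ 2)))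
        y := by
    unfold FF col
    rw [← integral_const_mul, ← integral_add i0 i1]
    exact (integral_add (i0.add i1) (i2.const_mul _)).symm
  rw [e2]
  refine abs_col_A hu hL y fun s => ?_
  have hxd : DifferentiableAt ℝ (xi L) ((snoc y s) (Fin.last k)) :=
    (contDiff_xi L (m := 1)).differentiable (by norm_num) _
  generalize hx0 : snoc y s = x at *
  have hsx : x (Fin.last k) = s := by rw [← hx0, snoc_last]
  have hix : init x = y := by rw [← hx0, init_snoc]
  have hpi : DifferentiableAt ℝ (fun z : EE k => ⟪p, z⟫) (init x) :=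
    (differentiableAt_const p).inner ℝ differentiableAt_id
  have hpi' : DifferentiableAt ℝ (fun z : EE (k + 1) => ⟪p, init z⟫) x :=
    df (contDiff_const.inner ℝ contDiff_init) x
  have w1 : pdv l.castSucc (fun x : EE (k + 1) => x (Fin.last k) - ⟪p, init x⟫) x = -p l := by
    rw [pdv_sub (df contDiff_last x) hpi', pdv_init_cs hpi, pdv_inner, pdv_coord,
      if_neg (Fin.castSucc_lt_last l).ne']
    ring
  have w2 : pdv (Fin.last k) (fun x : EE (k + 1) => x (Fin.last k) - ⟪p, init x⟫) x = 1 := by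
    rw [pdv_sub (df contDiff_last x) hpi', pdv_init_last hpi, pdv_coord, if_pos rfl]
    ring
  rw [← hG, pdv_mul (df hx x) (df ((hs.pow 3).mul hw) x),
    pdv_mul (df hx x) (df ((hs.pow 3).mul hw) x),
    pdv_mul (df (hs.pow 3) x) (df hw x), pdv_mul (df (hs.pow 3) x) (df hw x), pdv_pow (df hs x),
    pdv_pow (df hs x), pdv_vert_cs hxd, pdv_vert_last hxd, w1, w2, hsx, hix]
  by_cases hs2 : 2 * L ≤ |s|
  · rw [xi_eq_zero hL hs2, dxi_zero hL hs2]; simp
  have a0 : |sg u x| ≤ 1 := abs_pdv_dd_le hu _ x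
  have a2 := abs_pdv_dd_le hu l.castSucc x
  have b1 := abs_le.1 (amgm (σ := sg u x) (abs_mul_le1 a0 a0)
    (hs_sq_le (dd u) l.castSucc (Fin.last k) x) hμ)
  have b3 := abs_le.1 (amgm (σ := sg u x) (abs_mul_le1 a0 a2)
    (hs_sq_le (dd u) (Fin.last k) (Fin.last k) x) hμ)
  have := fin_bd (ξ := xi L s) (ξ' := deriv (xi L) s) (w := s - ⟪p, y⟫) (P := psi u x ^ 2)
    (a := μ + sg u x ^ 2 * hsq (dd u) x / μ)
    (E := 3 * (sg u x * sg u x * sg u x * pdv l.castSucc (pdv (Fin.last k) (dd u)) x)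
      - 3 * (sg u x * pdv l.castSucc (dd u) x * sg u x *
          pdv (Fin.last k) (pdv (Fin.last k) (dd u)) x))
    (xi_nonneg L s) (sg_pos hu hm x).le (sq_nonneg _)
    (abs_le.2 ⟨by linarith [b1.1, b3.2], by linarith [b1.2, b3.1]⟩)
    (abs_mul_le1 (abs_mul_le1 a0 a0) a2) (abs_w p y (not_le.1 hs2).le)
  refine le_of_eq_of_le ?_ this
  congr 1
  have e1 : ∀ j, pdv j (sg u) x = pdv j (pdv (Fin.last k) (dd u)) x := fun _ => rfl
  have e3 : pdv (Fin.last k) (dd u) x = sg u x := rfl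
  rw [e1, e1, e3]; push_cast; ring

theorem A2_sum : ∃ M : ℝ, 0 ≤ M ∧ ∀ (k : ℕ) (u : EE (k + 1) → ℝ) (r : ℝ) (J : ℕ) (y : EE k),
    Sol u → MonoLast u → 0 < r →
      ∑ j ∈ Finset.range J, 2 ^ j * r * A2 u (2 ^ j * r) y ≤ M := by
  obtain ⟨M, hM, -, h⟩ := exists_cutM
  refine ⟨2 * M, by positivity, fun k u r J y hu hm hr => ?_⟩
  have hS : ∀ (s : ℝ) (J : ℕ),
      ∑ j ∈ Finset.range J, 2 ^ j * r * |deriv (xi (2 ^ j * r)) s| ≤ M ∧
      (2 ^ J * r ≤ |s| → ∑ j ∈ Finset.range J, 2 ^ j * r * |deriv (xi (2 ^ j * r)) s| = 0) := by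
    intro s J
    induction J with
    | zero => simpa using hM
    | succ J ih =>
      have hL : (0 : ℝ) < 2 ^ J * r := by positivity
      obtain ⟨h1, h2, -⟩ := h (2 ^ J * r) s hL
      rw [Finset.sum_range_succ]
      constructor
      · rcases le_total (2 ^ J * r) |s| with h3 | h3
        · rw [ih.2 h3, zero_add, ← le_div_iff₀' hL]; exact h1
        · rw [h2 (Or.inl h3)]; simpa using ih.1
      · intro h3
        rw [pow_succ] at h3
        rw [ih.2 (by linarith), h2 (Or.inr (by linarith))]; simp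
  have e : ∑ j ∈ Finset.range J, 2 ^ j * r * A2 u (2 ^ j * r) y = col (fun x =>
      (∑ j ∈ Finset.range J, 2 ^ j * r * |deriv (xi (2 ^ j * r)) (x (Fin.last k))|) *
        (sg u x * psi u x ^ 2)) y := by
    unfold A2 col
    simp only [Finset.sum_mul, mul_assoc]
    rw [integral_finsetSum _ fun j _ => ((integrable_col (A2_c hu (2 ^ j * r))
      (VC.dxi (by positivity) _) y).const_mul r).const_mul _]
    simp only [integral_const_mul]
  rw [e]
  refine (le_abs_self _).trans (abs_col_le hu (b := 2 ^ J * r) (by positivity)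
    (fun x hx => by rw [(hS _ J).2 hx, zero_mul]) hM y fun s _ => ?_)
  have h0 := sg_pos hu hm (snoc y s)
  have h2 : 0 ≤ sg u (snoc y s) * psi u (snoc y s) ^ 2 := by positivity
  rw [abs_of_nonneg (mul_nonneg (Finset.sum_nonneg fun j _ => by positivity) h2)]
  exact mul_le_mul_of_nonneg_right (hS _ J).1 h2

namespace B1

theorem int_colx (hL : 0 < L) {f : EE (k + 1) → ℝ} (hf : Continuous f) (hb : VC (2 * L) f)
    (ρ : ℝ) : ∫ y in ball (0 : EE k) ρ, col f y = ∫ x in cyl k ρ (2 * L), f x := by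
  rw [setint_cyl hf ρ (by linarith)]
  simp only [col_eq (by linarith : 0 ≤ 2 * L) hb]

theorem intB {f : EE n → ℝ} (hf : Continuous f) (R : ℝ) : IntegrableOn f (ball 0 R) :=
  (hf.continuousOn.integrableOn_compact (isCompact_closedBall 0 R)).mono_set ball_subset_closedBall

end B1

/-- Fubini (`col_eq`, `setint_cyl`, `cyl_subset`, `psi_sq_le`) -/
theorem int_A1 (hu : Sol u) (hL : 0 < L) (hμ : 0 < μ) {ρ R : ℝ} (hR : ρ + 2 * L ≤ R) :
    ∫ y in ball (0 : EE k) ρ, A1 u L μ y ≤ 4 * μ * (∫ x in ball (0 : EE (k + 1)) R, en u x) +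
      (∫ x in ball (0 : EE (k + 1)) R, sg u x ^ 2 * hsq (dd u) x * psi u x ^ 2) / μ := by
  have c2 : Continuous fun x => sg u x ^ 2 * hsq (dd u) x * psi u x ^ 2 :=
    (((sg_sm hu).continuous.pow 2).mul hu.hsq_sm.continuous).mul (hu.psi_sm.continuous.pow 2)
  unfold A1
  rw [int_colx hL (A1_c hu L μ) (VC.xi hL _), ← integral_const_mul, ← integral_div,
    ← integral_add ((intB (cont_en hu) R).const_mul _) ((intB c2 R).div_const μ)]
  refine (setIntegral_mono_set (intB (A1_c hu L μ) R) (Eventually.of_forall fun x => ?_)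
    ((cyl_subset ρ (2 * L)).trans (ball_subset_ball hR)).eventuallyLE).trans
    (setIntegral_mono (intB (A1_c hu L μ) R)
      (((intB (cont_en hu) R).const_mul _).add ((intB c2 R).div_const μ)) fun x => ?_)
  · have := hsq_nonneg (dd u) x
    exact mul_nonneg (xi_nonneg _ _) (by positivity)
  · have h1 := hsq_nonneg (dd u) x
    have h2 := mul_le_mul_of_nonneg_left (psi_sq_le u x) hμ.le
    have h3 : xi L (x (Fin.last k)) * ((μ + sg u x ^ 2 * hsq (dd u) x / μ) * psi u x ^ 2) ≤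
        (μ + sg u x ^ 2 * hsq (dd u) x / μ) * psi u x ^ 2 :=
      mul_le_of_le_one_left (by positivity) (xi_le_one _ _)
    have h4 : (μ + sg u x ^ 2 * hsq (dd u) x / μ) * psi u x ^ 2 =
        μ * psi u x ^ 2 + sg u x ^ 2 * hsq (dd u) x * psi u x ^ 2 / μ := by ring
    show _ ≤ 4 * μ * en u x + _
    linarith

/-- `σ⁴ ≥ τ³ σ - τ⁴`, `ball 0 r ⊆ cyl r (2L)` and `ξ = 1` there -/
theorem int_FF_last (hu : Sol u) (hm : MonoLast u) {r τ : ℝ} (hr : 0 < r) (hL : r ≤ L) (hτ : 0 ≤ τ) :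
    2 * τ ^ 3 * (∫ x in ball (0 : EE (k + 1)) r, hh (u x) * pdv (Fin.last k) u x)
      - 4 * τ ^ 4 * (∫ x in ball (0 : EE (k + 1)) r, en u x)
      ≤ ∫ y in ball (0 : EE k) r, FF u L (Fin.last k) y := by
  have hL0 : 0 < L := by linarith
  have c2 : Continuous fun x => hh (u x) * pdv (Fin.last k) u x :=
    ((contDiff_hh (m := 0)).continuous.comp hu.sm.continuous).mul
      (St.continuous_pdv (hu.cd 1) _)
  have cF := (FF_sm hu L (Fin.last k)).continuous
  unfold FF
  rw [int_colx hL0 cF (VC.xi hL0 _), ← integral_const_mul, ← integral_const_mul,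
    ← integral_sub ((intB c2 r).const_mul _) ((intB (cont_en hu) r).const_mul _)]
  refine (setIntegral_mono_on (((intB c2 r).const_mul _).sub ((intB (cont_en hu) r).const_mul _))
    (intB cF r) measurableSet_ball fun x hx => ?_).trans
    (setIntegral_mono_set (integrableOn_cyl cF r _) (Eventually.of_forall fun x => ?_)
      (LE.le.eventuallyLE fun x hx => ?_))
  · rw [mem_ball_zero_iff] at hx
    have h0 := sg_pos hu hm x
    simp only [Pi.sub_apply]
    rw [xi_eq_one hL0 (by linarith [abs_last_le x]), hh_mul_pdv hu]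
    have e3 : pdv (Fin.last k) (dd u) x = sg u x := rfl
    rw [e3]
    have h1 : τ ^ 3 * sg u x - τ ^ 4 ≤ sg u x ^ 3 * sg u x := by
      rcases le_total τ (sg u x) with h | h
      · have : τ ^ 3 * sg u x ≤ sg u x ^ 3 * sg u x := by gcongr
        have : 0 ≤ τ ^ 4 := by positivity
        linarith
      · have : τ ^ 3 * sg u x ≤ τ ^ 3 * τ := by gcongr
        have : 0 ≤ sg u x ^ 3 * sg u x := by positivity
        nlinarith
    have h2 := mul_le_mul_of_nonneg_right h1 (sq_nonneg (psi u x))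
    have h3 := mul_le_mul_of_nonneg_left (psi_sq_le u x) (by positivity : 0 ≤ τ ^ 4)
    linarith
  · have h0 : 0 < pdv (Fin.last k) (dd u) x := sg_pos hu hm x
    have h1 := sg_pos hu hm x
    exact mul_nonneg (xi_nonneg _ _) (by positivity)
  · rw [mem_ball_zero_iff] at hx
    exact ⟨(norm_init_le x).trans_lt hx, by linarith [abs_last_le x]⟩

end

end Crest.Agent.N067.E
end

-- ▼ part N067/E/Step1
section

/-! # E/Step1 (helper69): the column functional `W = col (ξ G0 v)` is almost harmonic -/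

set_option autoImplicit false

open MeasureTheory Laplacian InnerProductSpace Topology Filter Set Metric
open scoped RealInnerProductSpace ContDiff Gradient

namespace Crest.Agent.N067.E

open Crest.Agent.R077

noncomputable section

variable {n k : ℕ}

/-- the height functional -/
def WW (v : EE (k + 1) → ℝ) (L : ℝ) : EE k → ℝ :=
  col fun x => xi L (x (Fin.last k)) * G0 (v x)

theorem Sol_c1 {v : EE n → ℝ} (h : Sol v) : ContDiff ℝ 1 v := h.isSol.c2.of_le (by norm_num)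

theorem Sol_cont {v : EE n → ℝ} (h : Sol v) : Continuous v := h.isSol.c2.continuous

theorem Sol_diff {v : EE n → ℝ} (h : Sol v) (x : EE n) : DifferentiableAt ℝ v x :=
  (Sol_c1 h).differentiable (by norm_num) x

theorem Sol_cont_pdv {v : EE n → ℝ} (h : Sol v) (i : Fin n) : Continuous (pdv i v) :=
  (contDiff_pdv (m := 0) (Sol_c1 h) (by norm_num) i).continuous

theorem c1_xi (L : ℝ) : ContDiff ℝ 1 (xi L) := contDiff_xi L (m := 1)

theorem c1_xil (L : ℝ) : ContDiff ℝ 1 fun x : EE (k + 1) => xi L (x (Fin.last k)) :=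
  (c1_xi L).comp contDiff_last

theorem cont_last : Continuous fun x : EE (k + 1) => x (Fin.last k) :=
  (contDiff_last (m := 0)).continuous

theorem cont_init : Continuous (init : EE (k + 1) → EE k) := (contDiff_init (m := 0)).continuous

theorem cont_dxi (L : ℝ) : Continuous (deriv (xi L)) := (c1_xi L).continuous_deriv le_rfl

theorem cont_snoc (y : EE k) : Continuous fun s : ℝ => snoc y s :=
  (contDiff_snoc (m := 0)).continuous.comp (continuous_const.prodMk continuous_id)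

theorem cont_gradient {f : EE n → ℝ} (hf : ContDiff ℝ 1 f) : Continuous fun x => ‖∇ f x‖ := by
  simp only [norm_grad]
  exact (hf.continuous_fderiv (by norm_num)).norm

theorem cs_gradient {f : EE n → ℝ} (hf : HasCompactSupport f) :
    HasCompactSupport fun x => ‖∇ f x‖ := by
  simp only [norm_grad]
  exact (hf.fderiv (𝕜 := ℝ)).norm

theorem c1_WW {v : EE (k + 1) → ℝ} (hv : Sol v) {L : ℝ} (hL : 0 < L) : ContDiff ℝ 1 (WW v L) :=
  contDiff_col ((c1_xil L).mul (contDiff_G0.comp (Sol_c1 hv))) (VC.xi hL _)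

theorem pdv_WW {v : EE (k + 1) → ℝ} (hv : Sol v) {L : ℝ} (hL : 0 < L) (l : Fin k) (y : EE k) :
    pdv l (WW v L) y =
      col (fun x => xi L (x (Fin.last k)) * (hh (v x) * pdv l.castSucc v x)) y := by
  unfold WW
  have h0 : ContDiff ℝ 1 fun x => xi L (x (Fin.last k)) * G0 (v x) :=
    (c1_xil L).mul (contDiff_G0.comp (Sol_c1 hv))
  rw [pdv_col h0 (VC.xi hL _)]
  congr 1
  funext x
  have h1 : DifferentiableAt ℝ (xi L) (x (Fin.last k)) :=
    (c1_xi L).differentiable (by norm_num) _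
  have h2 : DifferentiableAt ℝ (fun x => G0 (v x)) x :=
    (hasDerivAt_G0 _).differentiableAt.comp x (Sol_diff hv x)
  rw [pdv_mul ((c1_xil L).differentiable (by norm_num) x) h2, pdv_vert_cs h1,
    pdv_comp (hasDerivAt_G0 _) (Sol_diff hv x)]
  ring

theorem amgm {a b g lam B T : ℝ} (hl : 0 < lam) (hg : 0 ≤ g) (ha : a ^ 2 ≤ 2 * B)
    (hT0 : 0 ≤ T) (hb : b ^ 2 ≤ T * g ^ 2) : |a * b| ≤ g * (lam * B + T / lam) := by
  have hB : 0 ≤ B := by nlinarith [sq_nonneg a]
  refine abs_le_of_sq_le_sq' ?_ (by positivity) |> abs_le.2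
  have h1 : (a * b) ^ 2 ≤ 2 * B * (T * g ^ 2) := by
    rw [mul_pow]; exact mul_le_mul ha hb (sq_nonneg _) (by positivity)
  have h2 : lam * B * (T / lam) = B * T := by field_simp
  have h3 : 2 * B * T ≤ (lam * B + T / lam) ^ 2 := by
    nlinarith [sq_nonneg (lam * B), sq_nonneg (T / lam)]
  calc (a * b) ^ 2 ≤ g ^ 2 * (2 * B * T) := by linarith
    _ ≤ g ^ 2 * (lam * B + T / lam) ^ 2 := by gcongr
    _ = _ := by ring

/-- the weak inequality of `W` -/
theorem weakW {v : EE (k + 1) → ℝ} (hv : Sol v) {L lam : ℝ} (hL : 0 < L) (hl : 0 < lam)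
    {ζ : EE k → ℝ} (hζ : ContDiff ℝ 1 ζ) (hc : HasCompactSupport ζ) :
    |∫ y, gin (WW v L) ζ y| ≤
      (∫ y, ‖∇ ζ y‖ * col (fun x => xi L (x (Fin.last k)) *
        (lam * bt v (Fin.last k) x + Tn v (Fin.last k) x / lam)) y)
      + ∫ y, |ζ y| * col (fun x => |deriv (xi L) (x (Fin.last k))| * Tn v (Fin.last k) x) y := by
  have cv := Sol_cont hv
  have cp := Sol_cont_pdv hv
  have cx : Continuous fun x : EE (k + 1) => xi L (x (Fin.last k)) := (c1_xil L).continuous
  have cdx : Continuous fun x : EE (k + 1) => deriv (xi L) (x (Fin.last k)) :=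
    (cont_dxi L).comp cont_last
  have ch : Continuous fun x => hh (v x) := (contDiff_hh (m := 0)).continuous.comp cv
  have cz : ∀ l, Continuous (pdv l ζ) := fun l =>
    (contDiff_pdv (m := 0) hζ (by norm_num) l).continuous
  have sz : ∀ l, HasCompactSupport (pdv l ζ) := fun l => hasCompactSupport_pdv hc l
  have cT := cont_Tn hv (Fin.last k)
  have cb := cont_bt hv (Fin.last k)
  set P : Fin k → EE (k + 1) → ℝ := fun l x =>
    xi L (x (Fin.last k)) * (hh (v x) * pdv l.castSucc v x) with hP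
  have cP : ∀ l, Continuous (P l) := fun l => cx.mul (ch.mul (cp _))
  have vP : ∀ l, VC (2 * L) (P l) := fun l => VC.xi hL _
  have iP : ∀ l, Integrable fun x => pdv l ζ (init x) * P l x := fun l =>
    (((cz l).comp cont_init).mul (cP l)).integrable_of_hasCompactSupport (cs_prod (sz l) (vP l))
  have e1 : ∫ y, gin (WW v L) ζ y = ∫ x, ∑ l, pdv l ζ (init x) * P l x := by
    rw [integral_finsetSum _ fun l _ => iP l]
    have e0 : ∀ y, gin (WW v L) ζ y = ∑ l, col (P l) y * pdv l ζ y := fun y => by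
      simp only [gin, pdv_WW hv hL, hP]
    simp only [e0]
    rw [integral_finsetSum (f := fun l y => col (P l) y * pdv l ζ y) _ fun l _ =>
      ((cont_col (cP l) (vP l)).mul (cz l)).integrable_of_hasCompactSupport (sz l).mul_left]
    refine Finset.sum_congr rfl fun l _ => ?_
    rw [int_col (cz l) (sz l) (cP l) (vP l)]
    congr 1; funext y; ring
  -- first variation
  have hφ : ContDiff ℝ 1 fun x : EE (k + 1) => ζ (init x) * xi L (x (Fin.last k)) :=
    (hζ.comp contDiff_init).mul (c1_xil L)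
  have vx : VC (2 * L) fun x : EE (k + 1) => xi L (x (Fin.last k)) := fun x hx => xi_eq_zero hL hx
  have e2 := fv hv.isSol hφ (cs_prod hc vx) (Fin.last k)
  set Q : EE (k + 1) → ℝ := fun x => ζ (init x) * (deriv (xi L) (x (Fin.last k)) *
    Tn v (Fin.last k) x) - ∑ l : Fin k, pdv l ζ (init x) * (xi L (x (Fin.last k)) *
      (pdv (Fin.last k) v x * pdv l.castSucc v x)) with hQ
  have e3 : ∫ x, Q x = 0 := by
    rw [← e2]
    congr 1; funext x
    have d1 : DifferentiableAt ℝ ζ (init x) := hζ.differentiable (by norm_num) _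
    have d2 : DifferentiableAt ℝ (xi L) (x (Fin.last k)) :=
      (c1_xi L).differentiable (by norm_num) _
    have d3 : DifferentiableAt ℝ (fun x : EE (k + 1) => ζ (init x)) x :=
      (hζ.comp contDiff_init).differentiable (by norm_num) x
    have d4 : DifferentiableAt ℝ (fun x : EE (k + 1) => xi L (x (Fin.last k))) x :=
      (c1_xil L).differentiable (by norm_num) x
    simp only [hQ, gin_split, pdv_mul d3 d4, pdv_init_cs d1, pdv_init_last d1, pdv_vert_cs d2,
      pdv_vert_last d2, Tn, mul_add, Finset.mul_sum]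
    have : ∀ l : Fin k, pdv l ζ (init x) * (xi L (x (Fin.last k)) *
        (pdv (Fin.last k) v x * pdv l.castSucc v x)) =
        pdv (Fin.last k) v x * (pdv l.castSucc v x * (pdv l ζ (init x) * xi L (x (Fin.last k))))
          + pdv (Fin.last k) v x * (pdv l.castSucc v x * (ζ (init x) * 0)) := fun l => by ring
    simp only [this]
    ring
  have vd : VC (2 * L) fun x : EE (k + 1) => deriv (xi L) (x (Fin.last k)) * Tn v (Fin.last k) x := by
    intro x hx
    have := VC.dxi hL (fun _ => (1 : ℝ)) x hx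
    simp only [mul_one, abs_eq_zero] at this
    simp only [this, zero_mul]
  have iQ : Integrable Q := by
    refine Integrable.sub ?_ (integrable_finsetSum _ fun l _ => ?_)
    · exact ((hζ.continuous.comp cont_init).mul (cdx.mul cT)).integrable_of_hasCompactSupport
        (cs_prod hc vd)
    · exact (((cz l).comp cont_init).mul (cx.mul ((cp _).mul (cp _)))).integrable_of_hasCompactSupport
        (cs_prod (sz l) (VC.xi hL _))
  have cF : Continuous fun x => xi L (x (Fin.last k)) *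
      (lam * bt v (Fin.last k) x + Tn v (Fin.last k) x / lam) :=
    cx.mul ((continuous_const.mul cb).add (cT.div_const _))
  have cG : Continuous fun x => |deriv (xi L) (x (Fin.last k))| * Tn v (Fin.last k) x :=
    cdx.abs.mul cT
  have sa : HasCompactSupport fun y => |ζ y| := hc.abs
  rw [← int_col (cont_gradient hζ) (cs_gradient hc) cF (VC.xi hL _),
    ← int_col hζ.continuous.abs sa cG (VC.dxi hL _), e1]
  have i1 := (((cont_gradient hζ).comp cont_init).mul cF).integrable_of_hasCompactSupport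
    (μ := volume) (cs_prod (cs_gradient hc) (VC.xi hL _))
  have i2 := ((hζ.continuous.abs.comp cont_init).mul cG).integrable_of_hasCompactSupport
    (μ := volume) (cs_prod sa (VC.dxi hL _))
  have i0 : Integrable fun x => ∑ l, pdv l ζ (init x) * P l x :=
    integrable_finsetSum _ fun l _ => iP l
  rw [← add_zero (∫ x, ∑ l, pdv l ζ (init x) * P l x), ← e3, ← integral_add i0 iQ]
  refine (abs_integral_le_integral_abs).trans ?_
  refine (integral_mono (i0.add iQ).abs (i1.add i2) fun x => ?_).trans (integral_add i1 i2).le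
  have h1 : ∑ l, pdv l ζ (init x) * P l x + Q x = xi L (x (Fin.last k)) *
      ((hh (v x) - pdv (Fin.last k) v x) * ∑ l : Fin k, pdv l.castSucc v x * pdv l ζ (init x))
      + ζ (init x) * (deriv (xi L) (x (Fin.last k)) * Tn v (Fin.last k) x) := by
    simp only [hP, hQ, Finset.mul_sum]
    rw [add_sub_left_comm, ← Finset.sum_sub_distrib, add_comm]
    congr 1
    exact Finset.sum_congr rfl fun l _ => by ring
  have h2 : (∑ l : Fin k, pdv l.castSucc v x * pdv l ζ (init x)) ^ 2 ≤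
      Tn v (Fin.last k) x * ‖∇ ζ (init x)‖ ^ 2 := by
    rw [← gsq_eq]
    exact (Finset.sum_mul_sq_le_sq_mul_sq _ _ _).trans
      (mul_le_mul_of_nonneg_right (gh_le_Tn hv x) (gsq_nonneg _ _))
  have h3 := amgm hl (norm_nonneg _) (sq_le_bt v (Fin.last k) x) (Tn_nonneg hv _ x) h2
  have h4 := xi_nonneg L (x (Fin.last k))
  simp only [Pi.add_apply, Pi.mul_apply, Function.comp]
  rw [h1]
  refine (abs_add_le _ _).trans (add_le_add ?_ ?_)
  · rw [abs_mul, abs_of_nonneg h4]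
    calc _ ≤ xi L (x (Fin.last k)) * (‖∇ ζ (init x)‖ *
          (lam * bt v (Fin.last k) x + Tn v (Fin.last k) x / lam)) := by gcongr
      _ = _ := by ring
  · rw [abs_mul, abs_mul, abs_of_nonneg (Tn_nonneg hv _ x)]

theorem exists_om (k : ℕ) : ∃ om : ℝ, 0 < om ∧ ∀ (z : EE k) (ρ : ℝ), 0 < ρ →
    volume.real (ball z ρ) = om * ρ ^ k := by
  refine ⟨volume.real (ball (0 : EE k) 1), ?_, fun z ρ hρ => ?_⟩
  · exact ENNReal.toReal_pos (measure_ball_pos _ _ one_pos).ne' measure_ball_lt_top.ne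
  · rw [measureReal_def, Measure.addHaar_ball_of_pos _ _ hρ, ENNReal.toReal_mul,
      ENNReal.toReal_ofReal (by positivity), finrank_euclideanSpace_fin, measureReal_def, mul_comm]

theorem intOn_ball {f : EE n → ℝ} (hf : Continuous f) (z : EE n) (ρ : ℝ) :
    IntegrableOn f (ball z ρ) :=
  (hf.continuousOn.integrableOn_compact (isCompact_closedBall z ρ)).mono_set ball_subset_closedBall

theorem setint_mono_set {f : EE n → ℝ} {s t : Set (EE n)} (hi : IntegrableOn f t)
    (h0 : ∀ x, 0 ≤ f x) (hst : s ⊆ t) : ∫ x in s, f x ≤ ∫ x in t, f x :=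
  setIntegral_mono_set hi (Eventually.of_forall h0) hst.eventuallyLE

theorem col_nonneg {f : EE (k + 1) → ℝ} (h : ∀ x, 0 ≤ f x) (y : EE k) : 0 ≤ col f y :=
  integral_nonneg fun _ => h _

/-- `∫_{ball} col f = ∫_{cyl} f` -/
theorem int_ball_col {f : EE (k + 1) → ℝ} (hf : Continuous f) {b : ℝ} (hb0 : 0 ≤ b) (hb : VC b f)
    (ρ : ℝ) : ∫ y in ball (0 : EE k) ρ, col f y = ∫ x in cyl k ρ b, f x := by
  rw [setint_cyl hf ρ hb0]
  simp only [col_eq hb0 hb]

theorem colG (k : ℕ) : ∃ C : ℝ, 0 ≤ C ∧ ∀ (v : EE (k + 1) → ℝ) (r H : ℝ), Sol v → 1 ≤ H →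
    32 * H ≤ r → Flat v r (ev (Fin.last k)) H → ∀ y : EE k, ‖y‖ ≤ r / 2 →
    col (fun x => |deriv (xi (r / 16)) (x (Fin.last k))| * Tn v (Fin.last k) x) y ≤
      C * Real.exp (-(r / 16)) := by
  obtain ⟨C, hC, h⟩ := tail k
  obtain ⟨M, hM, -, hx⟩ := exists_cutM
  refine ⟨8 * M * C ^ 2, by positivity, fun v r H hv hH hr hF y hy => ?_⟩
  have hL : 0 < r / 16 := by linarith
  rw [col_eq (b := 2 * (r / 16)) (by linarith) (VC.dxi hL _)]
  have key : ∀ s : ℝ, ‖|deriv (xi (r / 16)) (snoc y s (Fin.last k))| *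
      Tn v (Fin.last k) (snoc y s)‖ ≤ M / (r / 16) * (2 * C ^ 2 * Real.exp (-(r / 16))) := by
    intro s
    obtain ⟨h1, h2, -⟩ := hx (r / 16) s hL
    rw [snoc_last, Real.norm_eq_abs, abs_mul, abs_abs, abs_of_nonneg (Tn_nonneg hv _ _)]
    by_cases hs : |s| ≤ r / 16 ∨ 2 * (r / 16) ≤ |s|
    · rw [h2 hs, abs_zero, zero_mul]; positivity
    push Not at hs
    refine mul_le_mul h1 ?_ (Tn_nonneg hv _ _) (by positivity)
    refine ((Tn_le _ _ _).trans (en_le hv _)).trans ?_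
    rw [hh_sq]
    obtain ⟨t1, t2⟩ := h v r H hv (by linarith) hF y s hy (by linarith)
    have hb := abs_lt.1 (hv.lt (snoc y s))
    have e2 : Real.exp (-(r / 16)) = Real.exp (-(r / 32)) ^ 2 := by
      rw [← Real.exp_nat_mul]; congr 1; push_cast; ring
    have main : ∀ a : ℝ, 0 ≤ a → a ≤ C * Real.exp (-(r / 32)) → a ≤ 2 →
        (a * (2 - a)) ^ 2 / 2 ≤ 2 * C ^ 2 * Real.exp (-(r / 16)) := by
      intro a a0 a1 a2
      have : (a * (2 - a)) ^ 2 ≤ (C * Real.exp (-(r / 32)) * 2) ^ 2 := by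
        gcongr
        linarith
      rw [e2]; nlinarith
    rcases le_or_gt 0 s with s0 | s0
    · rw [abs_of_nonneg s0] at hs
      have := main (1 - v (snoc y s)) (by linarith) ((t1 (by linarith)).trans (by
        gcongr; linarith)) (by linarith)
      calc _ = ((1 - v (snoc y s)) * (2 - (1 - v (snoc y s)))) ^ 2 / 2 := by ring
        _ ≤ _ := this
    · rw [abs_of_neg s0] at hs
      have := main (1 + v (snoc y s)) (by linarith) ((t2 (by linarith)).trans (by
        gcongr; linarith)) (by linarith)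
      calc _ = ((1 + v (snoc y s)) * (2 - (1 + v (snoc y s)))) ^ 2 / 2 := by ring
        _ ≤ _ := this
  have := intervalIntegral.norm_integral_le_of_norm_le_const (a := -(2 * (r / 16)))
    (b := 2 * (r / 16)) fun s _ => key s
  refine (le_abs_self _).trans (this.trans (le_of_eq ?_))
  rw [abs_of_nonneg (by linarith)]
  have : r ≠ 0 := ne_of_gt (by linarith)
  field_simp
  ring

/-- `lineA` on a column -/
theorem colA (k : ℕ) (M : ℝ) (hM : 0 ≤ M) : ∃ C : ℝ, 0 ≤ C ∧ ∀ (v : EE (k + 1) → ℝ) (r H : ℝ),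
    Sol v → 1 ≤ H → 32 * H ≤ r → Flat v r (ev (Fin.last k)) H → ∀ (y : EE k) (l : ℝ),
    ‖y‖ ≤ r / 2 → |l| ≤ M * H → |l| ≤ r / 16 → |WW v (r / 16) y| ≤ C * H ∧
    ∫ s in (-(r / 16))..(r / 16), |s - l| * en v (snoc y s) ≤ |s0 * l + WW v (r / 16) y| + C
      + C * H * ∫ s in (-(r / 16))..(r / 16), bt v (Fin.last k) (snoc y s) := by
  obtain ⟨C0, hC0, h0⟩ := tail k
  obtain ⟨C, hC, h⟩ := lineA C0 M hC0 hM
  refine ⟨C, hC, fun v r H hv hH hr hF y l hy l1 l2 => ?_⟩
  have ht := h0 v r H hv (by linarith) hF y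
  have := h (fun s => v (snoc y s)) (fun s => pdv (Fin.last k) v (snoc y s))
    (fun s => en v (snoc y s)) (r / 16) H l (fun s => hasDerivAt_snoc (Sol_diff hv _))
    ((Sol_cont_pdv hv _).comp (cont_snoc y)) ((cont_en hv).comp (cont_snoc y))
    (fun s => (hv.lt _).le) (fun s => psi_sq_le v _)
    (fun s => by have := en_le hv (snoc y s); rw [hh_sq] at this; linarith)
    (fun s => by have := bt_nonneg v (Fin.last k) (snoc y s); unfold bt at this; linarith)
    (fun s => by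
      have := bt_le hv (Fin.last k) (snoc y s); rw [hh_sq] at this; unfold bt at this; linarith)
    hH (by linarith) l1 l2
    (fun s s1 s2 => (ht s hy (by rw [abs_of_nonneg (by linarith)]; linarith)).1 s1)
    (fun s s1 s2 => (ht s hy (by rw [abs_of_nonpos (by linarith)]; linarith)).2 s1)
  simpa only [WW, col, snoc_last, bt] using this

theorem sq_exp_le {r : ℝ} (hr : 0 ≤ r) : r ^ 2 * Real.exp (-(r / 16)) ≤ 512 := by
  have h := Real.quadratic_le_exp_of_nonneg (x := r / 16) (by linarith)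
  rw [Real.exp_neg, ← div_eq_mul_inv, div_le_iff₀ (Real.exp_pos _)]
  nlinarith

/-- affine approximation of `W` -/
theorem approx (k : ℕ) : ∃ B : ℝ, 0 ≤ B ∧ ∀ (θ η : ℝ) (v : EE (k + 1) → ℝ) (r H : ℝ), 0 < θ →
    θ ≤ 1 → 0 < η → Sol v → SLp v → 1 ≤ H → 32 * H ≤ r → Flat v r (ev (Fin.last k)) H →
    ∃ (a : ℝ) (p : EE k), |a| ≤ B * H ∧ r * ‖p‖ ≤ B * H ∧
      ∫ y in ball (0 : EE k) (θ * (r / 8)), |WW v (r / 16) y - a - ⟪p, y⟫| ≤
        B * (θ ^ 2 * H * (θ * r) ^ k + H * (η + (H / r + Real.exp (-H)) / η) * r ^ k + r ^ k) := by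
  obtain ⟨C1, hC1, h1⟩ := colA k 0 le_rfl
  obtain ⟨C2, hC2, h2⟩ := ha k
  obtain ⟨C3, hC3, h3⟩ := colG k
  obtain ⟨C4, hC4, h4⟩ := cac k
  obtain ⟨C5, hC5, h5⟩ := tilt k
  refine ⟨C1 + 8 * C2 * C1 + C2 * C4 + C2 * C5 + 512 * C2 * C3, by positivity,
    fun θ η v r H hθ hθ1 hη hv hs hH hr hF => ?_⟩
  have r0 : 0 < r := by linarith
  have H0 : 0 < H := by linarith
  have hL : 0 < r / 16 := by linarith
  set lam := H / r / η with hlam
  have hl : 0 < lam := by positivity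
  set β := H / r + Real.exp (-H) with hβ
  have β0 : 0 ≤ β := by positivity
  set f : EE (k + 1) → ℝ := fun x => xi (r / 16) (x (Fin.last k)) *
    (lam * bt v (Fin.last k) x + Tn v (Fin.last k) x / lam) with hf
  have cT := cont_Tn hv (Fin.last k)
  have cb := cont_bt hv (Fin.last k)
  have cf0 : Continuous fun x => lam * bt v (Fin.last k) x + Tn v (Fin.last k) x / lam :=
    (continuous_const.mul cb).add (cT.div_const _)
  have cf : Continuous f := (c1_xil _).continuous.mul cf0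
  have vf : VC (2 * (r / 16)) f := VC.xi hL _
  have f00 : ∀ x, 0 ≤ lam * bt v (Fin.last k) x + Tn v (Fin.last k) x / lam := fun x =>
    add_nonneg (mul_nonneg hl.le (bt_nonneg _ _ _)) (div_nonneg (Tn_nonneg hv _ _) hl.le)
  have f0 : ∀ x, 0 ≤ f x := fun x => mul_nonneg (xi_nonneg _ _) (f00 x)
  obtain ⟨a, p, a1, a2, a3⟩ := h2 (WW v (r / 16)) (col f) (C3 * Real.exp (-(r / 16))) (r / 8)
    (C1 * H) θ (c1_WW hv hL) (cont_col cf vf) (col_nonneg f0) (by positivity) (by linarith) hθ hθ1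
    (fun y hy => (h1 v r H hv hH hr hF y 0 (by linarith) (by simp) (by simpa using hL.le)).1)
    (fun ζ hζ hc ht => by
      refine (weakW hv hL hl hζ hc).trans ?_
      have cG : Continuous fun x : EE (k + 1) =>
          |deriv (xi (r / 16)) (x (Fin.last k))| * Tn v (Fin.last k) x :=
        ((cont_dxi _).comp cont_last).abs.mul cT
      have sa : HasCompactSupport fun y => |ζ y| := hc.abs
      have i1 : Integrable fun y => col f y * ‖∇ ζ y‖ :=
        ((cont_col cf vf).mul (cont_gradient hζ)).integrable_of_hasCompactSupport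
          (cs_gradient hc).mul_left
      have i2 : Integrable fun y => C3 * Real.exp (-(r / 16)) * |ζ y| :=
        (hζ.continuous.abs.integrable_of_hasCompactSupport sa).const_mul _
      rw [integral_add i1 i2]
      refine add_le_add (le_of_eq ?_) (integral_mono ?_ i2 fun y => ?_)
      · congr 1; funext y; rw [mul_comm]
      · exact (hζ.continuous.abs.mul (cont_col cG (VC.dxi hL _))).integrable_of_hasCompactSupport
          sa.mul_right
      · by_cases hy : y ∈ tsupport ζ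
        · have := mem_ball_zero_iff.1 (ht hy)
          simp only
          rw [mul_comm]
          exact mul_le_mul_of_nonneg_right (h3 v r H hv hH hr hF y (by linarith)) (abs_nonneg _)
        · simp only [image_eq_zero_of_notMem_tsupport hy, abs_zero, zero_mul, mul_zero, le_refl])
  have e1 : ∫ y in ball (0 : EE k) (2 * (r / 8)), col f y ≤
      H / r * (C5 * (β / η) + C4 * η) * r ^ k := by
    rw [int_ball_col cf (by linarith) vf, show 2 * (r / 8) = r / 4 by ring,
      show 2 * (r / 16) = r / 8 by ring]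
    have i1 := integrableOn_cyl cb (r / 4) (r / 8)
    have i2 := integrableOn_cyl cT (r / 4) (r / 8)
    calc _ ≤ ∫ x in cyl k (r / 4) (r / 8),
          (lam * bt v (Fin.last k) x + Tn v (Fin.last k) x / lam) :=
          integral_mono (integrableOn_cyl cf _ _) (integrableOn_cyl cf0 _ _) fun x =>
            mul_le_of_le_one_left (f00 x) (xi_le_one _ _)
      _ = lam * (∫ x in cyl k (r / 4) (r / 8), bt v (Fin.last k) x)
          + (∫ x in cyl k (r / 4) (r / 8), Tn v (Fin.last k) x) / lam := by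
          rw [integral_add (i1.const_mul _) (i2.div_const _), integral_const_mul, integral_div]
      _ ≤ lam * (C5 * β * r ^ k) + C4 * (H / r) ^ 2 * r ^ k / lam := by
          gcongr
          · exact h5 v r H hv hs hH hr hF
          · exact h4 v r H hv hs hH hr hF
      _ = _ := by rw [hlam]; field_simp
  have hrk : 0 ≤ r ^ k := by positivity
  refine ⟨a, p, a1.trans ?_, ?_, a3.trans ?_⟩
  · have : 0 ≤ (8 * C2 * C1 + C2 * C4 + C2 * C5 + 512 * C2 * C3) * H := by positivity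
    linarith
  · have : 0 ≤ (C1 + C2 * C4 + C2 * C5 + 512 * C2 * C3) * H := by positivity
    linarith
  · have t1 : θ ^ 2 * (C1 * H) * (θ * (r / 8)) ^ k ≤ C1 * (θ ^ 2 * H * (θ * r) ^ k) := by
      calc _ ≤ θ ^ 2 * (C1 * H) * (θ * r) ^ k := by gcongr; linarith
        _ = _ := by ring
    have t2 : r / 8 * ∫ y in ball (0 : EE k) (2 * (r / 8)), col f y ≤
        (C4 + C5) * (H * (η + β / η) * r ^ k) := by
      calc _ ≤ r * (H / r * (C5 * (β / η) + C4 * η) * r ^ k) :=
            mul_le_mul (by linarith) e1 (integral_nonneg (col_nonneg f0)) r0.le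
        _ = H * (C5 * (β / η) + C4 * η) * r ^ k := by field_simp
        _ ≤ H * ((C4 + C5) * (η + β / η)) * r ^ k := by
            have : 0 ≤ C4 * (β / η) + C5 * η := by positivity
            gcongr; linarith
        _ = _ := by ring
    have t3 : (r / 8) ^ 2 * (C3 * Real.exp (-(r / 16))) * (r / 8) ^ k ≤ 512 * C3 * r ^ k := by
      calc _ ≤ r ^ 2 * (C3 * Real.exp (-(r / 16))) * r ^ k := by gcongr <;> linarith
        _ = C3 * (r ^ 2 * Real.exp (-(r / 16))) * r ^ k := by ring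
        _ ≤ C3 * 512 * r ^ k := by gcongr; exact sq_exp_le r0.le
        _ = _ := by ring
    set X := θ ^ 2 * H * (θ * r) ^ k
    set Y := H * (η + β / η) * r ^ k
    have X0 : 0 ≤ X := by positivity
    have Y0 : 0 ≤ Y := by positivity
    calc _ ≤ C2 * (C1 * X + (C4 + C5) * Y + 512 * C3 * r ^ k) := by gcongr
      _ ≤ _ := by
        have : 0 ≤ (C1 + 7 * C2 * C1 + C2 * C4 + C2 * C5 + 512 * C2 * C3) * X
          + (C1 + 8 * C2 * C1 + 512 * C2 * C3) * Y
          + (C1 + 8 * C2 * C1 + C2 * C4 + C2 * C5) * r ^ k := by positivity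
        linarith

end

end Crest.Agent.N067.E
end

-- ▼ part N067/E/Step
section

/-! # E/Step (helper69): one step of the improvement of flatness, `e = e_last` -/

set_option autoImplicit false

open MeasureTheory Laplacian InnerProductSpace Topology Filter Set Metric
open scoped RealInnerProductSpace ContDiff Gradient

namespace Crest.Agent.N067.E

open Crest.Agent.R077

noncomputable section

variable {n k : ℕ}

theorem cyl_mono {ρ ρ' b b' : ℝ} (h1 : ρ ≤ ρ') (h2 : b ≤ b') : cyl k ρ b ⊆ cyl k ρ' b' :=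
  fun _ hx => ⟨hx.1.trans_le h1, hx.2.trans_le h2⟩

theorem ball_sub_cyl {z : EE (k + 1)} {ρ ρ' b : ℝ} (h1 : ‖z‖ + ρ ≤ ρ') (h2 : ‖z‖ + ρ ≤ b) :
    ball z ρ ⊆ cyl k ρ' b := by
  intro x hx
  have h : ‖x‖ < ‖z‖ + ρ := by
    have := norm_le_norm_add_norm_sub' x z
    have := mem_ball_iff_norm.1 hx
    linarith
  exact ⟨by linarith [norm_init_le x], by linarith [abs_last_le x]⟩

theorem cont_aff (a : EE n) (c : ℝ) : Continuous fun x : EE n => ⟪a, x⟫ - c :=
  (continuous_const.inner continuous_id).sub continuous_const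

theorem norm_snoc_one (p : EE k) : 1 ≤ ‖snoc p 1‖ ∧ ‖snoc p 1‖ ≤ ‖p‖ + 1 := by
  have h1 := abs_last_le (snoc p 1)
  have h2 := norm_le_split (snoc p 1)
  rw [snoc_last, abs_one] at h1 h2
  rw [init_snoc] at h2
  exact ⟨h1, h2⟩

/-- the energy is concentrated near an affine graph -/
theorem height (k : ℕ) : ∃ B : ℝ, 32 ≤ B ∧ ∀ (θ η : ℝ) (v : EE (k + 1) → ℝ) (r H : ℝ), 0 < θ →
    θ ≤ 1 → 0 < η → η ≤ 1 → Sol v → SLp v → 1 ≤ H → B * H ≤ r → Flat v r (ev (Fin.last k)) H →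
    ∃ (p : EE k) (c : ℝ), ‖p‖ ≤ 1 ∧
      ∫ x in cyl k (θ * (r / 8)) (r / 16), |⟪snoc p 1, x⟫ - c| * en v x ≤
        B * (θ ^ 2 * H * (θ * r) ^ k + H * (η + (H / r + Real.exp (-H)) / η) * r ^ k + r ^ k) := by
  obtain ⟨B1, hB1, h1⟩ := approx k
  have s0p := s0_pos
  obtain ⟨C2, hC2, h2⟩ := colA k (2 * B1 / s0) (by positivity)
  obtain ⟨C5, hC5, h5⟩ := tilt k
  obtain ⟨om, hom, hvol⟩ := exists_om k
  have hM : 0 ≤ B1 / s0 := by positivity
  have p1 : 0 ≤ C2 * om := by positivity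
  have p2 : 0 ≤ C2 * C5 := by positivity
  refine ⟨32 + 32 * (B1 / s0) + B1 + C2 * om + C2 * C5, by linarith,
    fun θ η v r H hθ hθ1 hη hη1 hv hs hH hr hF => ?_⟩
  have H0 : 0 < H := by linarith
  have q1 : 0 ≤ B1 / s0 * H := by positivity
  have q2 : 0 ≤ (B1 + C2 * om + C2 * C5) * H := by positivity
  have hr1 : 32 * H ≤ r := by linarith
  have hr2 : 32 * (B1 / s0 * H) ≤ r := by linarith
  have r0 : 0 < r := by linarith
  obtain ⟨a, p, a1, a2, a3⟩ := h1 θ η v r H hθ hθ1 hη hv hs hH hr1 hF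
  set β := H / r + Real.exp (-H) with hβ
  have β0 : 0 ≤ β := by positivity
  have hρ : θ * (r / 8) ≤ r / 8 := mul_le_of_le_one_left (by linarith) hθ1
  refine ⟨s0⁻¹ • p, -(a / s0), ?_, ?_⟩
  · rw [norm_smul, norm_inv, Real.norm_eq_abs, abs_of_pos s0p]
    refine le_of_mul_le_mul_left ?_ r0
    calc r * (s0⁻¹ * ‖p‖) = s0⁻¹ * (r * ‖p‖) := by ring
      _ ≤ s0⁻¹ * (B1 * H) := by gcongr
      _ = B1 / s0 * H := by ring
      _ ≤ r * 1 := by linarith
  have ce := cont_en hv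
  have cb := cont_bt hv (Fin.last k)
  have cf : Continuous fun x => |⟪snoc (s0⁻¹ • p) 1, x⟫ - -(a / s0)| * en v x :=
    (cont_aff _ _).abs.mul ce
  have cW : Continuous fun y => |WW v (r / 16) y - a - ⟪p, y⟫| :=
    (((c1_WW hv (by linarith)).continuous.sub continuous_const).sub
      (continuous_const.inner continuous_id)).abs
  have cI := cont_icol cb (-(r / 16)) (r / 16)
  have i1 := intOn_ball cW 0 (θ * (r / 8))
  have i2 : IntegrableOn (fun _ : EE k => C2) (ball 0 (θ * (r / 8))) :=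
    intOn_ball continuous_const _ _
  have i3 := (intOn_ball cI 0 (θ * (r / 8))).const_mul (C2 * H)
  rw [setint_cyl cf _ (by linarith)]
  have step : ∫ y in ball (0 : EE k) (θ * (r / 8)), ∫ s in (-(r / 16))..(r / 16),
      |⟪snoc (s0⁻¹ • p) 1, snoc y s⟫ - -(a / s0)| * en v (snoc y s) ≤
      ∫ y in ball (0 : EE k) (θ * (r / 8)), (|WW v (r / 16) y - a - ⟪p, y⟫| + C2
        + C2 * H * ∫ s in (-(r / 16))..(r / 16), bt v (Fin.last k) (snoc y s)) := by
    refine setIntegral_mono_on (intOn_ball (cont_icol cf _ _) _ _) ((i1.add i2).add i3)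
      measurableSet_ball fun y hy => ?_
    have hy' := mem_ball_zero_iff.1 hy
    have l1 : |-((a + ⟪p, y⟫) / s0)| ≤ 2 * B1 / s0 * H := by
      rw [abs_neg, abs_div, abs_of_pos s0p, div_mul_eq_mul_div]
      gcongr
      have b1 := abs_real_inner_le_norm p y
      have b2 : ‖p‖ * ‖y‖ ≤ ‖p‖ * r := by gcongr; linarith
      have b3 := abs_add_le a ⟪p, y⟫
      linarith
    have := (h2 v r H hv hH hr1 hF y _ (by linarith) l1 (l1.trans (by
      have : 2 * B1 / s0 * H = 2 * (B1 / s0 * H) := by ring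
      linarith))).2
    have e1 : s0 * -((a + ⟪p, y⟫) / s0) + WW v (r / 16) y = WW v (r / 16) y - a - ⟪p, y⟫ := by
      field_simp; ring
    have e2 : ∀ s, ⟪snoc (s0⁻¹ • p) 1, snoc y s⟫ - -(a / s0) = s - -((a + ⟪p, y⟫) / s0) := by
      intro s
      rw [inner_snoc, init_snoc, snoc_last, real_inner_smul_left]
      field_simp; ring
    simp only [e2]
    rwa [e1] at this
  refine step.trans ?_
  have i12 : IntegrableOn (fun y => |WW v (r / 16) y - a - ⟪p, y⟫| + C2) (ball 0 (θ * (r / 8))) :=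
    i1.add i2
  rw [integral_add i12 i3, integral_add i1 i2, integral_const_mul, setIntegral_const,
    hvol _ _ (by positivity), ← setint_cyl cb _ (by linarith), smul_eq_mul]
  have t1 : ∫ x in cyl k (θ * (r / 8)) (r / 16), bt v (Fin.last k) x ≤ C5 * (β / η) * r ^ k := by
    refine ((setint_mono_set (integrableOn_cyl cb (r / 4) (r / 8)) (bt_nonneg _ _)
      (cyl_mono (by linarith) (by linarith))).trans (h5 v r H hv hs hH hr1 hF)).trans ?_
    gcongr
    exact le_div_self β0 hη hη1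
  have t2 : (θ * (r / 8)) ^ k ≤ r ^ k := by gcongr; linarith
  have t3 : β / η ≤ η + β / η := by linarith
  set X := θ ^ 2 * H * (θ * r) ^ k
  have X0 : 0 ≤ X := by positivity
  have hrk : 0 ≤ r ^ k := by positivity
  set Y := H * (η + β / η) * r ^ k with hY
  have Y0 : 0 ≤ Y := by positivity
  calc _ ≤ B1 * (X + Y + r ^ k) + om * r ^ k * C2 + C2 * H * (C5 * (η + β / η) * r ^ k) := by
        gcongr
        exact t1.trans (by gcongr)
    _ = B1 * (X + Y + r ^ k) + C2 * om * r ^ k + C2 * C5 * Y := by rw [hY]; ring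
    _ ≤ _ := by
        have : 0 ≤ (32 + 32 * (B1 / s0)) * (X + Y + r ^ k) + C2 * om * (X + Y)
          + C2 * C5 * (X + r ^ k) := by positivity
        linarith

theorem zb_alg {A B1 C2 C3 T X Q Y : ℝ} (hT : 1 ≤ T) (hX : 0 ≤ X) (hQ : 1 ≤ Q) (hY : 0 ≤ Y)
    (hB : 32 ≤ B1) (h2 : 0 ≤ C2) (h3 : 0 ≤ C3)
    (h : A - 2 ≤ C2 * (C3 + B1 * (X * T + Q * (Y + 1)))) :
    A ≤ (B1 + (C2 * C3 + C2 * B1 * T)) * (X + Q * (Y + 1)) := by
  have Z1 : 1 ≤ Q * (Y + 1) := by nlinarith
  generalize Q * (Y + 1) = Z at *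
  have B0 : 0 ≤ B1 := by linarith
  have u1 : C2 * B1 * Z * 1 ≤ C2 * B1 * Z * T :=
    mul_le_mul_of_nonneg_left hT (mul_nonneg (mul_nonneg h2 B0) (by linarith))
  have u2 : C2 * C3 ≤ C2 * C3 * Z := le_mul_of_one_le_right (by positivity) Z1
  have u3 : 2 ≤ B1 * Z := by nlinarith
  have u4 : 0 ≤ (B1 + C2 * C3) * X := by positivity
  linarith

/-- zeros are near an affine graph -/
theorem zero_bound (k : ℕ) (hk : 1 ≤ k) : ∃ B : ℝ, 32 ≤ B ∧
    ∀ (θ η : ℝ) (v : EE (k + 1) → ℝ) (r H : ℝ), 0 < θ → θ ≤ 1 / 2 → 0 < η → η ≤ 1 → Sol v → SLp v →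
    1 ≤ H → B * H ≤ r → 32 ≤ θ * r → Flat v r (ev (Fin.last k)) H →
    ∃ (p : EE k) (c : ℝ), ‖p‖ ≤ 1 ∧ ∀ z, ‖z‖ < θ * r / 16 → v z = 0 → |⟪snoc p 1, z⟫ - c| ≤
      B * (θ ^ 2 * H + (16 / θ) ^ k * (H * (η + (H / r + Real.exp (-H)) / η) + 1)) := by
  obtain ⟨B1, hB1, h1⟩ := height k
  obtain ⟨C2, hC2, h2⟩ := mv k hk
  obtain ⟨C3, hC3, h3⟩ := exists_EN k
  have p1 : 0 ≤ C2 * C3 + C2 * B1 * 16 ^ k := by positivity
  refine ⟨B1 + (C2 * C3 + C2 * B1 * 16 ^ k), by linarith,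
    fun θ η v r H hθ hθ1 hη hη1 hv hs hH hr hr2 hF => ?_⟩
  have H0 : 0 < H := by linarith
  have hr1 : B1 * H ≤ r := by nlinarith
  have r0 : 0 < r := by nlinarith
  obtain ⟨p, c, hp, hI⟩ := h1 θ η v r H hθ (by linarith) hη hη1 hv hs hH hr1 hF
  refine ⟨p, c, hp, fun z hz hz0 => ?_⟩
  set β := H / r + Real.exp (-H) with hβ
  have β0 : 0 ≤ β := by positivity
  set ρ := θ * r / 16 with hρ
  have ρ0 : 0 < ρ := by linarith
  set Q := (16 / θ) ^ k with hQ
  have Q1 : 1 ≤ Q := one_le_pow₀ (by rw [le_div_iff₀ hθ]; linarith)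
  have e1 : r ^ k = Q * ρ ^ k := by
    rw [hQ, hρ, ← mul_pow]; congr 1; field_simp
  have e2 : (θ * r) ^ k = 16 ^ k * ρ ^ k := by
    rw [hρ, ← mul_pow]; congr 1; field_simp
  have ce := cont_en hv
  have cf : Continuous fun x => |⟪snoc p 1, x⟫ - c| * en v x := (cont_aff _ _).abs.mul ce
  have m1 := h2 v hv z (snoc p 1) c ρ hz0 (by linarith)
  have m2 : ∫ x in ball z ρ, Real.sqrt (1 + (⟪snoc p 1, x⟫ - c) ^ 2) * en v x ≤
      (∫ x in ball z ρ, en v x) + ∫ x in ball z ρ, |⟪snoc p 1, x⟫ - c| * en v x := by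
    rw [← integral_add (intOn_ball ce _ _) (intOn_ball cf _ _)]
    refine integral_mono (intOn_ball ((continuous_const.add ((cont_aff _ _).pow 2)).sqrt.mul ce) _ _)
      ((intOn_ball ce _ _).add (intOn_ball cf _ _)) fun x => ?_
    have : Real.sqrt (1 + (⟪snoc p 1, x⟫ - c) ^ 2) ≤ 1 + |⟪snoc p 1, x⟫ - c| := by
      refine Real.sqrt_le_iff.2 ⟨by positivity, ?_⟩
      nlinarith [abs_nonneg (⟪snoc p 1, x⟫ - c), sq_abs (⟪snoc p 1, x⟫ - c)]
    have := mul_le_mul_of_nonneg_right this (Aac.en_nonneg v x)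
    simp only
    linarith
  have m3 : ∫ x in ball z ρ, |⟪snoc p 1, x⟫ - c| * en v x ≤
      ∫ x in cyl k (θ * (r / 8)) (r / 16), |⟪snoc p 1, x⟫ - c| * en v x := by
    refine setint_mono_set (integrableOn_cyl cf _ _)
      (fun x => mul_nonneg (abs_nonneg _) (Aac.en_nonneg v x)) (ball_sub_cyl ?_ ?_)
    · linarith
    · nlinarith
  have m4 := h3 v hv hs z ρ ρ0
  have n1 := (norm_snoc_one p).2
  set Y := H * (η + β / η) with hY
  have Y0 : 0 ≤ Y := by positivity
  have ρk : 0 < ρ ^ k := by positivity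
  have m5 : ρ ^ k * (|⟪snoc p 1, z⟫ - c| - 2) ≤
      ρ ^ k * (C2 * (C3 + B1 * (θ ^ 2 * H * 16 ^ k + Q * (Y + 1)))) := by
    calc _ ≤ ρ ^ k * max 1 (|⟪snoc p 1, z⟫ - c| - ‖snoc p 1‖) := by
          gcongr; exact le_trans (by linarith) (le_max_right _ _)
      _ ≤ C2 * (C3 * ρ ^ k + B1 * (θ ^ 2 * H * (θ * r) ^ k + Y * r ^ k + r ^ k)) := by
          refine m1.trans ?_
          gcongr
          linarith
      _ = _ := by rw [e1, e2]; ring
  have m6 := le_of_mul_le_mul_left m5 ρk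
  exact zb_alg (one_le_pow₀ (by norm_num)) (by positivity) Q1 Y0 hB1 hC2.le hC3 m6

theorem pos_of_no_zero {v : EE n → ℝ} (hv : Continuous v) {S : Set (EE n)} (hS : Convex ℝ S)
    (hz : ∀ x ∈ S, v x ≠ 0) {x0 : EE n} (h0 : x0 ∈ S) (hp : 0 < v x0) {x : EE n} (hx : x ∈ S) :
    0 < v x := by
  by_contra h
  obtain ⟨y, hy, hy0⟩ := hS.isPreconnected.intermediate_value hx h0 hv.continuousOn
    ⟨not_lt.1 h, hp.le⟩
  exact hz y hy hy0

theorem convex_cap (e : EE n) (R D : ℝ) : Convex ℝ {x : EE n | ‖x‖ < R ∧ D < ⟪e, x⟫} := by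
  have h1 : Convex ℝ {x : EE n | D < ⟪e, x⟫} :=
    convex_halfSpace_gt (innerSL ℝ e).toLinearMap.isLinear D
  have h2 : Convex ℝ {x : EE n | ‖x‖ < R} := by
    simpa only [ball, dist_zero_right] using convex_ball (0 : EE n) R
  exact h2.inter h1

theorem flat_of_zeros {v : EE n → ℝ} (hv : Continuous v) {e x0 : EE n} {R D : ℝ}
    (hz : ∀ z, ‖z‖ < R → v z = 0 → |⟪e, z⟫| ≤ D) (h1 : ‖x0‖ < R) (h2 : D < ⟪e, x0⟫)
    (h3 : 0 < v x0) (h4 : v (-x0) < 0) : Flat v R e D := by
  refine ⟨fun x a b => pos_of_no_zero hv (convex_cap e R D) (fun y hy h => ?_) ⟨h1, h2⟩ h3 ⟨a, b⟩,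
    fun x a b => ?_⟩
  · exact absurd ((le_abs_self _).trans (hz y hy.1 h)) (not_le.2 hy.2)
  · have := pos_of_no_zero (x0 := -x0) (x := x) hv.neg (convex_cap (-e) R D) (fun y hy h => ?_)
      ⟨by rwa [norm_neg], by rwa [inner_neg_neg]⟩ (neg_pos.2 h4)
      ⟨a, by rw [inner_neg_left]; linarith⟩
    · exact neg_pos.1 this
    · have h5 := hy.2
      rw [inner_neg_left] at h5
      exact absurd ((neg_le_abs _).trans (hz y hy.1 (neg_eq_zero.1 h))) (not_le.2 h5)

theorem step0 (k : ℕ) (hk : 1 ≤ k) : ∃ θ ε0 K : ℝ, 0 < θ ∧ θ < 1 ∧ 0 < ε0 ∧ 0 < K ∧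
    ∀ (v : EE (k + 1) → ℝ) (r H : ℝ), Sol v → SLp v → v 0 = 0 → K ≤ H → H ≤ ε0 * r →
      Flat v r (ev (Fin.last k)) H → ∃ e : EE (k + 1), ‖e‖ = 1 ∧ Flat v (θ * r) e (θ * H / 2) := by
  obtain ⟨B, hB, h⟩ := zero_bound k hk
  have B0 : 0 < B := by linarith
  obtain ⟨θ, hθ, hθB⟩ : ∃ θ : ℝ, 0 < θ ∧ B * θ = 1 / 256 :=
    ⟨1 / 256 / B, by positivity, by field_simp⟩
  have θ1 : θ ≤ 1 / 2 := by nlinarith
  set Q := (16 / θ) ^ k with hQ
  have Q1 : 1 ≤ Q := one_le_pow₀ (by rw [le_div_iff₀ hθ]; linarith)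
  obtain ⟨η, hη, hηB⟩ : ∃ η : ℝ, 0 < η ∧ B * Q * η = θ / 256 :=
    ⟨θ / 256 / (B * Q), by positivity, by field_simp⟩
  have BQ : 32 ≤ B * Q := by nlinarith
  have η1 : η ≤ θ / 256 := by nlinarith
  have η2 : η * B ≤ 1 := by nlinarith
  refine ⟨θ / 16, η ^ 2 / 2, 2 / η ^ 2, by positivity, by linarith, by positivity, by positivity,
    fun v r H hv hs h0 hK hH hF => ?_⟩
  have e2 : 0 < η ^ 2 := by positivity
  rw [div_le_iff₀ e2] at hK
  have η3 : η ≤ 1 := by linarith
  have η4 : η ^ 2 ≤ η := by nlinarith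
  have H0 : 0 < H := by
    by_contra hc
    nlinarith [mul_nonneg (neg_nonneg.2 (not_lt.1 hc)) e2.le]
  have Hη : 2 ≤ H * η := by nlinarith
  have H1 : 1 ≤ H := by nlinarith
  have r0 : 0 < r := by
    by_contra hc
    nlinarith [mul_nonneg (neg_nonneg.2 (not_lt.1 hc)) e2.le]
  have Hr : 2 * H ≤ η * r := by nlinarith
  have Hr2 : 512 * H ≤ θ * r := by nlinarith
  have Hr3 : B * H ≤ r := by nlinarith
  obtain ⟨p, c, hp, hz⟩ := h θ η v r H hθ θ1 hη η3 hv hs H1 Hr3 (by linarith) hF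
  have b1 : (H / r + Real.exp (-H)) / η ≤ η := by
    rw [div_le_iff₀ hη]
    have a1 : H / r ≤ η ^ 2 / 2 := by rw [div_le_iff₀ r0]; exact hH
    have a2 : Real.exp (-H) ≤ η ^ 2 / 2 := by
      rw [Real.exp_neg, inv_le_comm₀ (Real.exp_pos _) (by positivity), inv_div, div_le_iff₀ e2]
      nlinarith [Real.add_one_le_exp H]
    nlinarith
  have b2 : B * (θ ^ 2 * H + Q * (H * (η + (H / r + Real.exp (-H)) / η) + 1)) ≤ θ * H / 64 := by
    calc _ ≤ B * (θ ^ 2 * H + Q * (H * (η + η) + H * η)) := by gcongr; linarith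
      _ = B * θ * (θ * H) + 3 * (B * Q * η) * H := by ring
      _ = _ := by rw [hθB, hηB]; ring
  have c0 : |c| ≤ θ * H / 64 := by
    have := (hz 0 (by rw [norm_zero]; positivity) h0).trans b2
    rwa [inner_zero_right, zero_sub, abs_neg] at this
  obtain ⟨n1, n2⟩ := norm_snoc_one p
  set a := snoc p 1 with ha
  have a0 : 0 < ‖a‖ := by linarith
  have θr : θ * r ≤ r / 2 := by nlinarith
  have θH : θ * H ≤ H / 2 := by nlinarith
  have nx : ‖(θ * r / 32) • (ev (Fin.last k) : EE (k + 1))‖ = θ * r / 32 := by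
    rw [norm_smul, PiLp.norm_single, norm_one, mul_one, Real.norm_eq_abs,
      abs_of_pos (by linarith)]
  have lx : ⟪ev (Fin.last k), (θ * r / 32) • (ev (Fin.last k) : EE (k + 1))⟫ = θ * r / 32 := by
    rw [inner_last]; simp
  refine ⟨‖a‖⁻¹ • a, norm_smul_inv_norm (norm_pos_iff.1 a0), flat_of_zeros (Sol_cont hv)
    (x0 := (θ * r / 32) • ev (Fin.last k)) (fun z a1 a2 => ?_) (by rw [nx]; linarith) ?_
    (hF.1 _ (by rw [nx]; linarith) (by rw [lx]; linarith))
    (hF.2 _ (by rw [norm_neg, nx]; linarith) (by rw [inner_neg_right, lx]; linarith))⟩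
  · have d1 := (hz z (by linarith) a2).trans b2
    have d2 := abs_add_le (⟪a, z⟫ - c) c
    rw [sub_add_cancel] at d2
    rw [real_inner_smul_left, abs_mul, abs_inv, abs_norm]
    calc _ ≤ 1 * |⟪a, z⟫| := by gcongr; exact inv_le_one_of_one_le₀ n1
      _ ≤ _ := by linarith
  · have d1 : ⟪a, (θ * r / 32) • (ev (Fin.last k) : EE (k + 1))⟫ = θ * r / 32 := by
      rw [real_inner_smul_right, real_inner_comm, inner_last, ha, snoc_last, mul_one]
    rw [real_inner_smul_left, d1, lt_inv_mul_iff₀ a0]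
    have : ‖a‖ * (θ / 16 * H / 2) ≤ 2 * (θ / 16 * H / 2) := by gcongr; linarith
    linarith

end

end Crest.Agent.N067.E
end

-- ▼ part N067/E/Rot
section

/-! # E/Rot (leaf E-Rot): rotation invariance and iteration

`step`: a reflection `R` with `R e_last = e` (`Submodule.reflection_sub`), apply `step0` to `v ∘ R`.
`slab`: from `Flat v R e (ε0 R)` induct on `i`: while `θ^i R ≥ K/ε0` one has
`Flat v (θ^(i+1) R) e_i (max K (ε0 θ^(i+1) R / 2^(i+1)))` (apply `step` with `H = max K (ε0 θ^i R/2^i)`, `Flat.mono`).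
Fix `ρ ≥ K/ε0`; for `R` large take `i` with `θ^(i+1) R < ρ ≤ θ^i R`: `Flat v ρ e_ρ K` as soon as
`ε0 ρ/(θ 2^i) ≤ K`.  A subsequence of `e_ρ`, `ρ = m → ∞`, converges on the sphere: slab of half width `K`. -/

set_option autoImplicit false

open MeasureTheory Laplacian InnerProductSpace Topology Filter Set Metric
open scoped RealInnerProductSpace ContDiff Gradient

namespace Crest.Agent.N067.E

open Crest.Agent.R077

noncomputable section

variable {n k : ℕ}

theorem Sol_iso {v : EE n → ℝ} (h : Sol v) (R : EE n ≃ₗᵢ[ℝ] EE n) : Sol fun x => v (R x) :=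
  ⟨h.sm.comp R.contDiff, fun _ => h.lt _, fun x => (lap_comp_iso h.isSol.c2 R x).trans (h.eq _)⟩

theorem norm_grad_iso (f : EE n → ℝ) (R : EE n ≃ₗᵢ[ℝ] EE n) (x : EE n) :
    ‖∇ (fun y => f (R y)) x‖ = ‖∇ f (R x)‖ := by
  have := R.norm_iteratedFDeriv_comp_right f x 1
  rw [norm_iteratedFDeriv_one, norm_iteratedFDeriv_one] at this
  simpa [gradient, Function.comp_def] using this

theorem Flat.iso {v : EE n → ℝ} {r H : ℝ} {e : EE n} (R : EE n ≃ₗᵢ[ℝ] EE n)
    (h : Flat v r (R e) H) : Flat (fun x => v (R x)) r e H :=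
  ⟨fun x h1 h2 => h.1 _ (by rwa [R.norm_map]) (by rwa [R.inner_map_map]),
    fun x h1 h2 => h.2 _ (by rwa [R.norm_map]) (by rwa [R.inner_map_map])⟩

theorem SLp.iso {v : EE n → ℝ} (_hs : Sol v) (h : SLp v) (R : EE n ≃ₗᵢ[ℝ] EE n) :
    SLp fun x => v (R x) := by
  intro χ h1 h2 h3
  have h4 := h (fun x => χ (R.symm x)) (h1.comp R.symm.contDiff)
    (h2.comp_homeomorph R.symm.toHomeomorph) fun _ => h3 _
  rw [← R.measurePreserving.integral_comp R.toHomeomorph.measurableEmbedding,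
    ← R.measurePreserving.integral_comp R.toHomeomorph.measurableEmbedding
      fun x => _ * Gp (v x)] at h4
  simpa only [en, norm_grad_iso, R.symm_apply_apply] using h4

theorem step (k : ℕ) (hk : 1 ≤ k) : ∃ θ ε0 K : ℝ, 0 < θ ∧ θ < 1 ∧ 0 < ε0 ∧ 0 < K ∧
    ∀ (v : EE (k + 1) → ℝ) (r H : ℝ) (e : EE (k + 1)), Sol v → SLp v → v 0 = 0 → K ≤ H →
      H ≤ ε0 * r → ‖e‖ = 1 → Flat v r e H →
      ∃ e' : EE (k + 1), ‖e'‖ = 1 ∧ Flat v (θ * r) e' (θ * H / 2) := by
  obtain ⟨θ, ε0, K, h1, h2, h3, h4, h⟩ := step0 k hk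
  refine ⟨θ, ε0, K, h1, h2, h3, h4, fun v r H e hv hs h0 hK hH he hF => ?_⟩
  obtain ⟨R, hR⟩ : ∃ R : EE (k + 1) ≃ₗᵢ[ℝ] EE (k + 1), R (ev (Fin.last k)) = e :=
    ⟨_, Submodule.reflection_sub (by rw [he]; simp)⟩
  obtain ⟨e', he', hF'⟩ := h (fun x => v (R x)) r H (Sol_iso hv R) (hs.iso hv R) (by simpa using h0)
    hK hH (Flat.iso R (hR ▸ hF))
  refine ⟨R e', by rwa [R.norm_map], ?_⟩
  have := Flat.iso (e := R e') R.symm (by rwa [R.symm_apply_apply])
  simpa only [R.apply_symm_apply] using this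

theorem slab (k : ℕ) (hk : 1 ≤ k) : ∃ ε0 : ℝ, 0 < ε0 ∧ ∀ v : EE (k + 1) → ℝ, Sol v → SLp v →
    v 0 = 0 → (∀ R0 : ℝ, ∃ (R : ℝ) (e : EE (k + 1)), R0 ≤ R ∧ ‖e‖ = 1 ∧ Flat v R e (ε0 * R)) →
    ∃ (e : EE (k + 1)) (K : ℝ), ‖e‖ = 1 ∧
      (∀ x, K < ⟪e, x⟫ → 0 < v x) ∧ ∀ x, ⟪e, x⟫ < -K → v x < 0 := by
  obtain ⟨θ, ε0, K, h1, h2, h3, h4, h⟩ := step k hk
  refine ⟨ε0, h3, fun v hv hs h0 hF => ?_⟩
  have ind : ∀ (R : ℝ) (e : EE (k + 1)), 0 < R → ‖e‖ = 1 → Flat v R e (ε0 * R) → ∀ i : ℕ,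
      K ≤ ε0 * (θ ^ i * R) → ∃ e' : EE (k + 1), ‖e'‖ = 1 ∧
        Flat v (θ ^ i * R) e' (max K (ε0 * (θ ^ i * R) / 2 ^ i)) := by
    intro R e hR he hf i
    induction i with
    | zero => exact fun _ => ⟨e, he, hf.mono (by simp) (by simp)⟩
    | succ i ih =>
      intro hK
      have hp : 0 < ε0 * (θ ^ i * R) := by positivity
      have hK' : K ≤ ε0 * (θ ^ i * R) := hK.trans (by rw [pow_succ]; nlinarith)
      obtain ⟨e1, he1, hf1⟩ := ih hK'
      obtain ⟨e2, he2, hf2⟩ := h v _ _ e1 hv hs h0 (le_max_left _ _)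
        (max_le hK' (div_le_self hp.le (one_le_pow₀ one_le_two))) he1 hf1
      refine ⟨e2, he2, hf2.mono (le_of_eq (by ring)) ?_⟩
      rcases max_choice K (ε0 * (θ ^ i * R) / 2 ^ i) with e | e <;> rw [e]
      · exact le_max_of_le_left (by nlinarith)
      · exact le_max_of_le_right (le_of_eq (by ring))
  have key : ∀ m : ℕ, ∃ e : EE (k + 1), e ∈ sphere 0 1 ∧ Flat v (K / ε0 + m) e K := fun m => by
    obtain ⟨ρ, hρ⟩ : ∃ ρ, ρ = K / ε0 + m := ⟨_, rfl⟩
    have ρ0 : 0 < ρ := by rw [hρ]; positivity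
    have ρ1 : K ≤ ε0 * ρ := by
      rw [hρ, mul_add, mul_div_cancel₀ _ h3.ne']
      exact le_add_of_nonneg_right (by positivity)
    obtain ⟨j, hj⟩ := pow_unbounded_of_one_lt (ε0 * ρ / θ / K) (one_lt_two (α := ℝ))
    obtain ⟨R, e, hR, he, hf⟩ := hF (ρ / θ ^ j)
    have R0 : 0 < R := lt_of_lt_of_le (by positivity) hR
    rw [div_le_iff₀ (by positivity)] at hR
    obtain ⟨i, i1, i2⟩ := exists_nat_pow_near_of_lt_one (div_pos ρ0 R0) ((div_le_one R0).2
      (hR.trans (mul_le_of_le_one_right R0.le (pow_le_one₀ h1.le h2.le)))) h1 h2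
    rw [lt_div_iff₀ R0] at i1
    rw [div_le_iff₀ R0] at i2
    have hij : j ≤ i := not_lt.1 fun l => by
      have := mul_le_mul_of_nonneg_left (pow_le_pow_of_le_one h1.le h2.le (show i + 1 ≤ j from l)) R0.le
      linarith [mul_comm R (θ ^ (i + 1))]
    obtain ⟨e', he', hf'⟩ := ind R e R0 he hf i (ρ1.trans (by gcongr))
    refine ⟨e', by simpa using he', hρ ▸ hf'.mono i2 (max_le le_rfl ?_)⟩
    rw [div_le_iff₀ (by positivity)]
    rw [div_lt_iff₀ h4, div_lt_iff₀ h1] at hj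
    have a1 : (2 : ℝ) ^ j * K * θ ≤ 2 ^ i * K * θ := by gcongr; exact one_le_two
    have a2 : ε0 * (θ ^ (i + 1) * R) ≤ ε0 * ρ := by gcongr
    refine le_of_mul_le_mul_right ?_ h1
    rw [pow_succ] at a2
    linarith
  choose e he hf using key
  obtain ⟨a, ha, φ, hφ, ht⟩ := (isCompact_sphere (0 : EE (k + 1)) 1).tendsto_subseq he
  have t1 : ∀ x : EE (k + 1), Tendsto (fun m => ⟪e (φ m), x⟫) atTop (𝓝 ⟪a, x⟫) := fun x =>
    ht.inner tendsto_const_nhds
  have t2 : ∀ x : EE (k + 1), ∀ᶠ m in atTop, ‖x‖ < K / ε0 + φ m := fun x =>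
    (tendsto_atTop_add_const_left _ _ (tendsto_natCast_atTop_atTop.comp hφ.tendsto_atTop)).eventually
      (eventually_gt_atTop _)
  refine ⟨a, K, by simpa using ha, fun x hx => ?_, fun x hx => ?_⟩
  · obtain ⟨m, m1, m2⟩ := ((t2 x).and ((t1 x).eventually (lt_mem_nhds hx))).exists
    exact (hf _).1 x m1 m2
  · obtain ⟨m, m1, m2⟩ := ((t2 x).and ((t1 x).eventually (gt_mem_nhds hx))).exists
    exact (hf _).2 x m1 m2

end

end Crest.Agent.N067.E
end

-- ▼ part N067/E/PO
section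

/-! # E/PO (leaf E-PO): `L¹` Poincaré inequality on balls (any proof; e.g. `a` = mean over the ball,
`|W x - W y| ≤ ∫_0^1 ‖∇W(x + t(y-x))‖ 2ρ dt`, split at `t = 1/2`, scale by `t` or `1-t ≥ 1/2`) -/

set_option autoImplicit false

open MeasureTheory Laplacian InnerProductSpace Topology Filter Set Metric
open scoped RealInnerProductSpace ContDiff Gradient

namespace Crest.Agent.N067.E

open Crest.Agent.R077

noncomputable section

variable {n k : ℕ}

theorem po (k : ℕ) : ∃ C : ℝ, 0 ≤ C ∧ ∀ (W : EE k → ℝ) (ρ : ℝ), ContDiff ℝ 1 W → 0 < ρ →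
    ∃ a : ℝ, ∫ y in ball (0 : EE k) ρ, |W y - a| ≤
      C * ρ * ∫ y in ball (0 : EE k) (2 * ρ), ‖∇ W y‖ := by
  refine ⟨2 * 2 ^ k, by positivity, fun W ρ hW hρ => ?_⟩
  have hc := hW.continuous
  have hg : Continuous fun x => ‖∇ W x‖ := by
    have := hW.continuous_fderiv (by norm_num)
    unfold gradient; fun_prop
  have hI : ∀ {f : EE k → ℝ} (r : ℝ), Continuous f → IntegrableOn f (ball (0 : EE k) r) :=
    fun r hf => (hf.continuousOn.integrableOn_compact (isCompact_closedBall 0 r)).mono_set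
      ball_subset_closedBall
  have key := R236.Poinc.poincare (S := ball (0 : EE k) ρ) isOpen_ball (convex_ball _ _)
    hW.contDiffOn (d := 2 * ρ) fun x hx y hy => by
      linarith [dist_triangle_right x y 0, mem_ball.1 hx, mem_ball.1 hy]
  have h0 : volume (ball (0 : EE k) ρ) ≠ 0 := (measure_ball_pos _ _ hρ).ne'
  have h1 : volume (ball (0 : EE k) ρ) ≠ ⊤ := measure_ball_lt_top.ne
  obtain ⟨y, -, hy⟩ := exists_le_setLAverage h0 h1
    (f := fun y => ∫⁻ x in ball (0 : EE k) ρ, ‖W y - W x‖ₑ)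
    (Measurable.lintegral_prod_right' (f := fun p : EE k × EE k => ‖W p.1 - W p.2‖ₑ)
      (by fun_prop)).aemeasurable
  refine ⟨W y, ?_⟩
  have e3 : ∫⁻ z in ball (0 : EE k) ρ, ‖fderiv ℝ W z‖ₑ =
      ENNReal.ofReal (∫ x in ball (0 : EE k) ρ, ‖∇ W x‖) := by
    rw [ofReal_integral_eq_lintegral_ofReal (hI ρ hg) (Eventually.of_forall fun x => norm_nonneg _)]
    refine lintegral_congr fun x => ?_
    rw [gradient, LinearIsometryEquiv.norm_map, ofReal_norm]
  have e2 : ∫⁻ x in ball (0 : EE k) ρ, ‖W y - W x‖ₑ =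
      ENNReal.ofReal (∫ x in ball (0 : EE k) ρ, |W x - W y|) := by
    simp only [abs_sub_comm _ (W y)]
    exact (ofReal_integral_norm_eq_lintegral_enorm (hI ρ (continuous_const.sub hc))).symm
  have h2 : 0 ≤ ∫ x in ball (0 : EE k) ρ, ‖∇ W x‖ := integral_nonneg fun _ => norm_nonneg _
  have h3 : ∫ x in ball (0 : EE k) ρ, ‖∇ W x‖ ≤ ∫ x in ball (0 : EE k) (2 * ρ), ‖∇ W x‖ :=
    setIntegral_mono_set (hI _ hg) (Eventually.of_forall fun x => norm_nonneg _)
      (ball_subset_ball (by linarith)).eventuallyLE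
  rw [setLAverage_eq, e2] at hy
  rw [e3, mul_right_comm, ← mul_assoc] at key
  have h4 := hy.trans (ENNReal.div_le_of_le_mul key)
  rw [show (2 : ENNReal) ^ k = ENNReal.ofReal (2 ^ k) by
      rw [ENNReal.ofReal_pow (by norm_num)]; norm_num,
    ← ENNReal.ofReal_mul (by positivity), ← ENNReal.ofReal_mul (by positivity),
    ENNReal.ofReal_le_ofReal_iff (by positivity)] at h4
  calc _ ≤ _ := h4
    _ = 2 * 2 ^ k * ρ * ∫ x in ball (0 : EE k) ρ, ‖∇ W x‖ := by ring
    _ ≤ _ := by gcongr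

end

end Crest.Agent.N067.E
end

-- ▼ part N067/E/Band2

/-! # E/Band2 (helper69): case (iii) -/

set_option autoImplicit false

open MeasureTheory Laplacian InnerProductSpace Topology Filter Set Metric
open scoped RealInnerProductSpace ContDiff Gradient

namespace Crest.Agent.N067.E

open Crest.Agent.R077

noncomputable section

variable {n k : ℕ}

theorem norm_le_sum_abs (x : EE n) : ‖x‖ ≤ ∑ i, |x i| := by
  refine abs_le_of_sq_le_sq' ?_ (Finset.sum_nonneg fun _ _ => abs_nonneg _) |>.2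
  rw [EuclideanSpace.norm_sq_eq]
  simp only [Real.norm_eq_abs]
  exact Finset.sum_sq_le_sq_sum_of_nonneg fun _ _ => abs_nonneg _

theorem grad_le_sum (f : EE n → ℝ) (x : EE n) : ‖∇ f x‖ ≤ ∑ i, |pdv i f x| := by
  simpa only [grad_apply] using norm_le_sum_abs (∇ f x)

theorem po' (k : ℕ) : ∃ C : ℝ, 0 ≤ C ∧ ∀ (W g : EE k → ℝ) (ρ : ℝ), ContDiff ℝ 1 W → Continuous g →
    0 < ρ → (∀ y, ‖y‖ < 2 * ρ → ‖∇ W y‖ ≤ g y) →
    ∃ a : ℝ, ∫ y in ball (0 : EE k) ρ, |W y - a| ≤ C * ρ * ∫ y in ball (0 : EE k) (2 * ρ), g y := by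
  obtain ⟨C, hC, h⟩ := po k
  refine ⟨C, hC, fun W g ρ hW hg hρ hb => ?_⟩
  obtain ⟨a, ha⟩ := h W ρ hW hρ
  refine ⟨a, ha.trans (mul_le_mul_of_nonneg_left ?_ (by positivity))⟩
  exact setIntegral_mono_on (intOn_ball (cont_gradient hW) _ _) (intOn_ball hg _ _)
    measurableSet_ball fun y hy => hb y (mem_ball_zero_iff.1 hy)

theorem int_le_mean {W : EE k → ℝ} (hW : Continuous W) (a ρ : ℝ) :
    ∫ y in ball (0 : EE k) ρ, W y ≤
      a * volume.real (ball (0 : EE k) ρ) + ∫ y in ball (0 : EE k) ρ, |W y - a| := by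
  have i1 : IntegrableOn (fun _ : EE k => a) (ball 0 ρ) := intOn_ball continuous_const _ _
  have i2 : IntegrableOn (fun y => |W y - a|) (ball 0 ρ) :=
    intOn_ball (hW.sub continuous_const).abs _ _
  rw [mul_comm, ← smul_eq_mul, ← setIntegral_const, ← integral_add i1 i2]
  refine integral_mono (intOn_ball hW _ _) (i1.add i2) fun y => ?_
  have := le_abs_self (W y - a)
  simp only
  linarith

theorem mean_le {W : EE k → ℝ} (hW : Continuous W) (a : ℝ) {ρ A : ℝ}
    (h : ∀ y, ‖y‖ < ρ → |W y| ≤ A) : |a| * volume.real (ball (0 : EE k) ρ) ≤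
      A * volume.real (ball (0 : EE k) ρ) + ∫ y in ball (0 : EE k) ρ, |W y - a| := by
  have i0 : IntegrableOn (fun _ : EE k => |a|) (ball 0 ρ) := intOn_ball continuous_const _ _
  have i1 : IntegrableOn (fun _ : EE k => A) (ball 0 ρ) := intOn_ball continuous_const _ _
  have i2 : IntegrableOn (fun y => |W y - a|) (ball 0 ρ) :=
    intOn_ball (hW.sub continuous_const).abs _ _
  rw [mul_comm, mul_comm A, ← smul_eq_mul, ← smul_eq_mul, ← setIntegral_const, ← setIntegral_const,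
    ← integral_add i1 i2]
  refine setIntegral_mono_on i0 (i1.add i2) measurableSet_ball fun y hy => ?_
  have h1 := h y (mem_ball_zero_iff.1 hy)
  have h2 := abs_sub (W y) (W y - a)
  rw [sub_sub_cancel] at h2
  linarith

/-- a height `L` at which both errors are small -/
theorem small_err (k : ℕ) (κ : ℝ) (hκ : 0 < κ) : ∃ K a : ℝ, 1 ≤ K ∧ 0 < a ∧
    ∀ (u : EE (k + 1) → ℝ) (r : ℝ), Sol u → SLp u → MonoLast u → 0 < r →
      (r ^ 2 * ∫ x in ball (0 : EE (k + 1)) (K * r), sg u x ^ 2 * hsq (dd u) x * psi u x ^ 2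
        ≤ a * r ^ k) → ∃ L μ : ℝ, r ≤ L ∧ 0 < μ ∧ 2 * r + 2 * L ≤ K * r ∧
      L * ∫ y in ball (0 : EE k) (2 * r), (3 * A1 u L μ y + A2 u L y) ≤ κ * r ^ k := by
  obtain ⟨M, hM, h1⟩ := A2_sum
  obtain ⟨C, hC, h2⟩ := exists_EN k
  obtain ⟨om, hom, hvol⟩ := exists_om k
  obtain ⟨J, hJ⟩ := exists_nat_gt (3 * (M * om * 2 ^ k) / κ)
  have J0 : (0 : ℝ) < J := lt_of_le_of_lt (by positivity) hJ
  rw [div_lt_iff₀ hκ] at hJ
  set T : ℝ := 2 ^ J with hT
  have T1 : 1 ≤ T := one_le_pow₀ (by norm_num)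
  set K : ℝ := 2 + 2 * T with hK
  have K0 : 0 < K := by linarith
  obtain ⟨τ, hτ, hτ1⟩ : ∃ τ : ℝ, 0 < τ ∧ 3 * T * (4 * τ * (C * K ^ k)) ≤ κ / 3 := by
    refine ⟨κ / 3 / (12 * T * (C * K ^ k) + 1), by positivity, ?_⟩
    have : 0 ≤ 12 * T * (C * K ^ k) := by positivity
    calc _ = κ / 3 * (12 * T * (C * K ^ k) / (12 * T * (C * K ^ k) + 1)) := by ring
      _ ≤ κ / 3 * 1 := by gcongr; exact div_le_one_of_le₀ (by linarith) (by linarith)
      _ = _ := mul_one _
  refine ⟨K, κ / 3 * τ / (3 * T), by linarith, by positivity, fun u r hu hs hm hr hc => ?_⟩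
  have c2 : ∀ j : ℕ, Continuous (A2 u (2 ^ j * r)) := fun j => cont_A2 hu (by positivity)
  obtain ⟨j, hj, hj2⟩ : ∃ j ∈ Finset.range J, 2 ^ j * r *
      ∫ y in ball (0 : EE k) (2 * r), A2 u (2 ^ j * r) y ≤ κ / 3 * r ^ k := by
    refine Finset.exists_le_of_sum_le (Finset.nonempty_range_iff.2 (by exact_mod_cast J0.ne')) ?_
    simp only [← integral_const_mul]
    rw [← integral_finsetSum _ fun j _ => (intOn_ball (c2 j) _ _).const_mul _]
    calc _ ≤ ∫ _ in ball (0 : EE k) (2 * r), M :=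
          integral_mono (integrable_finsetSum _ fun j _ => (intOn_ball (c2 j) _ _).const_mul _)
            (intOn_ball continuous_const _ _) fun y => h1 k u r J y hu hm hr
      _ = M * om * 2 ^ k * r ^ k := by
          rw [setIntegral_const, hvol _ _ (by positivity), smul_eq_mul, mul_pow]; ring
      _ ≤ J * κ / 3 * r ^ k := by gcongr; linarith
      _ = _ := by rw [Finset.sum_const, Finset.card_range, nsmul_eq_mul]; ring
  have j1 : (1 : ℝ) ≤ 2 ^ j := one_le_pow₀ (by norm_num)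
  have j2 : (2 : ℝ) ^ j ≤ T := pow_le_pow_right₀ (by norm_num) (Finset.mem_range.1 hj).le
  have L0 : 0 < 2 ^ j * r := by positivity
  have L1 : 2 ^ j * r ≤ T * r := by gcongr
  have hKr : 2 * r + 2 * (2 ^ j * r) ≤ K * r := by rw [hK]; linarith
  refine ⟨2 ^ j * r, τ / r, le_mul_of_one_le_left hr.le j1, by positivity, hKr, ?_⟩
  have a1 := int_A1 hu L0 (μ := τ / r) (by positivity) hKr
  have a2 := h2 u hu hs 0 (K * r) (by positivity)
  have a0 : 0 ≤ ∫ y in ball (0 : EE k) (2 * r), A1 u (2 ^ j * r) (τ / r) y :=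
    integral_nonneg fun y => A1_nonneg (by positivity) _ y
  rw [integral_add ((intOn_ball (cont_A1 hu L0 _) _ _).const_mul 3) (intOn_ball (c2 j) _ _),
    integral_const_mul]
  set I := ∫ x in ball (0 : EE (k + 1)) (K * r), sg u x ^ 2 * hsq (dd u) x * psi u x ^ 2
  have a3 : T * r * (3 * ∫ y in ball (0 : EE k) (2 * r), A1 u (2 ^ j * r) (τ / r) y) ≤
      κ / 3 * r ^ k + κ / 3 * r ^ k := by
    calc _ ≤ T * r * (3 * (4 * (τ / r) * (C * (K * r) ^ k) + I / (τ / r))) := by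
          gcongr
          refine a1.trans ?_
          gcongr
      _ = 3 * T * (4 * τ * (C * K ^ k)) * r ^ k + 3 * T / τ * (r ^ 2 * I) := by
          rw [mul_pow]; field_simp
      _ ≤ κ / 3 * r ^ k + 3 * T / τ * (κ / 3 * τ / (3 * T) * r ^ k) := by gcongr
      _ = _ := by field_simp
  have a4 : 2 ^ j * r * (3 * ∫ y in ball (0 : EE k) (2 * r), A1 u (2 ^ j * r) (τ / r) y) ≤
      T * r * (3 * ∫ y in ball (0 : EE k) (2 * r), A1 u (2 ^ j * r) (τ / r) y) := by gcongr
  linarith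

/-- the column barycentre is almost affine -/
theorem affine_fit (k : ℕ) (δ : ℝ) (hδ : 0 < δ) : ∃ m0 B κ0 : ℝ, 0 < m0 ∧ 0 ≤ B ∧ 0 < κ0 ∧
    ∀ (u : EE (k + 1) → ℝ) (r L μ κ : ℝ), Sol u → SLp u → MonoLast u → 0 < r → r ≤ L → 0 < μ →
      0 ≤ κ → κ ≤ κ0 →
      (δ * r ^ k ≤ ∫ x in ball (0 : EE (k + 1)) r, hh (u x) * pdv (Fin.last k) u x) →
      (L * ∫ y in ball (0 : EE k) (2 * r), (3 * A1 u L μ y + A2 u L y) ≤ κ * r ^ k) →
      ∃ (f c : ℝ) (p : EE k), m0 ≤ f ∧
        L * ∫ y in ball (0 : EE k) (r / 2), |FF u L (Fin.last k) y - f| ≤ B * κ * r ^ (k + 1) ∧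
        ∫ y in ball (0 : EE k) (r / 2), |YY u L p y - c * FF u L (Fin.last k) y| ≤
          B * κ * r ^ (k + 1) := by
  obtain ⟨C, hC, h1⟩ := po' k
  obtain ⟨CE, hCE, h2⟩ := exists_EN k
  obtain ⟨om, hom, hvol⟩ := exists_om k
  obtain ⟨τ, hτ, hτ1⟩ : ∃ τ : ℝ, 0 < τ ∧ 4 * τ * CE ≤ δ := by
    refine ⟨δ / (4 * CE + 1), by positivity, ?_⟩
    calc _ = δ * (4 * CE / (4 * CE + 1)) := by ring
      _ ≤ δ * 1 := by gcongr; exact div_le_one_of_le₀ (by linarith) (by linarith)
      _ = _ := mul_one _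
  obtain ⟨N, hN⟩ : ∃ N : ℝ, N = C * k := ⟨_, rfl⟩
  have N0 : 0 ≤ N := by rw [hN]; positivity
  obtain ⟨m0, hm0⟩ : ∃ m0 : ℝ, m0 = τ ^ 3 * δ / (2 * om) := ⟨_, rfl⟩
  have m00 : 0 < m0 := by rw [hm0]; positivity
  have m01 : τ ^ 3 * δ = 2 * (m0 * om) := by rw [hm0]; field_simp
  obtain ⟨P1, hP1⟩ : ∃ P1 : ℝ, P1 = 3 / m0 := ⟨_, rfl⟩
  have P10 : 0 ≤ P1 := by rw [hP1]; positivity
  obtain ⟨B1, hB1⟩ : ∃ B1 : ℝ, B1 = k * (N + P1 * N + (2 + k * P1)) := ⟨_, rfl⟩
  have B10 : 0 ≤ B1 := by rw [hB1]; positivity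
  obtain ⟨B2, hB2⟩ : ∃ B2 : ℝ, B2 = 2 * (2 + k * P1) + C * B1 * 2 ^ k / om := ⟨_, rfl⟩
  have B20 : 0 ≤ B2 := by rw [hB2]; positivity
  obtain ⟨κ0, hκ0, k1, k2, k3⟩ : ∃ κ0 : ℝ, 0 < κ0 ∧ κ0 ≤ 1 ∧ N * κ0 ≤ om ∧ N * κ0 ≤ m0 * om := by
    have : 0 < min om (m0 * om) := by positivity
    refine ⟨min 1 (min om (m0 * om) / (N + 1)), by positivity, min_le_left _ _, ?_⟩
    rw [← le_min_iff]
    calc _ ≤ N * (min om (m0 * om) / (N + 1)) := by gcongr; exact min_le_right _ _
      _ = min om (m0 * om) * (N / (N + 1)) := by ring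
      _ ≤ min om (m0 * om) * 1 := by gcongr; exact div_le_one_of_le₀ (by linarith) (by linarith)
      _ = _ := mul_one _
  refine ⟨m0, N + C * B1 + B2 / m0 * N, κ0, m00, by positivity, hκ0,
    fun u r L μ κ hu hs hm hr hL hμ hκ hκ1 hd hE => ?_⟩
  have L0 : 0 < L := by linarith
  have rk : 0 < r ^ k := by positivity
  set E : EE k → ℝ := fun y => 3 * A1 u L μ y + A2 u L y with hEd
  have cE : Continuous E := (continuous_const.mul (cont_A1 hu L0 μ)).add (cont_A2 hu L0)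
  have E0 : ∀ y, 0 ≤ E y := fun y =>
    add_nonneg (mul_nonneg (by norm_num) (A1_nonneg hμ L y)) (A2_nonneg hu hm L y)
  set D := ∫ y in ball (0 : EE k) (2 * r), E y with hD
  have D0 : 0 ≤ D := integral_nonneg E0
  have cF : ∀ i, Continuous (FF u L i) := fun i => (contDiff_FF hu L0 i).continuous
  have hf : ∀ i, ∃ f : ℝ, ∫ y in ball (0 : EE k) r, |FF u L i y - f| ≤ N * r * D := by
    intro i
    obtain ⟨f, hf⟩ := h1 (FF u L i) (fun y => k * E y) r (contDiff_FF hu L0 i)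
      (continuous_const.mul cE) hr fun y _ => (grad_le_sum _ _).trans (by
        refine (Finset.sum_le_sum fun l _ => abs_pdv_FF hu hm L0 hμ i l y).trans (le_of_eq ?_)
        rw [Finset.sum_const, Finset.card_univ, Fintype.card_fin, nsmul_eq_mul])
    refine ⟨f, hf.trans (le_of_eq ?_)⟩
    rw [integral_const_mul, hN]; ring
  choose f hf using hf
  have G1 : L * (N * r * D) ≤ N * κ * r ^ (k + 1) := by
    calc _ = N * r * (L * D) := by ring
      _ ≤ N * r * (κ * r ^ k) := by gcongr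
      _ = _ := by ring
  have G2 : N * r * D ≤ N * κ * r ^ k := by
    calc _ ≤ N * L * D := by gcongr
      _ = N * (L * D) := by ring
      _ ≤ N * (κ * r ^ k) := by gcongr
      _ = _ := by ring
  have G3 : N * κ ≤ N * κ0 := by gcongr
  have f1 : m0 ≤ f (Fin.last k) := by
    have a1 := int_FF_last hu hm hr hL hτ.le
    have a2 := int_le_mean (cF (Fin.last k)) (f (Fin.last k)) r
    have a3 := h2 u hu hs 0 r hr
    rw [hvol _ _ hr] at a2
    have a4 : 4 * τ ^ 4 * (∫ x in ball (0 : EE (k + 1)) r, en u x) ≤ τ ^ 3 * δ * r ^ k := by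
      calc _ ≤ 4 * τ ^ 4 * (CE * r ^ k) := by gcongr
        _ = τ ^ 3 * (4 * τ * CE) * r ^ k := by ring
        _ ≤ _ := by gcongr
    have a5 : 2 * τ ^ 3 * (δ * r ^ k) ≤ 2 * τ ^ 3 *
        ∫ x in ball (0 : EE (k + 1)) r, hh (u x) * pdv (Fin.last k) u x := by gcongr
    have a6 : N * κ * r ^ k ≤ m0 * om * r ^ k := mul_le_mul_of_nonneg_right (G3.trans k3) rk.le
    have a7 : τ ^ 3 * δ * r ^ k = 2 * (m0 * om) * r ^ k := by rw [m01]
    have a8 := hf (Fin.last k)
    exact le_of_mul_le_mul_right (a := om * r ^ k) (by linarith) (by positivity)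
  have f0 : 0 < f (Fin.last k) := m00.trans_le f1
  have f2 : ∀ i, |f i| ≤ 3 := by
    intro i
    have a1 := mean_le (cF i) (f i) (ρ := r) fun y _ => abs_FF_le hu hm L0 i y
    rw [hvol _ _ hr] at a1
    have a6 : N * κ * r ^ k ≤ om * r ^ k := by gcongr; linarith
    have a8 := hf i
    exact le_of_mul_le_mul_right (a := om * r ^ k) (by linarith) (by positivity)
  set p : EE k := WithLp.toLp 2 fun l => -(f l.castSucc / f (Fin.last k)) with hp
  have p1 : ∀ l, |p l| ≤ P1 := fun l => by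
    show |-(f l.castSucc / f (Fin.last k))| ≤ P1
    rw [abs_neg, abs_div, abs_of_pos f0, hP1]
    gcongr
    exact f2 _
  have p2 : ‖p‖ ≤ k * P1 := by
    refine (norm_le_sum_abs p).trans ((Finset.sum_le_sum fun l _ => p1 l).trans (le_of_eq ?_))
    rw [Finset.sum_const, Finset.card_univ, Fintype.card_fin, nsmul_eq_mul]
  have p3 : ∀ y : EE k, ‖y‖ < r → 2 * L + ‖p‖ * ‖y‖ ≤ (2 + k * P1) * L := fun y hy => by
    have : ‖p‖ * ‖y‖ ≤ k * P1 * L := by gcongr; linarith
    linarith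
  have cA : ∀ i, Continuous fun y => |FF u L i y - f i| := fun i =>
    ((cF i).sub continuous_const).abs
  set g : Fin k → EE k → ℝ := fun l y => |FF u L l.castSucc y - f l.castSucc|
    + (P1 * |FF u L (Fin.last k) y - f (Fin.last k)| + (2 + k * P1) * L * E y) with hg
  have cg : ∀ l, Continuous (g l) := fun l =>
    (cA _).add ((continuous_const.mul (cA _)).add (continuous_const.mul cE))
  obtain ⟨Y, hY⟩ := h1 (YY u L p) (fun y => ∑ l, g l y) (r / 2) (contDiff_YY hu L0 p)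
    (continuous_finsetSum _ fun l _ => cg l) (by linarith) fun y hy =>
    (grad_le_sum _ _).trans (Finset.sum_le_sum fun l _ => by
      have a1 := abs_pdv_YY hu hm L0 hμ p l y
      have a2 : (2 * L + ‖p‖ * ‖y‖) * E y ≤ (2 + k * P1) * L * E y :=
        mul_le_mul_of_nonneg_right (p3 y (by linarith)) (E0 y)
      have a3 : pdv l (YY u L p) y =
          (pdv l (YY u L p) y + FF u L l.castSucc y + p l * FF u L (Fin.last k) y)
          - ((FF u L l.castSucc y - f l.castSucc)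
            + p l * (FF u L (Fin.last k) y - f (Fin.last k))) := by
        have : p l * f (Fin.last k) = -f l.castSucc := by
          show -(f l.castSucc / f (Fin.last k)) * f (Fin.last k) = _
          field_simp
        linarith
      have a4 : |p l * (FF u L (Fin.last k) y - f (Fin.last k))| ≤
          P1 * |FF u L (Fin.last k) y - f (Fin.last k)| := by
        rw [abs_mul]; gcongr; exact p1 l
      rw [a3]
      refine (abs_sub _ _).trans ?_
      have a5 := abs_add_le (FF u L l.castSucc y - f l.castSucc)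
        (p l * (FF u L (Fin.last k) y - f (Fin.last k)))
      simp only [hg]
      linarith)
  rw [show 2 * (r / 2) = r by ring] at hY
  have g1 : ∫ y in ball (0 : EE k) r, ∑ l, g l y ≤ B1 * κ * r ^ k := by
    rw [integral_finsetSum _ fun l _ => intOn_ball (cg l) _ _]
    have a0 : ∫ y in ball (0 : EE k) r, E y ≤ D :=
      setint_mono_set (intOn_ball cE _ _) E0 (ball_subset_ball (by linarith))
    have : ∀ l, ∫ y in ball (0 : EE k) r, g l y ≤ (N + P1 * N + (2 + k * P1)) * κ * r ^ k := by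
      intro l
      have i2 := (intOn_ball (cA (Fin.last k)) 0 r).const_mul P1
      have i3 := (intOn_ball cE 0 r).const_mul ((2 + k * P1) * L)
      have i23 : IntegrableOn (fun y => P1 * |FF u L (Fin.last k) y - f (Fin.last k)|
        + (2 + k * P1) * L * E y) (ball 0 r) := i2.add i3
      simp only [hg]
      rw [integral_add (intOn_ball (cA _) _ _) i23, integral_add i2 i3, integral_const_mul,
        integral_const_mul]
      calc _ ≤ N * κ * r ^ k + (P1 * (N * κ * r ^ k) + (2 + k * P1) * L * D) := by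
            gcongr
            · exact (hf _).trans G2
            · exact (hf _).trans G2
        _ = N * κ * r ^ k + (P1 * (N * κ * r ^ k) + (2 + k * P1) * (L * D)) := by ring
        _ ≤ N * κ * r ^ k + (P1 * (N * κ * r ^ k) + (2 + k * P1) * (κ * r ^ k)) := by gcongr
        _ = _ := by ring
    refine (Finset.sum_le_sum fun l _ => this l).trans (le_of_eq ?_)
    rw [Finset.sum_const, Finset.card_univ, Fintype.card_fin, nsmul_eq_mul, hB1]; ring
  have Y1 : ∫ y in ball (0 : EE k) (r / 2), |YY u L p y - Y| ≤ C * B1 * κ * r ^ (k + 1) := by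
    refine hY.trans ?_
    calc _ ≤ C * r * (B1 * κ * r ^ k) := by
          have : 0 ≤ ∫ y in ball (0 : EE k) r, ∑ l, g l y :=
            integral_nonneg fun y => Finset.sum_nonneg fun l _ => by
              have := E0 y
              simp only [hg]; positivity
          gcongr; linarith
      _ = _ := by ring
  have cY := (contDiff_YY hu L0 p).continuous
  have Y2 : |Y| ≤ B2 * L := by
    have a1 := mean_le cY Y (ρ := r / 2) (A := 2 * ((2 + k * P1) * L)) fun y hy =>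
      (abs_YY_le hu hm L0 p y).trans (by linarith [p3 y (by linarith)])
    rw [hvol _ _ (by linarith)] at a1
    have a2 : C * B1 * κ * r ^ (k + 1) ≤ C * B1 * 2 ^ k / om * L * (om * (r / 2) ^ k) := by
      calc _ = C * B1 * κ * r * r ^ k := by ring
        _ ≤ C * B1 * 1 * L * r ^ k := by gcongr; linarith
        _ = _ := by rw [div_pow]; field_simp
    refine le_of_mul_le_mul_right (a := om * (r / 2) ^ k) ?_ (by positivity)
    rw [hB2]
    linarith
  have F1 : L * ∫ y in ball (0 : EE k) (r / 2), |FF u L (Fin.last k) y - f (Fin.last k)| ≤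
      N * κ * r ^ (k + 1) := by
    refine le_trans ?_ G1
    gcongr
    exact (setint_mono_set (intOn_ball (cA _) _ _) (fun _ => abs_nonneg _)
      (ball_subset_ball (by linarith))).trans (hf _)
  have rk1 : 0 ≤ κ * r ^ (k + 1) := by positivity
  refine ⟨f (Fin.last k), Y / f (Fin.last k), p, f1, F1.trans ?_, ?_⟩
  · have : 0 ≤ (C * B1 + B2 / m0 * N) * (κ * r ^ (k + 1)) := by positivity
    linarith
  · have i1 : IntegrableOn (fun y => |YY u L p y - Y|) (ball 0 (r / 2)) :=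
      intOn_ball (cY.sub continuous_const).abs _ _
    have i2 := (intOn_ball (cA (Fin.last k)) 0 (r / 2)).const_mul (B2 / m0 * L)
    calc _ ≤ ∫ y in ball (0 : EE k) (r / 2), (|YY u L p y - Y|
            + B2 / m0 * L * |FF u L (Fin.last k) y - f (Fin.last k)|) := by
          refine integral_mono (intOn_ball (cY.sub (continuous_const.mul (cF _))).abs _ _)
            (i1.add i2) fun y => ?_
          have a1 : YY u L p y - Y / f (Fin.last k) * FF u L (Fin.last k) y = (YY u L p y - Y)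
              - Y / f (Fin.last k) * (FF u L (Fin.last k) y - f (Fin.last k)) := by
            field_simp; ring
          have a2 : |Y / f (Fin.last k)| ≤ B2 / m0 * L := by
            rw [abs_div, abs_of_pos f0, div_mul_eq_mul_div]; gcongr
          simp only
          rw [a1]
          refine (abs_sub _ _).trans ?_
          rw [abs_mul]
          gcongr
      _ = (∫ y in ball (0 : EE k) (r / 2), |YY u L p y - Y|) + B2 / m0 * (L *
            ∫ y in ball (0 : EE k) (r / 2), |FF u L (Fin.last k) y - f (Fin.last k)|) := by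
          rw [integral_add i1 i2, integral_const_mul]; ring
      _ ≤ C * B1 * κ * r ^ (k + 1) + B2 / m0 * (N * κ * r ^ (k + 1)) := by gcongr
      _ ≤ _ := by
          have : 0 ≤ N * (κ * r ^ (k + 1)) := by positivity
          linarith

/-- `lineB` on a column -/
theorem colB {u : EE (k + 1) → ℝ} (hu : Sol u) (hm : MonoLast u) {L : ℝ} (hL : 0 < L) (p y : EE k)
    (c : ℝ) {w1 w2 : ℝ → ℝ} (c1 : Continuous w1) (c2 : Continuous w2)
    (hw1 : ∀ s, 0 ≤ w1 s ∧ w1 s ≤ 1) (hw2 : ∀ s, 0 ≤ w2 s ∧ w2 s ≤ 1) (z1 : ∀ s, s ≤ 0 → w1 s = 0)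
    (z2 : ∀ s, 0 ≤ s → w2 s = 0) :
    FF u L (Fin.last k) y * ∫ s in (-(2 * L))..(2 * L),
      (w1 (⟪snoc (-p) 1, snoc y s⟫ - c) * Gp (u (snoc y s))
        + w2 (⟪snoc (-p) 1, snoc y s⟫ - c) * Gm (u (snoc y s))) ≤
      |YY u L p y - c * FF u L (Fin.last k) y|
        + 4 * ∫ s in (-(2 * L))..(2 * L), psi u (snoc y s) ^ 2 := by
  set lam : ℝ → ℝ := fun s => xi L s * (sg u (snoc y s) ^ 4 * psi u (snoc y s) ^ 2) with hlam
  have cs : Continuous (sg u) := (B1.sg_sm hu).continuous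
  have cp : Continuous (psi u) := continuous_const.sub ((Sol_cont hu).pow 2)
  have cl : Continuous lam :=
    (c1_xi L).continuous.mul (((cs.pow 4).mul (cp.pow 2)).comp (cont_snoc y))
  have e0 : ∀ s, ⟪snoc (-p) 1, snoc y s⟫ - c = s - (⟪p, y⟫ + c) := fun s => by
    rw [inner_snoc, init_snoc, snoc_last, inner_neg_left]; ring
  have e1 : FF u L (Fin.last k) y = ∫ s in (-(2 * L))..(2 * L), lam s := by
    unfold FF
    rw [col_eq (b := 2 * L) (by linarith) (VC.xi hL _)]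
    congr 1; funext s
    simp only [hlam, snoc_last, sg]; ring
  have e2 : YY u L p y - c * FF u L (Fin.last k) y =
      ∫ s in (-(2 * L))..(2 * L), (s - (⟪p, y⟫ + c)) * lam s := by
    have e3 : YY u L p y = ∫ s in (-(2 * L))..(2 * L), (s - ⟪p, y⟫) * lam s := by
      unfold YY
      rw [col_eq (b := 2 * L) (by linarith) (VC.xi hL _)]
      congr 1; funext s
      simp only [hlam, snoc_last, init_snoc]; ring
    have i1 : IntervalIntegrable (fun s => (s - ⟪p, y⟫) * lam s) volume (-(2 * L)) (2 * L) :=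
      ((continuous_id.sub continuous_const).mul cl).intervalIntegrable _ _
    have i2 : IntervalIntegrable (fun s => c * lam s) volume (-(2 * L)) (2 * L) :=
      (continuous_const.mul cl).intervalIntegrable _ _
    rw [e1, e3, ← intervalIntegral.integral_const_mul, ← intervalIntegral.integral_sub i1 i2]
    congr 1; funext s; ring
  have := lineB (fun s => u (snoc y s)) (fun s => pdv (Fin.last k) u (snoc y s)) lam
    (fun s => w1 (s - (⟪p, y⟫ + c))) (fun s => w2 (s - (⟪p, y⟫ + c))) (2 * L) (⟪p, y⟫ + c)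
    (by linarith) (fun s => hasDerivAt_snoc (Sol_diff hu _))
    ((Sol_cont_pdv hu _).comp (cont_snoc y)) (fun s => (hu.lt _).le) (fun s => (hm _).le) cl
    (fun s => mul_nonneg (xi_nonneg _ _) (by positivity))
    (fun s => by
      rw [hh_mul_pdv hu]
      have a1 := (sg_pos hu hm (snoc y s)).le
      have a2 := B1.sg_le hu (snoc y s)
      have a3 : sg u (snoc y s) ^ 4 ≤ sg u (snoc y s) := pow_le_of_le_one a1 a2 (by norm_num)
      have a4 := xi_le_one L s
      calc lam s ≤ 1 * (sg u (snoc y s) * psi u (snoc y s) ^ 2) := by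
            simp only [hlam]; gcongr
        _ = _ := by unfold sg; ring)
    (c1.comp (continuous_id.sub continuous_const)) (c2.comp (continuous_id.sub continuous_const))
    (fun s => hw1 _) (fun s => hw2 _) (fun s hs => z1 _ (by linarith))
    (fun s hs => z2 _ (by linarith))
  simp only [e0]
  rw [e2, e1]
  exact this

theorem band_core (k : ℕ) (δ κ : ℝ) (hδ : 0 < δ) (hκ : 0 < κ) :
    ∃ K a r1 : ℝ, 1 ≤ K ∧ 0 < a ∧ 0 < r1 ∧ ∀ (u : EE (k + 1) → ℝ) (r : ℝ), Sol u → SLp u →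
      MonoLast u → r1 ≤ r →
      (δ * r ^ k ≤ ∫ x in ball (0 : EE (k + 1)) r, hh (u x) * pdv (Fin.last k) u x) →
      (r ^ 2 * ∫ x in ball (0 : EE (k + 1)) (K * r), sg u x ^ 2 * hsq (dd u) x * psi u x ^ 2
        ≤ a * r ^ k) → ∃ (p : EE k) (c : ℝ), ∀ w1 w2 : ℝ → ℝ, Continuous w1 → Continuous w2 →
        (∀ s, 0 ≤ w1 s ∧ w1 s ≤ 1) → (∀ s, 0 ≤ w2 s ∧ w2 s ≤ 1) → (∀ s, s ≤ 0 → w1 s = 0) →
        (∀ s, 0 ≤ s → w2 s = 0) → ∫ x in ball (0 : EE (k + 1)) (r / 2),
          (w1 (⟪snoc p 1, x⟫ - c) * Gp (u x) + w2 (⟪snoc p 1, x⟫ - c) * Gm (u x)) ≤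
            κ * r ^ (k + 1) := by
  obtain ⟨m0, B, κ0, hm0, hB, hκ0, h1⟩ := affine_fit k δ hδ
  obtain ⟨κ1, k0, k1, k2⟩ : ∃ κ1 : ℝ, 0 < κ1 ∧ κ1 ≤ κ0 ∧ 5 * B * κ1 ≤ m0 * κ / 2 := by
    refine ⟨min κ0 (m0 * κ / 2 / (5 * B + 1)), by positivity, min_le_left _ _, ?_⟩
    calc _ ≤ 5 * B * (m0 * κ / 2 / (5 * B + 1)) := by gcongr; exact min_le_right _ _
      _ = m0 * κ / 2 * (5 * B / (5 * B + 1)) := by ring
      _ ≤ m0 * κ / 2 * 1 := by gcongr; exact div_le_one_of_le₀ (by linarith) (by linarith)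
      _ = _ := mul_one _
  obtain ⟨K, a, hK, ha, h2⟩ := small_err k κ1 k0
  obtain ⟨C, hC, h3⟩ := exists_EN k
  refine ⟨K, a, 16 * C * K ^ k / (m0 * κ / 2) + 1, hK, ha, by positivity,
    fun u r hu hs hm hr hd hc => ?_⟩
  have q0 : 0 ≤ 16 * C * K ^ k / (m0 * κ / 2) := by positivity
  have r0 : 0 < r := by linarith
  have r1 : 16 * C * K ^ k ≤ m0 * κ / 2 * r := by
    rw [mul_comm (m0 * κ / 2), ← div_le_iff₀ (by positivity)]; linarith
  obtain ⟨L, μ, hL, hμ, hKL, hE⟩ := h2 u r hu hs hm r0 hc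
  obtain ⟨f, c, p, f1, f2, f3⟩ := h1 u r L μ κ1 hu hs hm r0 hL hμ k0.le k1 hd hE
  have L0 : 0 < L := by linarith
  refine ⟨-p, c, fun w1 w2 c1 c2 hw1 hw2 z1 z2 => ?_⟩
  have cu := Sol_cont hu
  set g : EE (k + 1) → ℝ := fun x =>
    w1 (⟪snoc (-p) 1, x⟫ - c) * Gp (u x) + w2 (⟪snoc (-p) 1, x⟫ - c) * Gm (u x) with hg
  have cg : Continuous g :=
    ((c1.comp (cont_aff _ _)).mul ((contDiff_Gp (m := 0)).continuous.comp cu)).add
      ((c2.comp (cont_aff _ _)).mul ((contDiff_Gm (m := 0)).continuous.comp cu))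
  have g0 : ∀ x, 0 ≤ g x := fun x => add_nonneg (mul_nonneg (hw1 _).1 (Gp_nonneg (hu.lt x).le))
    (mul_nonneg (hw2 _).1 (Gm_nonneg (hu.lt x).le))
  have g1 : ∀ x, g x ≤ 1 := fun x => by
    have a1 := mul_le_of_le_one_left (Gp_nonneg (hu.lt x).le) (hw1 (⟪snoc (-p) 1, x⟫ - c)).2
    have a2 := mul_le_of_le_one_left (Gm_nonneg (hu.lt x).le) (hw2 (⟪snoc (-p) 1, x⟫ - c)).2
    have a3 := Gm_add_Gp (u x)
    have a4 := s0_le_one
    simp only [hg]; linarith
  have cp : Continuous fun x => psi u x ^ 2 := (continuous_const.sub (cu.pow 2)).pow 2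
  have cI := cont_icol cg (-(2 * L)) (2 * L)
  have cP := cont_icol cp (-(2 * L)) (2 * L)
  have cF := (contDiff_FF hu L0 (Fin.last k)).continuous
  have cY := (contDiff_YY hu L0 p).continuous
  have i1 : IntegrableOn (fun y => |YY u L p y - c * FF u L (Fin.last k) y|) (ball 0 (r / 2)) :=
    intOn_ball (cY.sub (continuous_const.mul cF)).abs _ _
  have i2 := (intOn_ball cP 0 (r / 2)).const_mul 4
  have i3 : IntegrableOn (fun y => 4 * L * |FF u L (Fin.last k) y - f|) (ball 0 (r / 2)) :=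
    (intOn_ball (cF.sub continuous_const).abs _ _).const_mul _
  have i12 : IntegrableOn (fun y => |YY u L p y - c * FF u L (Fin.last k) y|
      + 4 * ∫ s in (-(2 * L))..(2 * L), psi u (snoc y s) ^ 2) (ball 0 (r / 2)) := i1.add i2
  have s1 : ∫ x in ball (0 : EE (k + 1)) (r / 2), g x ≤ ∫ x in cyl k (r / 2) (2 * L), g x :=
    setint_mono_set (integrableOn_cyl cg _ _) g0
      (ball_sub_cyl (by rw [norm_zero]; linarith) (by rw [norm_zero]; linarith))
  have s2 : m0 * ∫ x in cyl k (r / 2) (2 * L), g x ≤ ∫ y in ball (0 : EE k) (r / 2),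
      (|YY u L p y - c * FF u L (Fin.last k) y|
        + (4 * ∫ s in (-(2 * L))..(2 * L), psi u (snoc y s) ^ 2)
        + 4 * L * |FF u L (Fin.last k) y - f|) := by
    rw [setint_cyl cg _ (by linarith), ← integral_const_mul]
    refine integral_mono ((intOn_ball cI _ _).const_mul _) (i12.add i3) fun y => ?_
    have a1 := colB hu hm L0 p y c c1 c2 hw1 hw2 z1 z2
    have a2 : 0 ≤ ∫ s in (-(2 * L))..(2 * L), g (snoc y s) :=
      intervalIntegral.integral_nonneg (by linarith) fun s _ => g0 _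
    have a3 : ∫ s in (-(2 * L))..(2 * L), g (snoc y s) ≤ 4 * L := by
      calc _ ≤ ∫ _ in (-(2 * L))..(2 * L), (1 : ℝ) :=
            intervalIntegral.integral_mono (by linarith)
              ((cg.comp (cont_snoc y)).intervalIntegrable _ _) intervalIntegrable_const
              fun s => g1 _
        _ = _ := by rw [intervalIntegral.integral_const, smul_eq_mul]; ring
    change FF u L (Fin.last k) y * ∫ s in (-(2 * L))..(2 * L), g (snoc y s) ≤ _ at a1
    simp only
    set I := ∫ s in (-(2 * L))..(2 * L), g (snoc y s)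
    have a4 : (m0 - FF u L (Fin.last k) y) * I ≤ |FF u L (Fin.last k) y - f| * (4 * L) :=
      mul_le_mul (by linarith [neg_le_abs (FF u L (Fin.last k) y - f)]) a3 a2 (abs_nonneg _)
    linarith
  have s3 : ∫ y in ball (0 : EE k) (r / 2), ∫ s in (-(2 * L))..(2 * L), psi u (snoc y s) ^ 2 ≤
      4 * (C * (K * r) ^ k) := by
    rw [← setint_cyl cp _ (by linarith)]
    calc _ ≤ ∫ x in ball (0 : EE (k + 1)) (K * r), psi u x ^ 2 :=
          setint_mono_set (intOn_ball cp _ _) (fun _ => sq_nonneg _)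
            ((cyl_subset _ _).trans (ball_subset_ball (by linarith)))
      _ ≤ ∫ x in ball (0 : EE (k + 1)) (K * r), 4 * en u x :=
          integral_mono (intOn_ball cp _ _) ((intOn_ball (cont_en hu) _ _).const_mul _)
            fun x => psi_sq_le u x
      _ ≤ _ := by
          rw [integral_const_mul]
          gcongr
          exact h3 u hu hs 0 _ (by positivity)
  rw [integral_add i12 i3, integral_add i1 i2, integral_const_mul, integral_const_mul] at s2
  have rk : 0 < r ^ k := by positivity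
  have s4 : 16 * C * K ^ k * r ^ k ≤ m0 * κ / 2 * r * r ^ k := by gcongr
  have s5 : 5 * B * κ1 * r ^ (k + 1) ≤ m0 * κ / 2 * r ^ (k + 1) := by gcongr
  have s6 := mul_le_mul_of_nonneg_left s1 hm0.le
  refine le_of_mul_le_mul_left ?_ hm0
  rw [mul_pow] at s3
  rw [pow_succ] at *
  linarith

theorem band (k : ℕ) (hk : 1 ≤ k) (ε δ : ℝ) (hε : 0 < ε) (hδ : 0 < δ) :
    ∃ K a r1 : ℝ, 1 ≤ K ∧ 0 < a ∧ ∀ (u : EE (k + 1) → ℝ) (r : ℝ), Mn u → MonoLast u → u 0 = 0 →
      r1 ≤ r → (δ * r ^ k ≤ ∫ x in ball (0 : EE (k + 1)) r, hh (u x) * pdv (Fin.last k) u x) →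
      (r ^ 2 * ∫ x in ball (0 : EE (k + 1)) (K * r), sg u x ^ 2 * hsq (dd u) x * psi u x ^ 2
        ≤ a * r ^ k) →
      ∃ e : EE (k + 1), ‖e‖ = 1 ∧ Flat u (r / 4) e (ε * r) := by
  obtain ⟨c0, hc0, h1⟩ := clr k hk
  obtain ⟨η, hη, η1, η2⟩ : ∃ η : ℝ, 0 < η ∧ η ≤ 1 / 4 ∧ 4 * η ≤ ε :=
    ⟨min (1 / 4) (ε / 4), by positivity, min_le_left _ _, by linarith [min_le_right (1 / 4) (ε / 4)]⟩
  obtain ⟨K, a, r1, hK, ha, hr1, h2⟩ := band_core k δ (c0 * η ^ (k + 1) / 2) hδ (by positivity)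
  refine ⟨K, a, max r1 (8 / η), hK, ha, fun u r hu hm h0 hr hd hc => ?_⟩
  have r0 : 0 < r := hr1.trans_le ((le_max_left _ _).trans hr)
  have ρ8 : 8 ≤ η * r := by
    rw [mul_comm, ← div_le_iff₀ hη]; exact (le_max_right _ _).trans hr
  obtain ⟨p, c, h⟩ := h2 u r hu.sol hu.slp hm ((le_max_left _ _).trans hr) hd hc
  set ρ := η * r with hρ
  have ρ0 : 0 < ρ := by linarith
  have ρ1 : ρ ≤ r / 4 := by nlinarith
  have hlt : c0 * η ^ (k + 1) / 2 * r ^ (k + 1) < c0 * ρ ^ (k + 1) := by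
    have : 0 < c0 * η ^ (k + 1) * r ^ (k + 1) := by positivity
    rw [hρ, mul_pow]; linarith
  set w : ℝ → ℝ := fun s => min 1 (max 0 (s / ρ)) with hw
  have cw : Continuous w := continuous_const.min (continuous_const.max (continuous_id.div_const _))
  have w0 : ∀ s, 0 ≤ w s ∧ w s ≤ 1 := fun s =>
    ⟨le_min zero_le_one (le_max_left _ _), min_le_left _ _⟩
  have wz : ∀ s, s ≤ 0 → w s = 0 := fun s hs => by
    simp only [hw, max_eq_left (div_nonpos_of_nonpos_of_nonneg hs ρ0.le), min_eq_right zero_le_one]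
  have w1 : ∀ s, ρ ≤ s → w s = 1 := fun s hs =>
    min_eq_left (le_max_of_le_right ((one_le_div ρ0).2 hs))
  obtain ⟨n1, -⟩ := norm_snoc_one p
  set A := snoc p 1 with hA
  have A0 : 0 < ‖A‖ := by linarith
  have cu := Sol_cont hu.sol
  have cp : Continuous fun x => Gp (u x) := (contDiff_Gp (m := 0)).continuous.comp cu
  have cm : Continuous fun x => Gm (u x) := (contDiff_Gm (m := 0)).continuous.comp cu
  have sub : ∀ z : EE (k + 1), ‖z‖ < r / 4 → ball z ρ ⊆ ball 0 (r / 2) := fun z hz =>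
    ball_subset_ball' (by rw [dist_zero_right]; linarith)
  have near : ∀ z x : EE (k + 1), x ∈ ball z ρ → |⟪A, x⟫ - ⟪A, z⟫| ≤ ‖A‖ * ρ := fun z x hx => by
    rw [← inner_sub_right]
    refine (abs_real_inner_le_norm _ _).trans ?_
    gcongr
    exact (mem_ball_iff_norm.1 hx).le
  have Aρ : ρ ≤ ‖A‖ * ρ := le_mul_of_one_le_left ρ0.le n1
  have pos : ∀ z : EE (k + 1), ‖z‖ < r / 4 → 2 * (‖A‖ * ρ) < ⟪A, z⟫ - c → 0 < u z := by
    intro z hz hA'
    by_contra hc'
    have a1 := h1 u hu.sol hu.slp z ρ ρ8 (not_lt.1 hc')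
    have a2 := h w (fun _ => 0) cw continuous_const w0 (fun _ => ⟨le_rfl, zero_le_one⟩) wz
      fun _ _ => rfl
    simp only [zero_mul, add_zero] at a2
    have cg : Continuous fun x => w (⟪A, x⟫ - c) * Gp (u x) := (cw.comp (cont_aff _ _)).mul cp
    have a3 := setint_mono_set (intOn_ball cg 0 (r / 2))
      (fun x => mul_nonneg (w0 _).1 (Gp_nonneg (hu.sol.lt x).le)) (sub z hz)
    have a4 : ∫ x in ball z ρ, w (⟪A, x⟫ - c) * Gp (u x) = ∫ x in ball z ρ, Gp (u x) :=
      setIntegral_congr_fun measurableSet_ball fun x hx => by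
        have := abs_le.1 (near z x hx)
        rw [w1 _ (by linarith), one_mul]
    linarith
  have neg : ∀ z : EE (k + 1), ‖z‖ < r / 4 → ⟪A, z⟫ - c < -(2 * (‖A‖ * ρ)) → u z < 0 := by
    intro z hz hA'
    by_contra hc'
    have a1 := h1 _ (Sol_neg hu.sol) hu.slm z ρ ρ8 (neg_nonpos.2 (not_lt.1 hc'))
    simp only [Gp_neg] at a1
    have a2 := h (fun _ => 0) (fun s => w (-s)) continuous_const (cw.comp continuous_neg)
      (fun _ => ⟨le_rfl, zero_le_one⟩) (fun _ => w0 _) (fun _ _ => rfl)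
      fun s hs => wz _ (neg_nonpos.2 hs)
    simp only [zero_mul, zero_add] at a2
    have cg : Continuous fun x => w (-(⟪A, x⟫ - c)) * Gm (u x) :=
      (cw.comp (cont_aff _ _).neg).mul cm
    have a3 := setint_mono_set (intOn_ball cg 0 (r / 2))
      (fun x => mul_nonneg (w0 _).1 (Gm_nonneg (hu.sol.lt x).le)) (sub z hz)
    have a4 : ∫ x in ball z ρ, w (-(⟪A, x⟫ - c)) * Gm (u x) = ∫ x in ball z ρ, Gm (u x) :=
      setIntegral_congr_fun measurableSet_ball fun x hx => by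
        have := abs_le.1 (near z x hx)
        rw [w1 _ (by linarith), one_mul]
    linarith
  have z0 : ‖(0 : EE (k + 1))‖ < r / 4 := by rw [norm_zero]; linarith
  have c1 : -c ≤ 2 * (‖A‖ * ρ) := by
    by_contra hc'
    exact (pos 0 z0 (by rw [inner_zero_right]; linarith)).ne' h0
  have c2 : c ≤ 2 * (‖A‖ * ρ) := by
    by_contra hc'
    exact (neg 0 z0 (by rw [inner_zero_right]; linarith)).ne h0
  have ε1 : ‖A‖ * (4 * ρ) ≤ ‖A‖ * (ε * r) :=
    mul_le_mul_of_nonneg_left (by nlinarith) A0.le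
  refine ⟨‖A‖⁻¹ • A, norm_smul_inv_norm (norm_pos_iff.1 A0), fun z a1 a2 => pos z a1 ?_,
    fun z a1 a2 => neg z a1 ?_⟩
  · rw [real_inner_smul_left, lt_inv_mul_iff₀ A0] at a2
    linarith
  · rw [real_inner_smul_left, inv_mul_lt_iff₀ A0] at a2
    linarith

end

end Crest.Agent.N067.E
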